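import Vale.Agent.P028.Tame.AnatTameTools

/-! Proof of `AnatTameStmt`: the weight of one pair, for any two levels. -/

namespace Vale.Agent.P028.Tame

open Finset Real
open scoped Classical

variable {γ : ℝ} {A : ℕ → ℤ} {B : ℕ → ℕ} {l L q r : ℕ}

/-- On the exact line of a common class the gap is huge. -/
theorem same_gap (h : IsCls γ A B) (hlL : l ≤ L) (hq : 0 < q) (hr : 0 < r) (hne : q ≠ r)
    (hs : SameCls A B l L) {n : ℤ} (hn : n ∈ nRange γ l L q r) (hc : coinForm A B l L q r n = 0)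
    (hrho : rho γ A B l L q r n ≠ 0) : (2 : ℝ) ^ l ≤ dgap l L q r := by
  obtain ⟨hA, hB⟩ := hs
  obtain ⟨hb1, -, hcop, -⟩ := h l
  obtain ⟨hB1, hB2, he⟩ := cls_real h l
  obtain ⟨-, -, he'⟩ := cls_real h L
  obtain ⟨hrl, -, hD⟩ := dgap_facts (r := r) hq l L
  set D := dgap l L q r with hDdef
  have hB0 : (B l : ℤ) ≠ 0 := by exact_mod_cast (show B l ≠ 0 by omega)
  have hline : (B l : ℤ) * n + A l * ((red r q : ℤ) - red q r) = 0 := by
    have h1 : (B l : ℤ) * ((B l : ℤ) * n + A l * ((red r q : ℤ) - red q r)) = 0 := by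
      rw [← hc, coinForm, ← hA, ← hB]; ring
    exact (mul_eq_zero.1 h1).resolve_left hB0
  have hcopB : ∀ p : ℕ, p.Prime → p ∣ red q r ∨ p ∣ red r q → ¬ p ∣ B l := by
    intro p hp hor hpB
    have hpA : ¬ (p : ℤ) ∣ A l := fun hA' =>
      (Nat.prime_iff_prime_int.1 hp).not_isUnit (hcop.isUnit_of_dvd' hA' (Int.natCast_dvd_natCast.2 hpB))
    have hd : (p : ℤ) ∣ (red r q : ℤ) - red q r := by
      have h2 : (p : ℤ) ∣ A l * ((red r q : ℤ) - red q r) := by
        have h3 : A l * ((red r q : ℤ) - red q r) = -((B l : ℤ) * n) := by linarith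
        rw [h3]; exact (Dvd.dvd.mul_right (Int.natCast_dvd_natCast.2 hpB) _).neg_right
      exact ((Nat.prime_iff_prime_int.1 hp).dvd_mul.1 h2).resolve_left hpA
    rcases hor with h' | h'
    · refine not_both hq hp h' (Int.natCast_dvd_natCast.1 ?_)
      simpa using dvd_add hd (Int.natCast_dvd_natCast.2 h')
    · refine not_both hq hp (Int.natCast_dvd_natCast.1 ?_) h'
      simpa using dvd_sub (Int.natCast_dvd_natCast.2 h') hd
  have hL1 : rhoLeft γ A B l q r n ≠ 0 := fun h0 => hrho (by simp [rho, h0])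
  have hL2 : rhoLeft γ A B L r q (-n) ≠ 0 := fun h0 => hrho (by simp [rho, h0])
  have he2 : eps γ A B L = eps γ A B l := by simp only [eps, hA, hB]
  rw [he2] at he'
  have hel : |eps γ A B l| ≤ ((2 : ℝ) ^ l)⁻¹ := he.le
  have h2l : (0 : ℝ) < (2 : ℝ) ^ l := by positivity
  have hb : |eps γ A B l| * (red r q : ℝ) ≤ D * (2 : ℝ) ^ l := by
    refine (mul_le_mul hel hrl (Nat.cast_nonneg _) (by positivity)).trans_eq ?_
    rw [four_pow_eq]; field_simp
  have ha : |eps γ A B l| * (red q r : ℝ) ≤ 3 * (D * (2 : ℝ) ^ l) := by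
    have hid : eps γ A B l * ((red r q : ℝ) - red q r) =
        (B l : ℝ) * (n + γ * ((red r q : ℝ) - red q r)) := by
      have hlineR : (B l : ℝ) * n + (A l : ℝ) * ((red r q : ℝ) - red q r) = 0 := by
        exact_mod_cast hline
      simp only [eps]; linear_combination -hlineR
    have h1 : |eps γ A B l * ((red r q : ℝ) - red q r)| ≤ 2 * (D * (2 : ℝ) ^ l) := by
      rw [hid, abs_mul, Nat.abs_cast]
      refine (mul_le_mul hB2 (nRange_bound hn) (abs_nonneg _) h2l.le).trans_eq ?_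
      rw [← hDdef]; ring
    have h2 := abs_sub (eps γ A B l * (red r q : ℝ)) (eps γ A B l * ((red r q : ℝ) - red q r))
    rw [show eps γ A B l * (red r q : ℝ) - eps γ A B l * ((red r q : ℝ) - red q r) =
      eps γ A B l * (red q r : ℝ) by ring, abs_mul, abs_mul _ (red r q : ℝ), Nat.abs_cast,
      Nat.abs_cast] at h2
    linarith
  have hfin : 4 * (4 : ℝ) ^ l < 3 * (D * (2 : ℝ) ^ l) → (2 : ℝ) ^ l ≤ D := by
    intro hh
    rw [four_pow_eq] at hh
    refine le_of_mul_le_mul_right ?_ h2l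
    nlinarith
  have hside : red q r ≠ 1 ∨ red r q ≠ 1 := by
    by_contra hcon
    push Not at hcon
    apply hne
    have e1 := mul_red q r
    have e2 := mul_red r q
    rw [hcon.1, mul_one] at e1
    rw [hcon.2, mul_one, Nat.gcd_comm] at e2
    omega
  rcases hside with h1 | h1
  · obtain ⟨p, hp, hpd⟩ := Nat.exists_prime_and_dvd h1
    have hmem : p ∈ (red q r).primeFactors := Nat.mem_primeFactors.2 ⟨hp, hpd, (red_pos hq).ne'⟩
    have hnd : ¬ Det γ A B l p := by
      intro hD'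
      refine kill_left hL1 hmem hD' ?_
      have : (B l : ℤ) * n + A l * red r q = A l * red q r := by linear_combination hline
      rw [this]; exact (Int.natCast_dvd_natCast.2 hpd).mul_left _
    simp only [Det, not_and, not_le] at hnd
    refine hfin ((hnd (hcopB p hp (Or.inl hpd))).trans_le (le_trans ?_ ha))
    exact mul_le_mul_of_nonneg_left (by exact_mod_cast Nat.le_of_dvd (red_pos hq) hpd) (abs_nonneg _)
  · obtain ⟨p, hp, hpd⟩ := Nat.exists_prime_and_dvd h1
    have hmem : p ∈ (red r q).primeFactors := Nat.mem_primeFactors.2 ⟨hp, hpd, (red_pos hr).ne'⟩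
    have hnd : ¬ Det γ A B L p := by
      intro hD'
      refine kill_left hL2 hmem hD' ?_
      have : (B L : ℤ) * -n + A L * red q r = A L * red r q := by
        rw [← hA, ← hB]; linear_combination -hline
      rw [this]; exact (Int.natCast_dvd_natCast.2 hpd).mul_left _
    simp only [Det, not_and, not_le] at hnd
    have hlt : 4 * (4 : ℝ) ^ L < |eps γ A B L| * p := hnd (hB ▸ hcopB p hp (Or.inr hpd))
    rw [he2] at hlt
    have h4 : (4 : ℝ) ^ l ≤ (4 : ℝ) ^ L := pow_le_pow_right₀ (by norm_num) hlL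
    have hple : |eps γ A B l| * (p : ℝ) ≤ |eps γ A B l| * (red r q : ℝ) :=
      mul_le_mul_of_nonneg_left (by exact_mod_cast Nat.le_of_dvd (red_pos hr) hpd) (abs_nonneg _)
    refine hfin ?_
    have : 0 ≤ D * (2 : ℝ) ^ l := by positivity
    linarith

/-- The logarithm of the upper level. -/
theorem log_level_le {C₀ : ℝ} (hC₀ : 0 ≤ C₀) (hl : 1 ≤ l) (hq : 0 < q) (hr : 0 < r)
    (hll : log (log ((q : ℝ) + 16)) ≤ C₀ * l) (h4 : (4 : ℝ) ^ L ≤ 4 * (r : ℝ) ^ 2) {X : ℝ}
    (hX : 0 < X) (hDX : dgap l L q r ≤ X) :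
    log ((L : ℝ) + 1) ≤ 3 + (C₀ + 1) * (lX X + l) := by
  obtain ⟨hrl, -, hD⟩ := dgap_facts (r := r) hq l L
  set D := dgap l L q r with hDdef
  have hl1 : (1 : ℝ) ≤ l := by exact_mod_cast hl
  have hlX := lX_one_le hX
  have hD2 := (log_two_add_le hX hD.le hDX).2
  have hq1 : (1 : ℝ) ≤ q := by exact_mod_cast hq
  have hrle : (r : ℝ) ≤ q * ((2 + D) * (4 : ℝ) ^ l) := by
    have e : (r : ℝ) = (Nat.gcd r q : ℕ) * (red r q : ℕ) := by exact_mod_cast (mul_red r q).symm
    rw [e]
    refine mul_le_mul (by exact_mod_cast Nat.le_of_dvd hq (Nat.gcd_dvd_right r q))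
      (hrl.trans (mul_le_mul_of_nonneg_right (by linarith) (by positivity))) (Nat.cast_nonneg _)
      (by linarith)
  have hr0 : (0 : ℝ) < r := by exact_mod_cast hr
  have hlogr : log (r : ℝ) ≤ log (q : ℝ) + (log (2 + D) + l * log 4) := by
    refine (log_le_log hr0 hrle).trans_eq ?_
    rw [log_mul (by linarith) (by positivity), log_mul (by linarith) (by positivity), log_pow]
  have h4' := log_le_log (show (0 : ℝ) < (4 : ℝ) ^ L by positivity) h4
  rw [log_mul (by norm_num) (by positivity), log_pow, log_pow] at h4'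
  push_cast at h4'
  have h41 : (1 : ℝ) ≤ log 4 := by
    rw [le_log_iff_exp_le (by norm_num)]; linarith [exp_one_lt_d9]
  have h42 : log (4 : ℝ) ≤ 3 / 2 := by
    rw [show (4 : ℝ) = 2 ^ (2 : ℕ) by norm_num, log_pow]; push_cast; linarith [log_two_lt_d9]
  have hqG : log (q : ℝ) ≤ log ((q : ℝ) + 16) := log_le_log (by linarith) (by linarith)
  set G := log ((q : ℝ) + 16) with hG
  set W := lX X + (l : ℝ) with hW
  have hG1 : 1 ≤ G := by
    rw [hG, le_log_iff_exp_le (by linarith)]; linarith [exp_one_lt_d9]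
  have hW1 : 1 ≤ W := by linarith
  have hLle : (L : ℝ) + 1 ≤ 8 * (G * W) := by
    have h1 : (L : ℝ) ≤ L * log 4 := le_mul_of_one_le_right (Nat.cast_nonneg L) h41
    have h2 : (l : ℝ) * log 4 ≤ 3 / 2 * l := by nlinarith
    have h3 : G ≤ G * W := le_mul_of_one_le_right (by linarith) hW1
    have h5 : W ≤ G * W := le_mul_of_one_le_left (by linarith) hG1
    linarith
  have h5 := log_le_log (show (0 : ℝ) < (L : ℝ) + 1 by positivity) hLle
  rw [log_mul (by norm_num) (by positivity), log_mul (by linarith) (by linarith)] at h5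
  have h8 : log (8 : ℝ) ≤ 3 := by
    rw [show (8 : ℝ) = 2 ^ (3 : ℕ) by norm_num, log_pow]; push_cast; linarith [log_two_lt_d9]
  have hWlog : log W ≤ W := (log_le_sub_one_of_pos (by linarith)).trans (by linarith)
  have h6 : C₀ * l ≤ C₀ * W := mul_le_mul_of_nonneg_left (by linarith) hC₀
  linarith

/-- The numerator on the exact line. -/
theorem zero_bound (C₀ : ℝ) (hC₀ : 0 ≤ C₀) : ∃ C : ℝ, 0 ≤ C ∧
    ∀ (γ : ℝ) (A : ℕ → ℤ) (B : ℕ → ℕ), IsCls γ A B → ∀ l L q r : ℕ, 1 ≤ l → l ≤ L → 0 < q → 0 < r →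
      q ≠ r → log (log ((q : ℝ) + 16)) ≤ C₀ * l → (4 : ℝ) ^ L ≤ 4 * (r : ℝ) ^ 2 →
      ∀ X : ℝ, dgap l L q r ≤ X → X < 2 * dgap l L q r →
      ∀ n ∈ nRange γ l L q r, coinForm A B l L q r n = 0 →
        rho γ A B l L q r n / dgap l L q r ≤
          C * (1 + if KEv A B l L (red q r) then (lX X + l) ^ (24 : ℕ) / X else 0) := by
  obtain ⟨C₁, hC₁, hpf⟩ := pf_log_le
  obtain ⟨C₃, hC₃, hpow⟩ := one_add_log_pow_le 24
  set K := 3 * (C₀ + 7) with hK
  have hK0 : 0 ≤ K := by linarith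
  clear_value K
  refine ⟨C₁ ^ 3 * K ^ 24 * (2 + 3 ^ 24 * C₃), by positivity,
    fun γ A B h l L q r hl hlL hq hr hne hll h4 X hDX hXD n hn hc => ?_⟩
  have hL : 1 ≤ L := hl.trans hlL
  have hD := (dgap_facts (r := r) hq l L).2.2
  set D := dgap l L q r with hDdef
  have hX : 0 < X := hD.trans_le hDX
  have hlX := lX_one_le hX
  have hl1 : (1 : ℝ) ≤ l := by exact_mod_cast hl
  set W := lX X + (l : ℝ) with hW
  have hW1 : 1 ≤ W := by linarith
  obtain ⟨hs1, hs2, -⟩ := log_sizes h hlL hL hq hr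
  have hz : 1 + log (1 + 4 * bigD L D) ≤ K * W := by
    refine (log_bigD_le hL hD.le).trans ?_
    have h1 := log_level_le (L := L) hC₀ hl hq hr hll h4 hX hDX
    have h2 := (log_two_add_le hX hD.le hDX).2
    have h3 : 5 ≤ 5 * W := by linarith
    rw [hK]; unfold lgD; nlinarith
  have hside : ∀ M : ℕ, 1 ≤ M → log (M : ℝ) ≤ 4 * bigD L D →
      ∏ p ∈ M.primeFactors, ((p : ℝ) / (p - 1)) ≤ C₁ * (K * W) ^ (8 : ℕ) := fun M hM hlog =>
    hpf M _ _ _ hM (by linarith [bigD_ge_one hL hD.le]) hlog (Finset.Subset.refl _) hz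
  have hboth : ∏ p ∈ coinPr γ A B l L q r n, ((p : ℝ) / (p - 1)) ≤ C₁ * (K * W) ^ (8 : ℕ) := by
    have hq1 : (1 : ℝ) ≤ q := by exact_mod_cast hq
    refine hpf q _ (log (q : ℝ)) _ hq (log_nonneg hq1) le_rfl (fun p hp => ?_) ?_
    · have hp' := (Finset.mem_filter.1 (Finset.mem_filter.1 hp).1).1
      exact Nat.primeFactors_mono (Nat.gcd_dvd_left q r) hq.ne' hp'
    have h1 : log (q : ℝ) ≤ log ((q : ℝ) + 16) := log_le_log (by linarith) (by linarith)
    have hG : 1 ≤ log ((q : ℝ) + 16) := by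
      rw [le_log_iff_exp_le (by linarith)]; linarith [exp_one_lt_d9]
    have h2 := log_le_log (show (0 : ℝ) < 1 + log (q : ℝ) by linarith [log_nonneg hq1])
      (show 1 + log (q : ℝ) ≤ 2 * log ((q : ℝ) + 16) by linarith)
    rw [log_mul (by norm_num) (by linarith)] at h2
    rw [hK]; nlinarith [log_two_lt_d9]
  have hrho : rho γ A B l L q r n ≤ C₁ ^ 3 * K ^ 24 * W ^ (24 : ℕ) := by
    have p1 := prod_ratio_nonneg (U := (red r q).primeFactors) fun p hp => Nat.prime_of_mem_primeFactors hp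
    have p3 := prod_ratio_nonneg (U := coinPr γ A B l L q r n) fun p hp => coinPr_prime hp
    refine (rho_le_prods n).trans ((mul_le_mul (mul_le_mul (hside _ (red_pos hq) hs1)
      (hside _ (red_pos hr) hs2) p1 (by positivity)) hboth p3 (by positivity)).trans_eq ?_)
    rw [mul_pow]; ring
  clear_value W
  have hCW : 0 ≤ C₁ ^ 3 * K ^ 24 := by positivity
  have hite : 0 ≤ if KEv A B l L (red q r) then W ^ (24 : ℕ) / X else 0 := by
    split <;> positivity
  have h3C : (0 : ℝ) ≤ 3 ^ 24 * C₃ := by positivity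
  by_cases hs : SameCls A B l L
  · by_cases h0 : rho γ A B l L q r n = 0
    · rw [h0, zero_div]; positivity
    have hgap := same_gap h hlL hq hr hne hs hn hc h0
    rw [← hDdef] at hgap
    have h2l : (2 : ℝ) ≤ (2 : ℝ) ^ l := le_self_pow₀ (by norm_num) (by omega)
    have hWD : W ≤ 3 * (1 + log D) := by
      have hlog := log_le_log (by positivity) hgap
      rw [log_pow] at hlog
      have h1X : 1 / X ≤ 1 := by rw [div_le_one hX]; linarith
      have h5 := log_le_log (show (0 : ℝ) < 2 + X + 1 / X by positivity)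
        (show 2 + X + 1 / X ≤ 5 * D by linarith)
      rw [log_mul (by norm_num) hD.ne'] at h5
      have h6 : log (5 : ℝ) ≤ 2 := by
        rw [log_le_iff_le_exp (by norm_num)]
        have h : exp (2 : ℝ) = exp 1 * exp 1 := by rw [← exp_add]; norm_num
        rw [h]; nlinarith [exp_one_gt_d9]
      have h7 : (l : ℝ) ≤ 2 * log D := by nlinarith [log_two_gt_d9]
      rw [hW]; unfold lX; linarith
    have h8 : W ^ (24 : ℕ) ≤ 3 ^ 24 * C₃ * D := by
      refine (pow_le_pow_left₀ (by linarith) hWD 24).trans ?_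
      rw [mul_pow, mul_assoc]
      exact mul_le_mul_of_nonneg_left (hpow D (by linarith)) (by positivity)
    rw [div_le_iff₀ hD]
    refine hrho.trans ((mul_le_mul_of_nonneg_left h8 hCW).trans ?_)
    rw [← mul_assoc, ← mul_assoc]
    refine mul_le_mul_of_nonneg_right ?_ hD.le
    rw [mul_assoc (C₁ ^ 3 * K ^ 24)]
    nlinarith [mul_nonneg hCW hite, mul_nonneg hCW (show (0 : ℝ) ≤ 2 by norm_num),
      mul_nonneg (mul_nonneg hCW h3C) hite]
  · have hkev : KEv A B l L (red q r) := ⟨hs, kdiv_dvd_red h hc⟩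
    rw [if_pos hkev]
    have hinv : 1 / D ≤ 2 / X := by rw [div_le_div_iff₀ hD hX]; linarith
    calc rho γ A B l L q r n / D = rho γ A B l L q r n * (1 / D) := by ring
      _ ≤ C₁ ^ 3 * K ^ 24 * W ^ (24 : ℕ) * (2 / X) :=
          mul_le_mul hrho hinv (by positivity) (by positivity)
      _ = C₁ ^ 3 * K ^ 24 * 2 * (W ^ (24 : ℕ) / X) := by ring
      _ ≤ _ := by
          refine mul_le_mul ?_ ?_ (by positivity) (by positivity)
          · exact mul_le_mul_of_nonneg_left (by linarith) hCW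
          · linarith

/-- Crude weight of one numerator at a small gap. -/
theorem crude_small : ∃ C : ℝ, 1 ≤ C ∧ ∀ (γ : ℝ) (A : ℕ → ℤ) (B : ℕ → ℕ), IsCls γ A B →
    ∀ l L q r : ℕ, 1 ≤ l → l ≤ L → 0 < q → 0 < r → dgap l L q r ≤ 1 →
    ∀ n ∈ nRange γ l L q r, coinForm A B l L q r n ≠ 0 →
      rho γ A B l L q r n ≤ C * ((L : ℝ) + 8) ^ (24 : ℕ) := by
  obtain ⟨C, hC, hpf⟩ := pf_log_le
  refine ⟨C ^ 3 * 3 ^ 24, one_le_mul_of_one_le_of_one_le (one_le_pow₀ hC) (by norm_num),
    fun γ A B h l L q r hl hlL hq hr hD1 n hn hc => ?_⟩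
  have hL : 1 ≤ L := hl.trans hlL
  have hD := (dgap_facts (r := r) hq l L).2.2
  set D := dgap l L q r
  obtain ⟨hs1, hs2, hs3⟩ := log_sizes h hlL hL hq hr
  set z := 3 * ((L : ℝ) + 8) with hz
  have hzz : 1 + log (1 + 4 * bigD L D) ≤ z := by
    refine (log_bigD_le hL hD.le).trans ?_
    have h1 := log_le_sub_one_of_pos (show (0 : ℝ) < (L : ℝ) + 1 by positivity)
    have h2 := log_le_sub_one_of_pos (show (0 : ℝ) < 2 + D by linarith)
    unfold lgD; linarith
  have hZ : 0 ≤ 4 * bigD L D := by linarith [bigD_ge_one hL hD.le]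
  have hside : ∀ M : ℕ, 1 ≤ M → log (M : ℝ) ≤ 4 * bigD L D →
      ∏ p ∈ M.primeFactors, ((p : ℝ) / (p - 1)) ≤ C * z ^ (8 : ℕ) := fun M hM hlog =>
    hpf M _ _ _ hM hZ hlog (Finset.Subset.refl _) hzz
  have hboth : ∏ p ∈ coinPr γ A B l L q r n, ((p : ℝ) / (p - 1)) ≤ C * z ^ (8 : ℕ) :=
    hpf _ _ _ _ (Int.natAbs_pos.2 hc) hZ (hs3 n hn hc) (fun p hp => Nat.mem_primeFactors.2
      ⟨coinPr_prime hp, Int.natCast_dvd.1 (Finset.mem_filter.1 hp).2, Int.natAbs_ne_zero.2 hc⟩) hzz
  have p2 := prod_ratio_nonneg (U := (red r q).primeFactors) fun p hp => Nat.prime_of_mem_primeFactors hp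
  have p3 := prod_ratio_nonneg (U := coinPr γ A B l L q r n) fun p hp => coinPr_prime hp
  refine (rho_le_prods n).trans ((mul_le_mul (mul_le_mul (hside _ (red_pos hq) hs1)
    (hside _ (red_pos hr) hs2) p2 (by positivity)) hboth p3 (by positivity)).trans_eq ?_)
  rw [hz, mul_pow]; ring

theorem gLine_nonneg (b L a c : ℕ) : 0 ≤ gLine b L a c := by
  unfold gLine; split <;> positivity

/-- The events of a pair are nonnegative. -/
theorem pairEv_parts (K : ℕ) {X : ℝ} (hX : 0 < X) :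
    0 ≤ lX X ^ (24 : ℕ) * (1 + 1 / X) * ((if Ev X (red q r) then 1 else 0) +
        (if Ev X (red r q) then 1 else 0) + exc (yBig X) (red q r) + exc (yBig X) (red r q)) ∧
    0 ≤ (if 1 / ((L : ℝ) + 8) ^ K ≤ X then lX X ^ (24 : ℕ) / X * (excCoin γ A B (yBig X) l L q r +
        if X ≤ 1 / 8 ∧ CoinAt γ A B 1 l L q r then 1 else 0) else 0) ∧
    0 ≤ (if KEv A B l L (red q r) then (lX X + l) ^ (24 : ℕ) / X else 0) ∧
    0 ≤ (if X ≤ 1 / 8 ∧ ¬ SameCls A B l L then
        ((L : ℝ) + 8) ^ (24 : ℕ) * gLine (B L) L (red q r) (red r q) else 0) ∧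
    0 ≤ (if X ≤ 1 / 8 ∧ X < 1 / ((L : ℝ) + 8) ^ K ∧ ((2 : ℝ) ^ L)⁻¹ ≤ 3 * X then
      ((L : ℝ) + 8) ^ (24 : ℕ) / X * gNear γ A B X l L (red q r) (red r q) else 0) := by
  have hl : 0 ≤ lX X := zero_le_one.trans (lX_one_le hX)
  have hE : ∀ c : Prop, (0 : ℝ) ≤ if c then 1 else 0 := fun c => by split <;> norm_num
  have he : 0 ≤ excCoin γ A B (yBig X) l L q r := Finset.sum_nonneg fun n _ => excPr_nonneg _ n
  refine ⟨?_, ?_, ?_, ?_, ?_⟩
  · have h1 := hE (Ev X (red q r))
    have h2 := hE (Ev X (red r q))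
    have h3 := exc_nonneg (yBig X) (red q r)
    have h4 := exc_nonneg (yBig X) (red r q)
    exact mul_nonneg (by positivity) (by linarith)
  · split
    · exact mul_nonneg (by positivity) (add_nonneg he (by split <;> norm_num))
    · exact le_rfl
  · split <;> positivity
  · split
    · exact mul_nonneg (by positivity) (gLine_nonneg _ _ _ _)
    · exact le_rfl
  · split
    · exact mul_nonneg (by positivity) (gNear_bounds γ A B X l L _ _).1
    · exact le_rfl

/-- One numerator off the coincidence, at a small gap. -/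
theorem small_bound : ∃ C : ℝ, 0 ≤ C ∧ ∀ (γ : ℝ) (A : ℕ → ℤ) (B : ℕ → ℕ), IsCls γ A B →
    ∀ l L q r K : ℕ, 1 ≤ l → l ≤ L → 0 < q → 0 < r → q ≠ r →
    ∀ X : ℝ, dgap l L q r ≤ X → X < 2 * dgap l L q r → X ≤ 1 / 8 →
    ∀ n ∈ nRange γ l L q r, coinForm A B l L q r n ≠ 0 →
      rho γ A B l L q r n / dgap l L q r ≤ C * pairEv γ A B 24 K X l L q r := by
  obtain ⟨C₁, hC₁, hpi⟩ := rho_le_bigPi
  obtain ⟨C₂, hC₂, hcrude⟩ := crude_small
  refine ⟨2 * C₁ + 2 * C₂, by linarith,
    fun γ A B h l L q r K hl hlL hq hr hne X hDX hXD hX8 n hn hc => ?_⟩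
  obtain ⟨hrl, hqL, hD⟩ := dgap_facts (r := r) hq l L
  set D := dgap l L q r with hDdef
  have hX : 0 < X := hD.trans_le hDX
  obtain ⟨q1, q2, q3, q4, q5⟩ := pairEv_parts (γ := γ) (A := A) (B := B) (l := l) (L := L) (q := q)
    (r := r) K hX
  have hinv : 1 / D ≤ 2 / X := by rw [div_le_div_iff₀ hD hX]; linarith
  have hinv0 : 0 ≤ 1 / D := by positivity
  rw [div_eq_mul_one_div]
  by_cases hr0 : rho γ A B l L q r n = 0
  · rw [hr0, zero_mul]
    unfold pairEv
    exact mul_nonneg (by linarith) (by linarith)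
  have hC12 : 2 * C₁ ≤ 2 * C₁ + 2 * C₂ ∧ 2 * C₂ ≤ 2 * C₁ + 2 * C₂ := ⟨by linarith, by linarith⟩
  obtain ⟨hB1', hB2', he'⟩ := cls_real h L
  have h2L : (0 : ℝ) < (2 : ℝ) ^ L := by positivity
  have hnb := nRange_bound hn
  rw [← hDdef] at hnb
  by_cases hm : (B L : ℤ) * n + A L * ((red r q : ℤ) - red q r) = 0
  · -- on the line of the finer class
    have hL2 : rhoLeft γ A B L r q (-n) ≠ 0 := fun h0 => hr0 (by simp [rho, h0])
    obtain ⟨hb1', -, hc', -⟩ := h L
    have hcopB : ∀ p : ℕ, p.Prime → p ∣ red r q ∨ p ∣ red q r → ¬ p ∣ B L := by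
      intro p hp hor hpB
      have hpA : ¬ (p : ℤ) ∣ A L := fun hA' =>
        (Nat.prime_iff_prime_int.1 hp).not_isUnit (hc'.isUnit_of_dvd' hA' (Int.natCast_dvd_natCast.2 hpB))
      have hd : (p : ℤ) ∣ (red r q : ℤ) - red q r := by
        have h2 : (p : ℤ) ∣ A L * ((red r q : ℤ) - red q r) := by
          have h3 : A L * ((red r q : ℤ) - red q r) = -((B L : ℤ) * n) := by linarith
          rw [h3]; exact (Dvd.dvd.mul_right (Int.natCast_dvd_natCast.2 hpB) _).neg_right
        exact ((Nat.prime_iff_prime_int.1 hp).dvd_mul.1 h2).resolve_left hpA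
      rcases hor with h' | h'
      · refine not_both hq hp (Int.natCast_dvd_natCast.1 ?_) h'
        simpa using dvd_sub (Int.natCast_dvd_natCast.2 h') hd
      · refine not_both hq hp h' (Int.natCast_dvd_natCast.1 ?_)
        simpa using dvd_add hd (Int.natCast_dvd_natCast.2 h')
    have hr1 : red r q = 1 := by
      by_contra h1
      obtain ⟨p, hp, hpd⟩ := Nat.exists_prime_and_dvd h1
      have hmem : p ∈ (red r q).primeFactors := Nat.mem_primeFactors.2 ⟨hp, hpd, (red_pos hr).ne'⟩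
      refine kill_left hL2 hmem ⟨hcopB p hp (Or.inl hpd), ?_⟩ ?_
      · have hple : (p : ℝ) ≤ D * (4 : ℝ) ^ l :=
          le_trans (by exact_mod_cast Nat.le_of_dvd (red_pos hr) hpd) hrl
        refine (mul_le_mul he'.le hple (Nat.cast_nonneg _) (by positivity)).trans ?_
        have h4 : (4 : ℝ) ^ l ≤ (4 : ℝ) ^ L := pow_le_pow_right₀ (by norm_num) hlL
        have h5 : ((2 : ℝ) ^ L)⁻¹ ≤ 1 := inv_le_one_of_one_le₀ (one_le_pow₀ (by norm_num))
        have h6 : (0 : ℝ) < (4 : ℝ) ^ l := by positivity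
        nlinarith [mul_le_mul_of_nonneg_right h5 (mul_nonneg hD.le h6.le)]
      · have : (B L : ℤ) * -n + A L * red q r = A L * red r q := by linear_combination -hm
        rw [this]; exact (Int.natCast_dvd_natCast.2 hpd).mul_left _
    have hq1 : red q r ≠ 1 := by
      intro h1
      apply hne
      have e1 := mul_red q r
      have e2 := mul_red r q
      rw [h1, mul_one] at e1
      rw [hr1, mul_one, Nat.gcd_comm] at e2
      omega
    have hns : ¬ SameCls A B l L := fun hs => hc (by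
      rw [coinForm, hs.1, hs.2]; linear_combination (B L : ℤ) * hm)
    have hdvd : (B L : ℤ) ∣ (red q r : ℤ) - 1 := by
      have h1 : (B L : ℤ) ∣ A L * ((red q r : ℤ) - 1) :=
        ⟨n, by rw [hr1] at hm; push_cast at hm; linarith⟩
      exact hc'.symm.dvd_of_dvd_mul_left h1
    have ha4 : (red q r : ℝ) ≤ ((4 ^ L : ℕ) : ℝ) := by
      push_cast
      exact hqL.trans (mul_le_of_le_one_left (by positivity) (by linarith))
    have ha0 : (0 : ℝ) < red q r := by exact_mod_cast red_pos hq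
    have hg : gLine (B L) L (red q r) (red r q) = (4 : ℝ) ^ L / (red q r : ℕ) := by
      rw [gLine, if_pos ⟨hr1, mem_filter.2 ⟨mem_Icc.2 ⟨by have := red_pos (r := r) hq; omega,
        by exact_mod_cast ha4⟩, hdvd⟩⟩]
    have hinv' : 1 / D ≤ (4 : ℝ) ^ L / (red q r : ℕ) := by
      rw [div_le_div_iff₀ hD ha0]; linarith
    have hterm : rho γ A B l L q r n * (1 / D) ≤
        C₂ * (((L : ℝ) + 8) ^ (24 : ℕ) * gLine (B L) L (red q r) (red r q)) := by
      rw [hg, ← mul_assoc]
      exact mul_le_mul (hcrude γ A B h l L q r hl hlL hq hr (by linarith) n hn hc) hinv' hinv0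
        (by positivity)
    refine hterm.trans (mul_le_mul (by linarith) ?_ (mul_nonneg (by positivity) (gLine_nonneg _ _ _ _))
      (by linarith))
    unfold pairEv
    rw [if_pos (show X ≤ 1 / 8 ∧ ¬ SameCls A B l L from ⟨hX8, hns⟩)]
    linarith
  · -- off the line
    have hat : CoinAt γ A B 1 l L q r :=
      ⟨Nat.coprime_one_left _, n, hn, hc, by simp, fun _ => hm⟩
    have h3D : ((2 : ℝ) ^ L)⁻¹ ≤ 3 * D := by
      have h1 : (1 : ℝ) ≤ |(((B L : ℤ) * n + A L * ((red r q : ℤ) - red q r) : ℤ) : ℝ)| := by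
        rw [← Int.cast_abs]; exact Int.cast_one_le_of_pos (abs_pos.2 hm)
      have hid : (((B L : ℤ) * n + A L * ((red r q : ℤ) - red q r) : ℤ) : ℝ) =
          (B L : ℝ) * (n + γ * ((red r q : ℝ) - red q r)) - eps γ A B L * ((red r q : ℝ) - red q r) := by
        simp only [eps]; push_cast; ring
      rw [hid] at h1
      have hd : |(red r q : ℝ) - red q r| ≤ D * (4 : ℝ) ^ L := by
        have h4 : D * (4 : ℝ) ^ l ≤ D * (4 : ℝ) ^ L :=
          mul_le_mul_of_nonneg_left (pow_le_pow_right₀ (by norm_num) hlL) hD.le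
        rw [abs_le]
        constructor <;> linarith [(Nat.cast_nonneg (red r q) : (0 : ℝ) ≤ _),
          (Nat.cast_nonneg (red q r) : (0 : ℝ) ≤ _)]
      have h5 := h1.trans (abs_sub _ _)
      rw [abs_mul, abs_mul, Nat.abs_cast] at h5
      have h6 : (B L : ℝ) * |(n : ℝ) + γ * ((red r q : ℝ) - red q r)| ≤ (2 : ℝ) ^ L * (2 * D) :=
        mul_le_mul hB2' hnb (abs_nonneg _) h2L.le
      have h7 : |eps γ A B L| * |(red r q : ℝ) - red q r| ≤ D * (2 : ℝ) ^ L := by
        refine (mul_le_mul he'.le hd (abs_nonneg _) (by positivity)).trans_eq ?_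
        rw [four_pow_eq L]; field_simp
      rw [inv_le_iff_one_le_mul₀ h2L]
      linarith
    by_cases hgate : 1 / ((L : ℝ) + 8) ^ K ≤ X
    · set Y := yBig X
      set Z := lX X ^ (24 : ℕ) with hZ
      have hZ0 : 0 ≤ Z := pow_nonneg (zero_le_one.trans (lX_one_le hX)) 24
      have hex : excPr γ A B Y l L q r n ≤ excCoin γ A B Y l L q r :=
        Finset.single_le_sum (f := fun m => excPr γ A B Y l L q r m) (fun m _ => excPr_nonneg _ m)
          (Finset.mem_filter.2 ⟨hn, hc⟩)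
      have hpi0 := hpi γ A B h l L q r hl hlL hq hr X hX hDX n hn hc
      have hterm : rho γ A B l L q r n * (1 / D) ≤ 2 * C₁ *
          (Z * (1 + 1 / X) * ((if Ev X (red q r) then 1 else 0) +
            (if Ev X (red r q) then 1 else 0) + exc Y (red q r) + exc Y (red r q)) +
          Z / X * (excCoin γ A B Y l L q r + 1)) := by
        refine (mul_le_mul hpi0 hinv hinv0 (mul_nonneg (mul_nonneg (by linarith) hZ0)
          (bigPi_nonneg _ _))).trans ?_
        have hEv : ∀ m, (0 : ℝ) ≤ if Ev X m then 1 else 0 := fun m => by split <;> norm_num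
        have hx : 0 ≤ Z / X := by positivity
        have e1 := mul_le_mul_of_nonneg_left (bigPi_le (γ := γ) (A := A) (B := B) (l := l) (L := L)
          (q := q) (r := r) Y n) hx
        have e2 := mul_le_mul_of_nonneg_left hex hx
        have e3 : Z / X * (exc Y (red q r) + exc Y (red r q)) ≤ Z * (1 + 1 / X) *
            ((if Ev X (red q r) then 1 else 0) + (if Ev X (red r q) then 1 else 0) +
              exc Y (red q r) + exc Y (red r q)) := by
          have i1 : Z / X ≤ Z * (1 + 1 / X) := by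
            rw [mul_add, mul_one, mul_one_div]; linarith
          exact mul_le_mul i1 (by linarith [hEv (red q r), hEv (red r q)])
            (add_nonneg (exc_nonneg _ _) (exc_nonneg _ _)) (by positivity)
        have e4 : C₁ * Z * bigPi γ A B Y l L q r n * (2 / X) =
            2 * C₁ * (Z / X * bigPi γ A B Y l L q r n) := by ring
        rw [e4]
        exact mul_le_mul_of_nonneg_left (by linarith) (by linarith)
      unfold pairEv
      rw [if_pos hgate, if_pos (show X ≤ 1 / 8 ∧ CoinAt γ A B 1 l L q r from ⟨hX8, hat⟩)]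
      refine hterm.trans (mul_le_mul hC12.1 (by linarith) ?_ (by linarith))
      have : 0 ≤ Z / X * (excCoin γ A B Y l L q r + 1) := mul_nonneg (by positivity)
        (add_nonneg (Finset.sum_nonneg fun m _ => excPr_nonneg _ m) zero_le_one)
      linarith
    · have hgn : gNear γ A B X l L (red q r) (red r q) = 1 := by
        rw [gNear, if_pos]
        exact ⟨hqL.trans (mul_le_mul_of_nonneg_right hDX (by positivity)),
          hrl.trans (mul_le_mul_of_nonneg_right hDX (by positivity)), red_pos hr,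
          n, hnb.trans (by linarith), hm⟩
      have hterm : rho γ A B l L q r n * (1 / D) ≤ 2 * C₂ * (((L : ℝ) + 8) ^ (24 : ℕ) / X) := by
        refine (mul_le_mul (hcrude γ A B h l L q r hl hlL hq hr (by linarith) n hn hc) hinv hinv0
          (by positivity)).trans_eq ?_
        ring
      refine hterm.trans (mul_le_mul hC12.2 ?_ (by positivity) (by linarith))
      unfold pairEv
      rw [if_pos (show X ≤ 1 / 8 ∧ X < 1 / ((L : ℝ) + 8) ^ K ∧ ((2 : ℝ) ^ L)⁻¹ ≤ 3 * X from
        ⟨hX8, not_le.1 hgate, h3D.trans (by linarith)⟩), hgn, mul_one]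
      linarith

/-- The bookkeeping of the sum over numerators. -/
theorem sum_arith {D X Z c ex sF sG k a b : ℝ} (hD : 0 < D) (hX : 0 < X) (hXD : X < 2 * D)
    (hZ : 0 ≤ Z) (hc : 0 ≤ c) (hex : 0 ≤ ex) (hk : k ≤ 20 * D) (ha : 0 ≤ a) (hb : 0 ≤ b)
    (hF : sF ≤ a * D) (hG : Z * sG ≤ b * D) :
    sF + Z * sG + k * (Z * c) + Z * ex ≤
      (a + b + 20) * (D * (1 + (Z * (1 + 1 / X) * c + Z / X * ex))) := by
  have i0 : 0 ≤ Z * c := mul_nonneg hZ hc
  have hinv : 0 ≤ 1 / X := by positivity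
  have i1 : Z * c ≤ Z * (1 + 1 / X) * c :=
    mul_le_mul_of_nonneg_right (le_mul_of_one_le_right hZ (by linarith)) hc
  have k1 : k * (Z * c) ≤ 20 * D * (Z * (1 + 1 / X) * c) := mul_le_mul hk i1 i0 (by linarith)
  have i2 : 1 ≤ 20 * D / X := by rw [le_div_iff₀ hX]; linarith
  have k2 : Z * ex ≤ 20 * D * (Z / X * ex) :=
    (le_mul_of_one_le_right (mul_nonneg hZ hex) i2).trans_eq (by ring)
  have j1 : 0 ≤ D * (Z * (1 + 1 / X) * c) := by positivity
  have j2 : 0 ≤ D * (Z / X * ex) := by positivity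
  have j3 := mul_nonneg (add_nonneg ha hb) (add_nonneg j1 j2)
  linarith

/-- All numerators off the coincidence, at a gap of at least constant size. -/
theorem large_bound : ∃ C : ℝ, 0 ≤ C ∧ ∀ (γ : ℝ) (A : ℕ → ℤ) (B : ℕ → ℕ), IsCls γ A B →
    ∀ l L q r K : ℕ, 1 ≤ K → 1 ≤ l → l ≤ L → 0 < q → 0 < r →
    ∀ X : ℝ, dgap l L q r ≤ X → X < 2 * dgap l L q r → 1 / 8 < X →
      (∑ n ∈ (nRange γ l L q r).filter (fun n => coinForm A B l L q r n ≠ 0),
          rho γ A B l L q r n) / dgap l L q r ≤ C * (1 + pairEv γ A B 24 K X l L q r) := by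
  obtain ⟨C₁, hC₁, hpi⟩ := rho_le_bigPi
  obtain ⟨C₂, hC₂, havg⟩ := rho_le_avg
  obtain ⟨C₃, hC₃, hpow⟩ := one_add_log_pow_le 25
  set Ca := 2 * C₁ + C₂ with hCa
  set M := 80 * exp 1 + 16 * (4 : ℝ) ^ 24 * (8 + C₃) + 20 with hM
  refine ⟨Ca * M, mul_nonneg (by linarith) (by positivity),
    fun γ A B h l L q r K hK hl hlL hq hr X hDX hXD hX8 => ?_⟩
  obtain ⟨-, -, hD⟩ := dgap_facts (r := r) hq l L
  set D := dgap l L q r with hDdef
  have hX : 0 < X := hD.trans_le hDX
  obtain ⟨q1, q2, q3, q4, q5⟩ := pairEv_parts (γ := γ) (A := A) (B := B) (l := l) (L := L) (q := q)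
    (r := r) K hX
  set D₀ := max 1 X with hD₀def
  have hD₀ : 1 ≤ D₀ := le_max_left _ _
  have hXD₀ : X ≤ D₀ := le_max_right _ _
  have hD₀D : D₀ ≤ 16 * D := max_le (by linarith) (by linarith)
  have hlD : 0 ≤ log D₀ := log_nonneg hD₀
  set Y := yBig X
  set Z := lX X ^ (24 : ℕ) with hZ
  have hlX1 := lX_one_le hX
  have hZ0 : 0 ≤ Z := pow_nonneg (zero_le_one.trans hlX1) 24
  set ea : ℝ := if Ev X (red q r) then 1 else 0 with hea
  set eb : ℝ := if Ev X (red r q) then 1 else 0 with heb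
  have hea0 : 0 ≤ ea := by rw [hea]; split <;> norm_num
  have heb0 : 0 ≤ eb := by rw [heb]; split <;> norm_num
  set S := (nRange γ l L q r).filter (fun n => coinForm A B l L q r n ≠ 0) with hS
  set G : ℤ → ℝ := fun n => ∑ p ∈ (evPrimes D₀).filter (fun p : ℕ =>
    p ∈ bothSet γ A B l L q r ∧ (p : ℤ) ∣ coinForm A B l L q r n), (p : ℝ)⁻¹ with hG
  have hG0 : ∀ n, 0 ≤ G n := fun n => Finset.sum_nonneg fun p _ => by positivity
  -- one numerator
  obtain ⟨F, hF0, hFsum, hFn⟩ : ∃ F : ℤ → ℝ, (∀ n, 0 ≤ F n) ∧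
      ∑ n ∈ nRange γ l L q r, F n ≤ 5 * exp 1 * D₀ ∧
      ∀ n ∈ nRange γ l L q r, coinForm A B l L q r n ≠ 0 →
        ¬ (Ev D₀ (red q r) ∨ Ev D₀ (red r q) ∨ 1 / 2 < G n) →
        rho γ A B l L q r n ≤ C₂ * F n * bigPi γ A B Y l L q r n := by
    by_cases hE : Ev D₀ (red q r) ∨ Ev D₀ (red r q)
    · refine ⟨fun _ => 0, fun _ => le_rfl, ?_, fun n _ _ hh => absurd hE fun h' => hh ?_⟩
      · rw [Finset.sum_const_zero]; positivity
      · rcases h' with h' | h'
        · exact Or.inl h'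
        · exact Or.inr (Or.inl h')
    · push Not at hE
      obtain ⟨F, hF0, hFsum, hFn⟩ :=
        havg γ A B h l L q r hl hlL hq hr X hX8 hDX D₀ hD₀ hXD₀ hE.1 hE.2
      exact ⟨F, hF0, hFsum, fun n hn hc hh => hFn n hn hc fun hg => hh (Or.inr (Or.inr hg))⟩
  set E : ℤ → ℝ := fun n => exc Y (red q r) + exc Y (red r q) + excPr γ A B Y l L q r n with hE
  have hE0 : ∀ n, 0 ≤ E n := fun n =>
    add_nonneg (add_nonneg (exc_nonneg _ _) (exc_nonneg _ _)) (excPr_nonneg _ _)
  have hone : ∀ n ∈ S, rho γ A B l L q r n ≤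
      Ca * (F n + Z * (ea + eb + G n + E n)) := by
    intro n hn
    obtain ⟨hn, hc⟩ := Finset.mem_filter.1 hn
    have hp := bigPi_le (γ := γ) (A := A) (B := B) (l := l) (L := L) (q := q) (r := r) Y n
    have hp0 := bigPi_nonneg (γ := γ) (A := A) (B := B) (l := l) (L := L) (q := q) (r := r) Y n
    have h1 := hpi γ A B h l L q r hl hlL hq hr X hX hDX n hn hc
    have hZE : 0 ≤ Z * E n := mul_nonneg hZ0 (hE0 n)
    have hZrest : 0 ≤ Z * (ea + eb + G n) := mul_nonneg hZ0 (by linarith [hG0 n])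
    by_cases hbad : Ev D₀ (red q r) ∨ Ev D₀ (red r q) ∨ 1 / 2 < G n
    · have hge : 1 / 2 ≤ ea + eb + G n := by
        rcases hbad with hb | hb | hb
        · have : ea = 1 := by rw [hea, if_pos (ev_max_one hb)]
          linarith [hG0 n]
        · have : eb = 1 := by rw [heb, if_pos (ev_max_one hb)]
          linarith [hG0 n]
        · linarith
      refine h1.trans ?_
      calc C₁ * Z * bigPi γ A B Y l L q r n ≤ C₁ * Z * (1 + E n) :=
            mul_le_mul_of_nonneg_left hp (by positivity)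
        _ = C₁ * (Z * 1 + Z * E n) := by ring
        _ ≤ C₁ * (2 * (Z * (ea + eb + G n) + Z * E n)) := by
            refine mul_le_mul_of_nonneg_left ?_ (by linarith)
            have := mul_le_mul_of_nonneg_left hge hZ0
            linarith
        _ ≤ Ca * (Z * (ea + eb + G n) + Z * E n) := by
            rw [hCa]
            have := mul_nonneg (show 0 ≤ C₂ by linarith) (add_nonneg hZrest hZE)
            linarith
        _ ≤ _ := by
            refine mul_le_mul_of_nonneg_left ?_ (by linarith)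
            have := hF0 n
            linarith
    · have h2 := hFn n hn hc hbad
      have hCa1 : C₁ ≤ Ca := by linarith
      have hCa2 : C₂ ≤ Ca := by linarith
      rcases le_total (F n) Z with hle | hle
      · refine h2.trans ?_
        calc C₂ * F n * bigPi γ A B Y l L q r n ≤ C₂ * F n * (1 + E n) :=
              mul_le_mul_of_nonneg_left hp (mul_nonneg (by linarith) (hF0 n))
          _ = C₂ * (F n + F n * E n) := by ring
          _ ≤ Ca * (F n + Z * (ea + eb + G n + E n)) := by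
              refine mul_le_mul hCa2 ?_ (add_nonneg (hF0 n) (mul_nonneg (hF0 n) (hE0 n))) (by linarith)
              have := mul_le_mul_of_nonneg_right hle (hE0 n)
              linarith
      · refine h1.trans ?_
        calc C₁ * Z * bigPi γ A B Y l L q r n ≤ C₁ * Z * (1 + E n) :=
              mul_le_mul_of_nonneg_left hp (by positivity)
          _ = C₁ * (Z + Z * E n) := by ring
          _ ≤ Ca * (F n + Z * (ea + eb + G n + E n)) := by
              refine mul_le_mul hCa1 (by linarith) (add_nonneg hZ0 hZE) (by linarith)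
  -- the sum
  have hcard : (S.card : ℝ) ≤ 20 * D := by
    have h1 : (S.card : ℝ) ≤ 4 * D / ((1 : ℕ) : ℝ) + 1 :=
      card_le_of_dvd_sub _ le_rfl (by positivity) (fun x _ y _ => by simp) fun x hx y hy =>
        nRange_width (Finset.mem_filter.1 hx).1 (Finset.mem_filter.1 hy).1
    rw [Nat.cast_one, div_one] at h1
    linarith
  have hsumF : ∑ n ∈ S, F n ≤ 80 * exp 1 * D := by
    refine (Finset.sum_le_sum_of_subset_of_nonneg (Finset.filter_subset _ _) fun n _ _ => hF0 n).trans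
      (hFsum.trans ?_)
    have := mul_le_mul_of_nonneg_left hD₀D (show 0 ≤ 5 * exp 1 by positivity)
    linarith
  have hsumG : Z * ∑ n ∈ S, G n ≤ 16 * (4 : ℝ) ^ 24 * (8 + C₃) * D := by
    have hG1 : ∑ n ∈ S, G n ≤ 8 * D₀ / ytail D₀ + (1 + log D₀) :=
      (Finset.sum_le_sum_of_subset_of_nonneg (Finset.filter_subset _ _) fun n _ _ => hG0 n).trans
        (event_sum_le hD₀ (hDX.trans hXD₀))
    have hlX4 : lX X ≤ 4 * (1 + log D₀) := by
      have h8 : 1 / X ≤ 8 := by rw [div_le_iff₀ hX]; linarith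
      have h11 := log_le_log (show (0 : ℝ) < 2 + X + 1 / X by positivity)
        (show 2 + X + 1 / X ≤ 11 * D₀ by linarith)
      rw [log_mul (by norm_num) (by linarith)] at h11
      have h12 : log (11 : ℝ) ≤ 3 := by
        rw [log_le_iff_le_exp (by norm_num)]
        have h : exp (3 : ℝ) = exp 1 * exp 1 * exp 1 := by rw [← exp_add, ← exp_add]; norm_num
        have h13 : (4 : ℝ) ≤ exp 1 * exp 1 := by nlinarith [exp_one_gt_d9]
        rw [h]; nlinarith [exp_one_gt_d9]
      unfold lX; linarith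
    have hZle : Z ≤ (4 : ℝ) ^ 24 * (1 + log D₀) ^ (24 : ℕ) := by
      rw [hZ, ← mul_pow]; exact pow_le_pow_left₀ (by linarith) hlX4 24
    have hG' : (1 + log D₀) ^ (24 : ℕ) * (8 * D₀ / ytail D₀ + (1 + log D₀)) ≤ (8 + C₃) * D₀ := by
      have hyt : (1 + log D₀) ^ (24 : ℕ) ≤ ytail D₀ := pow_le_pow_right₀ (by linarith) (by norm_num)
      have hp1 : (1 : ℝ) ≤ (1 + log D₀) ^ (24 : ℕ) := one_le_pow₀ (by linarith)
      have h1 : (1 + log D₀) ^ (24 : ℕ) * (8 * D₀ / ytail D₀) ≤ 8 * D₀ := by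
        have hy0 : 0 < ytail D₀ := by linarith
        rw [← mul_div_assoc, div_le_iff₀ hy0, mul_comm (8 * D₀) (ytail D₀)]
        exact mul_le_mul_of_nonneg_right hyt (by linarith)
      have h2 : (1 + log D₀) ^ (24 : ℕ) * (1 + log D₀) ≤ C₃ * D₀ := by
        rw [← pow_succ]; exact hpow D₀ hD₀
      linarith
    calc Z * ∑ n ∈ S, G n ≤ (4 : ℝ) ^ 24 * (1 + log D₀) ^ (24 : ℕ) *
          (8 * D₀ / ytail D₀ + (1 + log D₀)) :=
          mul_le_mul hZle hG1 (Finset.sum_nonneg fun n _ => hG0 n) (by positivity)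
      _ ≤ (4 : ℝ) ^ 24 * ((8 + C₃) * D₀) := by
          rw [mul_assoc]; exact mul_le_mul_of_nonneg_left hG' (by positivity)
      _ ≤ _ := by
          have := mul_le_mul_of_nonneg_left hD₀D (show 0 ≤ (4 : ℝ) ^ 24 * (8 + C₃) by positivity)
          linarith
  have hgate : 1 / ((L : ℝ) + 8) ^ K ≤ X := by
    refine le_trans ?_ hX8.le
    have h8 : (8 : ℝ) ≤ (L : ℝ) + 8 := by linarith [(Nat.cast_nonneg L : (0 : ℝ) ≤ _)]
    exact one_div_le_one_div_of_le (by norm_num) (h8.trans (le_self_pow₀ (by linarith) (by omega)))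
  have hex : excCoin γ A B Y l L q r = ∑ n ∈ S, excPr γ A B Y l L q r n := rfl
  set c := ea + eb + exc Y (red q r) + exc Y (red r q) with hc
  clear_value Z
  have hc0 : 0 ≤ c := by
    have := exc_nonneg Y (red q r); have := exc_nonneg Y (red r q); linarith
  have hexc0 : 0 ≤ excCoin γ A B Y l L q r := Finset.sum_nonneg fun n _ => excPr_nonneg _ n
  have htot : ∑ n ∈ S, rho γ A B l L q r n ≤ Ca * M * (D * (1 + (Z * (1 + 1 / X) * c +
      Z / X * excCoin γ A B Y l L q r))) := by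
    refine (Finset.sum_le_sum hone).trans ?_
    rw [← Finset.mul_sum, mul_assoc]
    refine mul_le_mul_of_nonneg_left ?_ (by linarith)
    have hsplit : ∑ n ∈ S, (F n + Z * (ea + eb + G n + E n)) = (∑ n ∈ S, F n) +
        Z * ∑ n ∈ S, G n + (S.card : ℝ) * (Z * c) + Z * excCoin γ A B Y l L q r := by
      have hrw : ∀ n, F n + Z * (ea + eb + G n + E n) =
          F n + Z * G n + Z * c + Z * excPr γ A B Y l L q r n := fun n => by
        simp only [hE, hc]; ring
      rw [Finset.sum_congr rfl fun n _ => hrw n, Finset.sum_add_distrib, Finset.sum_add_distrib,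
        Finset.sum_add_distrib, Finset.sum_const, nsmul_eq_mul, hex, Finset.mul_sum, Finset.mul_sum]
    rw [hsplit]
    rw [hM]
    exact sum_arith hD hX hXD hZ0 hc0 hexc0 hcard (by positivity) (by positivity) hsumF hsumG
  rw [div_le_iff₀ hD]
  refine htot.trans ((mul_le_mul_of_nonneg_left (mul_le_mul_of_nonneg_left
    (a := D) (c := 1 + pairEv γ A B 24 K X l L q r) ?_ hD.le)
    (mul_nonneg (by linarith) (by rw [hM]; positivity))).trans_eq (by ring))
  unfold pairEv
  rw [if_pos hgate]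
  have q6 : 0 ≤ Z / X * (if X ≤ 1 / 8 ∧ CoinAt γ A B 1 l L q r then (1 : ℝ) else 0) :=
    mul_nonneg (by positivity) (by split <;> norm_num)
  rw [mul_add (lX X ^ 24 / X), ← hZ, ← hea, ← heb, ← hc]
  linarith

theorem anatTame : AnatTameStmt := by
  intro C₀ hC₀
  obtain ⟨Cz, hCz, hzero⟩ := zero_bound C₀ hC₀
  obtain ⟨Cs, hCs, hsmall⟩ := small_bound
  obtain ⟨Cl, hCl, hlarge⟩ := large_bound
  refine ⟨24, fun K hK => ⟨Cz + Cs + Cl, by linarith,
    fun γ A B h l L q r hl hlL hq hr hne hll h4 X hDX hXD => ?_⟩⟩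
  have hD := (dgap_facts (r := r) hq l L).2.2
  have hX : 0 < X := hD.trans_le hDX
  obtain ⟨q1, q2, q3, q4, q5⟩ := pairEv_parts (γ := γ) (A := A) (B := B) (l := l) (L := L) (q := q)
    (r := r) K hX
  set D := dgap l L q r with hDdef
  set P := pairEv γ A B 24 K X l L q r with hP
  have hP0 : 0 ≤ P := by rw [hP]; unfold pairEv; linarith
  have hkev : (if KEv A B l L (red q r) then (lX X + l) ^ (24 : ℕ) / X else 0) ≤ P := by
    rw [hP]; unfold pairEv; linarith
  rw [rhoSum, ← Finset.sum_filter_add_sum_filter_not (nRange γ l L q r)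
    (fun n => coinForm A B l L q r n = 0), add_div]
  have h1 : (∑ n ∈ (nRange γ l L q r).filter (fun n => coinForm A B l L q r n = 0),
      rho γ A B l L q r n) / D ≤ Cz * (1 + P) := by
    rw [Finset.sum_div]
    refine (Finset.sum_le_card_nsmul _ _ (Cz * (1 + P)) fun n hn => ?_).trans ?_
    · obtain ⟨hn, hc⟩ := Finset.mem_filter.1 hn
      exact (hzero γ A B h l L q r hl hlL hq hr hne hll h4 X hDX hXD n hn hc).trans
        (mul_le_mul_of_nonneg_left (by linarith) hCz)
    · rw [nsmul_eq_mul]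
      refine mul_le_of_le_one_left (mul_nonneg hCz (by linarith)) ?_
      exact_mod_cast card_coin_zero h _
  have h2 : (∑ n ∈ (nRange γ l L q r).filter (fun n => ¬ coinForm A B l L q r n = 0),
      rho γ A B l L q r n) / D ≤ (Cs + Cl) * (1 + P) := by
    rcases le_or_gt X (1 / 8) with hX8 | hX8
    · rw [Finset.sum_div]
      refine (Finset.sum_le_card_nsmul _ _ ((Cs + Cl) * (1 + P)) fun n hn => ?_).trans ?_
      · obtain ⟨hn, hc⟩ := Finset.mem_filter.1 hn
        exact (hsmall γ A B h l L q r K hl hlL hq hr hne X hDX hXD hX8 n hn hc).trans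
          (mul_le_mul (by linarith) (by linarith) hP0 (by linarith))
      · rw [nsmul_eq_mul]
        refine mul_le_of_le_one_left (mul_nonneg (by linarith) (by linarith)) ?_
        have hlt : (((nRange γ l L q r).filter
            (fun n => ¬ coinForm A B l L q r n = 0)).card : ℝ) ≤ 4 * D / ((1 : ℕ) : ℝ) + 1 :=
          card_le_of_dvd_sub _ le_rfl (by positivity) (fun x _ y _ => by simp) fun x hx y hy =>
            nRange_width (Finset.mem_filter.1 hx).1 (Finset.mem_filter.1 hy).1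
        rw [Nat.cast_one, div_one] at hlt
        have : (((nRange γ l L q r).filter
            (fun n => ¬ coinForm A B l L q r n = 0)).card : ℝ) < ((2 : ℕ) : ℝ) := by
          push_cast; linarith
        rw [Nat.cast_lt] at this
        exact_mod_cast Nat.lt_succ_iff.1 this
    · exact (hlarge γ A B h l L q r K hK hl hlL hq hr X hDX hXD hX8).trans
        (mul_le_mul_of_nonneg_right (by linarith) (by linarith))
  linarith

end Vale.Agent.P028.Tame
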