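import Vale.Agent.P028.Tame.Stmts

/-! Splittings of the weight of one pair at the cuts `ycut` and `yBig`. -/

namespace Vale.Agent.P028.Tame

open Finset Real
open scoped Classical

theorem lX_one_le {X : ℝ} (hX : 0 < X) : 1 ≤ lX X := by
  have h : 0 < 1 / X := by positivity
  have := log_nonneg (show (1 : ℝ) ≤ 2 + X + 1 / X by linarith)
  unfold lX; linarith

theorem four_le_yBase {X : ℝ} (hX : 0 < X) : 4 + X + 1 / X ≤ (yBig X : ℝ) := by
  have h : 0 < 1 / X := by positivity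
  refine le_trans ?_ (Nat.le_ceil _)
  exact le_self_pow₀ (by linarith) (by norm_num)

theorem log_yBig_le {X : ℝ} (hX : 0 < X) : log (yBig X : ℝ) ≤ 101 * lX X := by
  have h : 0 < 1 / X := by positivity
  set u := 4 + X + 1 / X with hu
  have hu1 : (1 : ℝ) ≤ u := by linarith
  have hu2 : u ≤ 2 * (2 + X + 1 / X) := by linarith
  have h6 : log u ≤ log 2 + log (2 + X + 1 / X) := by
    rw [← log_mul (by norm_num) (by linarith)]
    exact log_le_log (by linarith) hu2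
  have hY : (yBig X : ℝ) ≤ 2 * u ^ (100 : ℕ) := by
    have h1 := (Nat.ceil_lt_add_one (show (0 : ℝ) ≤ u ^ (100 : ℕ) by positivity)).le
    have h2 : (1 : ℝ) ≤ u ^ (100 : ℕ) := one_le_pow₀ hu1
    unfold yBig; rw [← hu]
    generalize u ^ (100 : ℕ) = w at h1 h2 ⊢
    linarith
  have h4 := four_le_yBase hX
  have h5 := log_le_log (show (0 : ℝ) < yBig X from
    lt_of_lt_of_le (lt_of_lt_of_le one_pos hu1) h4) hY
  rw [log_mul (by norm_num) (by positivity), log_pow] at h5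
  clear hY
  have h7 := log_two_lt_d9
  have h8 := lX_one_le hX
  unfold lX at h8 ⊢
  push_cast at h5
  clear_value u
  linarith

theorem log_two_add_le {X D : ℝ} (hX : 0 < X) (hD : 0 ≤ D) (hDX : D ≤ X) :
    log (2 + D) ≤ log ((yBig X : ℝ) + 1) ∧ log (2 + D) ≤ lX X := by
  have h : 0 < 1 / X := by positivity
  have h4 := four_le_yBase hX
  refine ⟨log_le_log (by linarith) (by linarith), ?_⟩
  have := log_le_log (show (0 : ℝ) < 2 + D by linarith) (show 2 + D ≤ 2 + X + 1 / X by linarith)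
  unfold lX; linarith

theorem prod_ratio_nonneg {U : Finset ℕ} (hU : ∀ p ∈ U, p.Prime) :
    (0 : ℝ) ≤ ∏ p ∈ U, ((p : ℝ) / (p - 1)) :=
  Finset.prod_nonneg fun p hp => zero_le_one.trans (ratio_ge_one (hU p hp))

theorem prod_ratio_one_le {U : Finset ℕ} (hU : ∀ p ∈ U, p.Prime) :
    (1 : ℝ) ≤ ∏ p ∈ U, ((p : ℝ) / (p - 1)) :=
  Finset.one_le_prod fun p hp => ratio_ge_one (hU p hp)

/-- All primes up to `yBig`. -/
theorem flow_le : ∃ C : ℝ, 1 ≤ C ∧ ∀ X : ℝ, 0 < X → ∀ U : Finset ℕ,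
    (∀ p ∈ U, p.Prime ∧ p ≤ yBig X) → ∏ p ∈ U, ((p : ℝ) / (p - 1)) ≤ C * lX X ^ (8 : ℕ) := by
  obtain ⟨C, hC, hrange⟩ := range_ratio_le
  refine ⟨C * 102 ^ 8, one_le_mul_of_one_le_of_one_le hC (by norm_num), fun X hX U hU => ?_⟩
  refine (hrange 0 (yBig X) U (Nat.zero_le _) fun p hp =>
    ⟨(hU p hp).1, (hU p hp).1.pos, (hU p hp).2⟩).trans ?_
  rw [Nat.cast_zero, zero_add, log_one, add_zero, div_one, mul_assoc, ← mul_pow]
  refine mul_le_mul_of_nonneg_left (pow_le_pow_left₀ ?_ ?_ 8) (by linarith)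
  · linarith [log_natCast_nonneg (yBig X)]
  · linarith [log_yBig_le hX, lX_one_le hX]

/-- Prime divisors of a number with small logarithm. -/
theorem pf_log_le : ∃ C : ℝ, 1 ≤ C ∧ ∀ (M : ℕ) (U : Finset ℕ) (Z z : ℝ), 1 ≤ M → 0 ≤ Z →
    log (M : ℝ) ≤ Z → U ⊆ M.primeFactors → 1 + log (1 + Z) ≤ z →
    ∏ p ∈ U, ((p : ℝ) / (p - 1)) ≤ C * z ^ (8 : ℕ) := by
  obtain ⟨C, hC, htail⟩ := pf_tail_le
  refine ⟨C, hC, fun M U Z z hM hZ hlog hU hz => ?_⟩
  refine (htail M 0 Z U hM hZ hlog hU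
    (fun p hp => (Nat.prime_of_mem_primeFactors (hU hp)).pos)).trans ?_
  have h0 : 0 ≤ log (1 + Z) := log_nonneg (by linarith)
  simp only [Nat.cast_zero, zero_add, log_one, add_zero, div_one]
  rw [max_eq_right (by linarith)]
  exact mul_le_mul_of_nonneg_left (pow_le_pow_left₀ (by linarith) hz 8) (by linarith)

/-- The primes between `ycut` and `yBig` outside the event. -/
theorem mid_le : ∃ C : ℝ, 1 ≤ C ∧ ∀ (D₀ X : ℝ) (U : Finset ℕ), 1 ≤ D₀ → 1 / 8 < X → X ≤ D₀ →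
    (∀ p ∈ U, p.Prime ∧ ycut D₀ < p ∧ p ≤ yBig X) →
    ∑ p ∈ U.filter (fun p => p ∈ evPrimes D₀), (p : ℝ)⁻¹ ≤ 1 / 2 →
    ∏ p ∈ U, ((p : ℝ) / (p - 1)) ≤ C := by
  obtain ⟨C, hC, hrange⟩ := range_ratio_le
  refine ⟨C * 161 ^ 8 * (exp 1 * (C * 405 ^ 8)), ?_, ?_⟩
  · exact one_le_mul_of_one_le_of_one_le (one_le_mul_of_one_le_of_one_le hC (by norm_num))
      (one_le_mul_of_one_le_of_one_le (one_le_exp zero_le_one)
        (one_le_mul_of_one_le_of_one_le hC (by norm_num)))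
  intro D₀ X U hD₀ hX hXD hU hev
  have hlD : 0 ≤ log D₀ := log_nonneg hD₀
  have hyt : 1 ≤ ytail D₀ := one_le_pow₀ (by linarith)
  set y := ycut D₀ with hy
  set Y₁ := max y ⌊ytail D₀⌋₊ with hY₁
  have hU' : ∀ p ∈ U, p.Prime := fun p hp => (hU p hp).1
  rw [← Finset.prod_filter_mul_prod_filter_not U (fun p => p ≤ Y₁),
    ← Finset.prod_filter_mul_prod_filter_not (U.filter fun p => ¬ p ≤ Y₁) (fun p => p ≤ ⌊D₀⌋₊)]
  have hlow : ∏ p ∈ U.filter (fun p => p ≤ Y₁), ((p : ℝ) / (p - 1)) ≤ C * 161 ^ 8 := by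
    refine (hrange y Y₁ _ (le_max_left _ _) fun p hp => ?_).trans ?_
    · obtain ⟨h1, h2⟩ := Finset.mem_filter.1 hp
      exact ⟨hU' p h1, (hU p h1).2.1, h2⟩
    have hy1 : log D₀ < 4 * ((y : ℝ) + 1) := by
      have := Nat.lt_floor_add_one (log D₀ / 4)
      rw [hy, ycut]; linarith
    have hly : 0 ≤ log ((y : ℝ) + 1) := log_nonneg (by linarith [(Nat.cast_nonneg y : (0 : ℝ) ≤ _)])
    have hlY : 0 ≤ log (Y₁ : ℝ) := log_natCast_nonneg _
    refine mul_le_mul_of_nonneg_left (pow_le_pow_left₀ (by positivity) ?_ 8) (by linarith)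
    rw [div_le_iff₀ (by linarith)]
    rcases le_total y ⌊ytail D₀⌋₊ with h | h
    · have hfl : (Y₁ : ℝ) ≤ ytail D₀ := by
        rw [hY₁, max_eq_right h]; exact Nat.floor_le (by linarith)
      have h1 : log (Y₁ : ℝ) ≤ log (ytail D₀) := by
        rcases Nat.eq_zero_or_pos Y₁ with hz | hz
        · rw [hz, Nat.cast_zero, log_zero]; exact log_nonneg hyt
        · exact log_le_log (by exact_mod_cast hz) hfl
      rw [ytail, log_pow] at h1
      have h2 : log (1 + log D₀) ≤ log 5 + log ((y : ℝ) + 1) := by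
        rw [← log_mul (by norm_num) (by positivity)]
        exact log_le_log (by linarith) (by linarith [(Nat.cast_nonneg y : (0 : ℝ) ≤ _)])
      have h3 : log (5 : ℝ) ≤ 2 := by
        rw [log_le_iff_le_exp (by norm_num)]
        have h : exp (2 : ℝ) = exp 1 * exp 1 := by rw [← exp_add]; norm_num
        rw [h]; nlinarith [exp_one_gt_d9]
      push_cast at h1
      linarith
    · have h1 : log (Y₁ : ℝ) ≤ log ((y : ℝ) + 1) := by
        rcases Nat.eq_zero_or_pos Y₁ with hz | hz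
        · rw [hz, Nat.cast_zero, log_zero]; exact hly
        · refine log_le_log (by exact_mod_cast hz) ?_
          rw [hY₁, max_eq_left h]; linarith
      linarith
  have hmid : ∏ p ∈ (U.filter fun p => ¬ p ≤ Y₁).filter (fun p => p ≤ ⌊D₀⌋₊),
      ((p : ℝ) / (p - 1)) ≤ exp 1 := by
    refine (prod_ratio_le_exp fun p hp =>
      hU' p (Finset.mem_filter.1 (Finset.mem_filter.1 hp).1).1).trans (exp_le_exp.2 ?_)
    have hs : ∑ p ∈ (U.filter fun p => ¬ p ≤ Y₁).filter (fun p => p ≤ ⌊D₀⌋₊), (p : ℝ)⁻¹ ≤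
        ∑ p ∈ U.filter (fun p => p ∈ evPrimes D₀), (p : ℝ)⁻¹ := by
      refine Finset.sum_le_sum_of_subset_of_nonneg (fun p hp => ?_) (fun p _ _ => by positivity)
      simp only [Finset.mem_filter, not_le] at hp
      obtain ⟨⟨h1, h2⟩, h3⟩ := hp
      refine Finset.mem_filter.2 ⟨h1, ?_⟩
      rw [evPrimes, Finset.mem_filter, Finset.mem_range]
      exact ⟨by omega, hU' p h1, Nat.lt_of_floor_lt (lt_of_le_of_lt (le_max_right _ _) h2)⟩
    linarith
  have hhigh : ∏ p ∈ (U.filter fun p => ¬ p ≤ Y₁).filter (fun p => ¬ p ≤ ⌊D₀⌋₊),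
      ((p : ℝ) / (p - 1)) ≤ C * 405 ^ 8 := by
    refine (hrange ⌊D₀⌋₊ (max ⌊D₀⌋₊ (yBig X)) _ (le_max_left _ _) fun p hp => ?_).trans ?_
    · obtain ⟨h1, h2⟩ := Finset.mem_filter.1 hp
      have h3 := hU p (Finset.mem_filter.1 h1).1
      exact ⟨h3.1, not_le.1 h2, h3.2.2.trans (le_max_right _ _)⟩
    have hfl : log D₀ ≤ log ((⌊D₀⌋₊ : ℝ) + 1) :=
      log_le_log (by linarith) (Nat.lt_floor_add_one D₀).le
    refine mul_le_mul_of_nonneg_left (pow_le_pow_left₀ ?_ ?_ 8) (by linarith)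
    · exact div_nonneg (by linarith [log_natCast_nonneg (max ⌊D₀⌋₊ (yBig X))]) (by linarith)
    rw [div_le_iff₀ (by linarith)]
    rcases le_total ⌊D₀⌋₊ (yBig X) with h | h
    · rw [max_eq_right h]
      have hlX : lX X ≤ 4 + log D₀ := by
        have h8 : 1 / X ≤ 8 := by rw [div_le_iff₀ (by linarith)]; linarith
        have h11 := log_le_log (show (0 : ℝ) < 2 + X + 1 / X by positivity)
          (show 2 + X + 1 / X ≤ 11 * D₀ by linarith)
        rw [log_mul (by norm_num) (by linarith)] at h11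
        have h12 : log (11 : ℝ) ≤ 3 := by
          rw [log_le_iff_le_exp (by norm_num)]
          have h : exp (3 : ℝ) = exp 1 * exp 1 * exp 1 := by rw [← exp_add, ← exp_add]; norm_num
          have h13 : (4 : ℝ) ≤ exp 1 * exp 1 := by nlinarith [exp_one_gt_d9]
          rw [h]; nlinarith [exp_one_gt_d9]
        unfold lX; linarith
      linarith [log_yBig_le (show 0 < X by linarith)]
    · rw [max_eq_left h]
      have : log (⌊D₀⌋₊ : ℝ) ≤ log ((⌊D₀⌋₊ : ℝ) + 1) :=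
        log_le_log (by exact_mod_cast Nat.floor_pos.2 hD₀) (by linarith)
      linarith
  exact mul_le_mul hlow (mul_le_mul hmid hhigh (prod_ratio_nonneg fun p hp =>
      hU' p (Finset.mem_filter.1 (Finset.mem_filter.1 hp).1).1) (exp_pos 1).le)
    (mul_nonneg (prod_ratio_nonneg fun p hp => hU' p (Finset.mem_filter.1 (Finset.mem_filter.1 hp).1).1)
      (prod_ratio_nonneg fun p hp => hU' p (Finset.mem_filter.1 (Finset.mem_filter.1 hp).1).1))
    (by positivity)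

theorem ev_max_one {X : ℝ} {m : ℕ} (h : Ev (max 1 X) m) : Ev X m := by
  rcases le_total 1 X with h1 | h1
  · rwa [max_eq_right h1] at h
  · rw [max_eq_left h1] at h
    exfalso
    have he : (evPrimes 1).filter (fun p => p ∣ m) = ∅ := by
      refine Finset.filter_eq_empty_iff.2 fun p hp => ?_
      rw [evPrimes, Finset.mem_filter, Finset.mem_range, Nat.floor_one] at hp
      exact absurd hp.2.1.two_le (by omega)
    rw [Ev, he, Finset.sum_empty] at h
    linarith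

variable {γ : ℝ} {A : ℕ → ℤ} {B : ℕ → ℕ} {l L q r : ℕ}

/-- The coinciding primes of one numerator. -/
noncomputable def coinPr (γ : ℝ) (A : ℕ → ℤ) (B : ℕ → ℕ) (l L q r : ℕ) (n : ℤ) : Finset ℕ :=
  (bothSet γ A B l L q r).filter (fun p : ℕ => (p : ℤ) ∣ coinForm A B l L q r n)

theorem coinPr_prime {n : ℤ} {p : ℕ} (hp : p ∈ coinPr γ A B l L q r n) : p.Prime :=
  Nat.prime_of_mem_primeFactors (Finset.mem_filter.1 (Finset.mem_filter.1 hp).1).1

theorem coinSet_prime {Y : ℕ} {n : ℤ} {p : ℕ} (hp : p ∈ coinSet γ A B Y l L q r n) : p.Prime :=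
  Nat.prime_of_mem_primeFactors (Finset.mem_filter.1 (Finset.mem_filter.1 hp).1).1

theorem rho_le_prods (n : ℤ) :
    rho γ A B l L q r n ≤
      (∏ p ∈ (red q r).primeFactors, ((p : ℝ) / (p - 1))) *
        (∏ p ∈ (red r q).primeFactors, ((p : ℝ) / (p - 1))) *
        ∏ p ∈ coinPr γ A B l L q r n, ((p : ℝ) / (p - 1)) := by
  refine rho_le_of_bounds ((rhoLeft_le _ _ _ _).trans ?_) ((rhoLeft_le _ _ _ _).trans ?_)
    (le_of_eq (rhoBoth_eq _ _ _ _ _)) <;>
  exact prod_ratio_mono (Finset.filter_subset _ _) fun p hp => Nat.prime_of_mem_primeFactors hp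

/-- The product over the prime divisors beyond `Y`. -/
noncomputable def bigT (Y m : ℕ) : ℝ :=
  ∏ p ∈ m.primeFactors.filter (fun p => Y < p), ((p : ℝ) / (p - 1))

theorem bigT_one_le (Y m : ℕ) : 1 ≤ bigT Y m :=
  prod_ratio_one_le fun _ hp => Nat.prime_of_mem_primeFactors (Finset.mem_filter.1 hp).1

theorem exc_eq (Y m : ℕ) : exc Y m = bigT Y m ^ 3 - 1 := by
  rw [exc, bigT, Finset.prod_pow]

theorem exc_nonneg (Y m : ℕ) : 0 ≤ exc Y m := by
  rw [exc_eq]; linarith [one_le_pow₀ (bigT_one_le Y m) (n := 3)]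

/-- The large factors of the three products at one numerator. -/
noncomputable def bigPi (γ : ℝ) (A : ℕ → ℤ) (B : ℕ → ℕ) (Y l L q r : ℕ) (n : ℤ) : ℝ :=
  bigT Y (red q r) * bigT Y (red r q) * ∏ p ∈ coinSet γ A B Y l L q r n, ((p : ℝ) / (p - 1))

/-- Excess of one numerator. -/
noncomputable def excPr (γ : ℝ) (A : ℕ → ℤ) (B : ℕ → ℕ) (Y l L q r : ℕ) (n : ℤ) : ℝ :=
  (∏ p ∈ coinSet γ A B Y l L q r n, ((p : ℝ) / (p - 1)) ^ 3) - 1

theorem excPr_nonneg (Y : ℕ) (n : ℤ) : 0 ≤ excPr γ A B Y l L q r n := by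
  have h := one_le_pow₀ (prod_ratio_one_le (U := coinSet γ A B Y l L q r n)
    fun _ hp => coinSet_prime hp) (n := 3)
  rw [← Finset.prod_pow] at h
  unfold excPr; linarith

theorem bigPi_nonneg (Y : ℕ) (n : ℤ) : 0 ≤ bigPi γ A B Y l L q r n :=
  mul_nonneg (mul_nonneg (zero_le_one.trans (bigT_one_le _ _)) (zero_le_one.trans (bigT_one_le _ _)))
    (prod_ratio_nonneg fun _ hp => coinSet_prime hp)

theorem bigPi_le (Y : ℕ) (n : ℤ) : bigPi γ A B Y l L q r n ≤
    1 + (exc Y (red q r) + exc Y (red r q) + excPr γ A B Y l L q r n) := by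
  have h1 := bigT_one_le Y (red q r)
  have h2 := bigT_one_le Y (red r q)
  have h3 := prod_ratio_one_le (U := coinSet γ A B Y l L q r n) fun _ hp => coinSet_prime hp
  rw [exc_eq, exc_eq, excPr, Finset.prod_pow, bigPi]
  generalize bigT Y (red q r) = x, bigT Y (red r q) = y,
    ∏ p ∈ coinSet γ A B Y l L q r n, ((p : ℝ) / (p - 1)) = z at h1 h2 h3
  have hsq := mul_nonneg (show 0 ≤ x + y + z by linarith)
    (add_nonneg (add_nonneg (sq_nonneg (x - y)) (sq_nonneg (y - z))) (sq_nonneg (z - x)))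
  nlinarith [one_le_pow₀ h1 (n := 3), one_le_pow₀ h2 (n := 3), one_le_pow₀ h3 (n := 3)]

/-- Coinciding primes beyond `uBig` are negligible. -/
theorem coin_tail : ∃ C : ℝ, 1 ≤ C ∧ ∀ (γ : ℝ) (A : ℕ → ℤ) (B : ℕ → ℕ), IsCls γ A B →
    ∀ l L q r : ℕ, 1 ≤ l → l ≤ L → 0 < q → 0 < r → ∀ X : ℝ, 0 < X → dgap l L q r ≤ X →
    ∀ n ∈ nRange γ l L q r, coinForm A B l L q r n ≠ 0 → ∀ U : Finset ℕ,
      U ⊆ coinPr γ A B l L q r n → (∀ p ∈ U, yBig X < p) →
      ∏ p ∈ U, ((p : ℝ) / (p - 1)) ≤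
        C * ∏ p ∈ coinSet γ A B (yBig X) l L q r n, ((p : ℝ) / (p - 1)) := by
  obtain ⟨C, hC, htail⟩ := pf_tail_le
  refine ⟨C * 9 ^ 8, one_le_mul_of_one_le_of_one_le hC (by norm_num),
    fun γ A B h l L q r hl hlL hq hr X hX hDX n hn hc U hU hYU => ?_⟩
  have hL : 1 ≤ L := hl.trans hlL
  have hD := (dgap_facts (r := r) hq l L).2.2
  obtain ⟨-, -, hs3⟩ := log_sizes h hlL hL hq hr
  have hpr : ∀ p ∈ U, p.Prime := fun p hp => coinPr_prime (hU hp)
  rw [← Finset.prod_filter_mul_prod_filter_not U (fun p => p ≤ uBig L), mul_comm]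
  refine mul_le_mul ?_ (prod_ratio_mono (fun p hp => ?_) fun p hp => coinSet_prime hp)
    (prod_ratio_nonneg fun p hp => hpr p (Finset.mem_filter.1 hp).1) (by positivity)
  · set M := (coinForm A B l L q r n).natAbs with hM
    set a := max (yBig X) (uBig L) with ha
    refine (htail M a (4 * bigD L (dgap l L q r)) _ (Int.natAbs_pos.2 hc)
      (by linarith [bigD_ge_one hL hD.le]) (hs3 n hn hc) ?_ ?_).trans ?_
    · intro p hp
      obtain ⟨h1, -⟩ := Finset.mem_filter.1 hp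
      exact Nat.mem_primeFactors.2 ⟨hpr p h1, Int.natCast_dvd.1 (Finset.mem_filter.1 (hU h1)).2,
        Int.natAbs_ne_zero.2 hc⟩
    · intro p hp
      obtain ⟨h1, h2⟩ := Finset.mem_filter.1 hp
      exact max_lt (hYU p h1) (not_le.1 h2)
    refine mul_le_mul_of_nonneg_left (pow_le_pow_left₀ (zero_le_one.trans (le_max_left _ _))
      (max_le (by norm_num) ?_) 8) (by linarith)
    have hla : 0 ≤ log ((a : ℝ) + 1) := log_nonneg (by linarith [(Nat.cast_nonneg a : (0 : ℝ) ≤ _)])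
    rw [div_le_iff₀ (by linarith)]
    have h1 := log_bigD_le hL hD.le
    have h2 : log ((yBig X : ℝ) + 1) ≤ log ((a : ℝ) + 1) :=
      log_le_log (by positivity) (by
        have : ((yBig X : ℕ) : ℝ) ≤ a := by exact_mod_cast le_max_left _ _
        linarith)
    have h3 : log ((L : ℝ) + 1) ≤ log ((a : ℝ) + 1) := by
      refine log_le_log (by positivity) ?_
      have h4 : L + 8 ≤ a :=
        (Nat.le_self_pow (by norm_num) (L + 8)).trans (le_max_right (yBig X) (uBig L))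
      have : (((L + 8 : ℕ)) : ℝ) ≤ a := by exact_mod_cast h4
      push_cast at this; linarith
    have h5 := (log_two_add_le hX hD.le hDX).1
    unfold lgD at h1
    linarith
  · obtain ⟨h1, h2⟩ := Finset.mem_filter.1 hp
    obtain ⟨h3, h4⟩ := Finset.mem_filter.1 (hU h1)
    exact Finset.mem_filter.2 ⟨h3, hYU p h1, h2, h4⟩

/-- Split at `Y`: small factors crudely, large factors kept. -/
theorem rho_le_bigPi : ∃ C : ℝ, 1 ≤ C ∧ ∀ (γ : ℝ) (A : ℕ → ℤ) (B : ℕ → ℕ), IsCls γ A B →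
    ∀ l L q r : ℕ, 1 ≤ l → l ≤ L → 0 < q → 0 < r → ∀ X : ℝ, 0 < X → dgap l L q r ≤ X →
    ∀ n ∈ nRange γ l L q r, coinForm A B l L q r n ≠ 0 →
      rho γ A B l L q r n ≤ C * lX X ^ (24 : ℕ) * bigPi γ A B (yBig X) l L q r n := by
  obtain ⟨C₁, hC₁, hflow⟩ := flow_le
  obtain ⟨C₂, hC₂, htail⟩ := coin_tail
  refine ⟨C₁ ^ 3 * C₂, one_le_mul_of_one_le_of_one_le (one_le_pow₀ hC₁) hC₂,
    fun γ A B h l L q r hl hlL hq hr X hX hDX n hn hc => ?_⟩
  set Y := yBig X
  have key : ∀ S : Finset ℕ, (∀ p ∈ S, p.Prime) → ∀ T : ℝ,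
      ∏ p ∈ S.filter (fun p => ¬ p ≤ Y), ((p : ℝ) / (p - 1)) ≤ T →
      ∏ p ∈ S, ((p : ℝ) / (p - 1)) ≤ C₁ * lX X ^ (8 : ℕ) * T := by
    intro S hS T hT
    rw [← Finset.prod_filter_mul_prod_filter_not S (fun p => p ≤ Y)]
    exact mul_le_mul
      (hflow X hX _ fun p hp => ⟨hS p (Finset.mem_filter.1 hp).1, (Finset.mem_filter.1 hp).2⟩) hT
      (prod_ratio_nonneg fun p hp => hS p (Finset.mem_filter.1 hp).1)
      (mul_nonneg (zero_le_one.trans hC₁) (pow_nonneg (zero_le_one.trans (lX_one_le hX)) 8))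
  have hpf : ∀ m : ℕ, ∏ p ∈ m.primeFactors.filter (fun p => ¬ p ≤ Y), ((p : ℝ) / (p - 1)) ≤ bigT Y m :=
    fun m => le_of_eq (Finset.prod_congr (Finset.filter_congr fun p _ => not_le) fun _ _ => rfl)
  have k1 := key _ (fun p hp => Nat.prime_of_mem_primeFactors hp) _ (hpf (red q r))
  have k2 := key _ (fun p hp => Nat.prime_of_mem_primeFactors hp) _ (hpf (red r q))
  have k3 := key _ (fun p hp => coinPr_prime hp) _ (htail γ A B h l L q r hl hlL hq hr X hX hDX n hn hc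
    _ (Finset.filter_subset _ _) fun p hp => not_le.1 (Finset.mem_filter.1 hp).2)
  have p1 := prod_ratio_nonneg (U := (red q r).primeFactors) fun p hp => Nat.prime_of_mem_primeFactors hp
  have p2 := prod_ratio_nonneg (U := (red r q).primeFactors) fun p hp => Nat.prime_of_mem_primeFactors hp
  have p3 := prod_ratio_nonneg (U := coinPr γ A B l L q r n) fun p hp => coinPr_prime hp
  refine (rho_le_prods n).trans ((mul_le_mul (mul_le_mul k1 k2 p2 (p1.trans k1)) k3 p3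
    (mul_nonneg (p1.trans k1) (p2.trans k2))).trans_eq ?_)
  rw [bigPi]; ring

/-- Split at `ycut`: an averageable factor, large factors kept. -/
theorem rho_le_avg : ∃ C : ℝ, 1 ≤ C ∧ ∀ (γ : ℝ) (A : ℕ → ℤ) (B : ℕ → ℕ), IsCls γ A B →
    ∀ l L q r : ℕ, 1 ≤ l → l ≤ L → 0 < q → 0 < r → ∀ X : ℝ, 1 / 8 < X → dgap l L q r ≤ X →
    ∀ D₀ : ℝ, 1 ≤ D₀ → X ≤ D₀ → ¬ Ev D₀ (red q r) → ¬ Ev D₀ (red r q) →
    ∃ F : ℤ → ℝ, (∀ n, 0 ≤ F n) ∧
      ∑ n ∈ nRange γ l L q r, F n ≤ 5 * exp 1 * D₀ ∧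
      ∀ n ∈ nRange γ l L q r, coinForm A B l L q r n ≠ 0 →
        ¬ 1 / 2 < ∑ p ∈ (evPrimes D₀).filter (fun p : ℕ =>
          p ∈ bothSet γ A B l L q r ∧ (p : ℤ) ∣ coinForm A B l L q r n), (p : ℝ)⁻¹ →
        rho γ A B l L q r n ≤ C * F n * bigPi γ A B (yBig X) l L q r n := by
  obtain ⟨C₁, hC₁, hmid⟩ := mid_le
  obtain ⟨C₂, hC₂, htail⟩ := coin_tail
  refine ⟨C₁ ^ 3 * C₂, one_le_mul_of_one_le_of_one_le (one_le_pow₀ hC₁) hC₂,
    fun γ A B h l L q r hl hlL hq hr X hX8 hDX D₀ hD₀ hXD hq' hr' => ?_⟩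
  have hX : 0 < X := by linarith
  obtain ⟨e, u, v, huv, husum, hfeq⟩ := small_part γ A B l L hq r (ycut D₀)
  set y := ycut D₀ with hy
  set P := (Finset.range (y + 1)).filter Nat.Prime with hP
  have hPp : ∀ p ∈ P, p.Prime := fun p hp => (Finset.mem_filter.1 hp).2
  refine ⟨classProd P e u v, fun n => classProd_nonneg _ huv _, ?_, fun n hn hc hev => ?_⟩
  · have hPD : ((∏ p ∈ P, p : ℕ) : ℝ) ≤ D₀ := by
      have h1 : ((∏ p ∈ P, p : ℕ) : ℝ) ≤ (4 : ℝ) ^ y := by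
        have h0 : (∏ p ∈ P, p) ≤ 4 ^ y := primorial_le_four_pow y
        exact_mod_cast h0
      refine h1.trans ?_
      rw [← log_le_log_iff (by positivity) (by linarith), log_pow]
      have hy' : (y : ℝ) ≤ log D₀ / 4 := Nat.floor_le (by linarith [log_nonneg hD₀])
      have h4 : log (4 : ℝ) ≤ 3 / 2 := by
        rw [show (4 : ℝ) = 2 ^ (2 : ℕ) by norm_num, log_pow]; push_cast; linarith [log_two_lt_d9]
      nlinarith [(Nat.cast_nonneg y : (0 : ℝ) ≤ _)]
    refine (classProd_window_le hPp e huv husum _ (show (0 : ℝ) ≤ 4 * D₀ by linarith)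
      fun x hx z hz => ?_).trans ?_
    · linarith [nRange_width hx hz]
    · rw [mul_comm (5 * exp 1), ← mul_assoc]
      exact mul_le_mul_of_nonneg_right (by linarith) (exp_pos 1).le
  set Y := yBig X with hY
  -- one of the three large parts
  have key : ∀ S : Finset ℕ, (∀ p ∈ S, p.Prime) →
      ∑ p ∈ (evPrimes D₀).filter (fun p => p ∈ S), (p : ℝ)⁻¹ ≤ 1 / 2 → ∀ T : ℝ,
      ∏ p ∈ S.filter (fun p => Y < p), ((p : ℝ) / (p - 1)) ≤ T →
      ∏ p ∈ S.filter (fun p => ¬ p ≤ y), ((p : ℝ) / (p - 1)) ≤ C₁ * T := by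
    intro S hS hsum T hT
    rw [← Finset.prod_filter_mul_prod_filter_not (S.filter fun p => ¬ p ≤ y) (fun p => p ≤ Y)]
    refine mul_le_mul (hmid D₀ X _ hD₀ hX8 hXD (fun p hp => ?_) (le_trans ?_ hsum))
      (le_trans (prod_ratio_mono (fun p hp => ?_) fun p hp => hS p (Finset.mem_filter.1 hp).1) hT)
      (prod_ratio_nonneg fun p hp => hS p (Finset.mem_filter.1 (Finset.mem_filter.1 hp).1).1)
      (by linarith)
    · obtain ⟨h1, h2⟩ := Finset.mem_filter.1 hp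
      exact ⟨hS p (Finset.mem_filter.1 h1).1, not_le.1 (Finset.mem_filter.1 h1).2, h2⟩
    · refine Finset.sum_le_sum_of_subset_of_nonneg (fun p hp => ?_) (fun p _ _ => by positivity)
      obtain ⟨h1, h2⟩ := Finset.mem_filter.1 hp
      exact Finset.mem_filter.2 ⟨h2, (Finset.mem_filter.1 (Finset.mem_filter.1 h1).1).1⟩
    · obtain ⟨h1, h2⟩ := Finset.mem_filter.1 hp
      exact Finset.mem_filter.2 ⟨(Finset.mem_filter.1 h1).1, not_le.1 h2⟩
  have hside : ∀ m : ℕ, ¬ Ev D₀ m →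
      ∏ p ∈ m.primeFactors.filter (fun p => ¬ p ≤ y), ((p : ℝ) / (p - 1)) ≤ C₁ * bigT Y m := by
    intro m hm
    refine key _ (fun p hp => Nat.prime_of_mem_primeFactors hp) (le_trans ?_ (not_lt.1 hm)) _ le_rfl
    refine Finset.sum_le_sum_of_subset_of_nonneg (fun p hp => ?_) (fun p _ _ => by positivity)
    obtain ⟨h1, h2⟩ := Finset.mem_filter.1 hp
    exact Finset.mem_filter.2 ⟨h1, Nat.dvd_of_mem_primeFactors h2⟩
  have hboth := key (coinPr γ A B l L q r n) (fun p hp => coinPr_prime hp)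
    (le_trans (le_of_eq (Finset.sum_congr (Finset.filter_congr fun p _ => Finset.mem_filter)
      fun _ _ => rfl)) (not_lt.1 hev))
    _ (htail γ A B h l L q r hl hlL hq hr X hX hDX n hn hc _ (Finset.filter_subset _ _)
      fun p hp => (Finset.mem_filter.1 hp).2)
  have hdet : ∀ (m l₁ : ℕ) (f : ℕ → ℝ),
      (∀ p ∈ m.primeFactors, 0 ≤ f p ∧ f p ≤ (p : ℝ) / (p - 1)) →
      0 ≤ ∏ p ∈ (m.primeFactors.filter (fun p => Det γ A B l₁ p)).filter (fun p => ¬ p ≤ y), f p ∧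
      ∏ p ∈ (m.primeFactors.filter (fun p => Det γ A B l₁ p)).filter (fun p => ¬ p ≤ y), f p ≤
        ∏ p ∈ m.primeFactors.filter (fun p => ¬ p ≤ y), ((p : ℝ) / (p - 1)) := by
    intro m l₁ f hf
    have hmem : ∀ p ∈ (m.primeFactors.filter (fun p => Det γ A B l₁ p)).filter (fun p => ¬ p ≤ y),
        p ∈ m.primeFactors := fun p hp => (Finset.mem_filter.1 (Finset.mem_filter.1 hp).1).1
    refine ⟨Finset.prod_nonneg fun p hp => (hf p (hmem p hp)).1,
      (Finset.prod_le_prod (fun p hp => (hf p (hmem p hp)).1) fun p hp => (hf p (hmem p hp)).2).trans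
        (prod_ratio_mono (fun p hp => ?_) fun p hp =>
          Nat.prime_of_mem_primeFactors (Finset.mem_filter.1 hp).1)⟩
    exact Finset.mem_filter.2 ⟨hmem p hp, (Finset.mem_filter.1 hp).2⟩
  have hite : ∀ (m : ℕ) (c : ℕ → Prop) [DecidablePred c], ∀ p ∈ m.primeFactors,
      0 ≤ (if c p then 0 else (p : ℝ) / (p - 1)) ∧
        (if c p then 0 else (p : ℝ) / (p - 1)) ≤ (p : ℝ) / (p - 1) := by
    intro m c _ p hp
    have := ratio_ge_one (Nat.prime_of_mem_primeFactors hp)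
    split_ifs <;> constructor <;> linarith
  obtain ⟨a0, a1⟩ := hdet (red q r) l _ (hite (red q r) fun p : ℕ => (p : ℤ) ∣ (B l : ℤ) * n + A l * red r q)
  obtain ⟨b0, b1⟩ := hdet (red r q) L _ (hite (red r q) fun p : ℕ => (p : ℤ) ∣ (B L : ℤ) * -n + A L * red q r)
  have b1' := b1.trans (hside _ hr')
  have a1' := a1.trans (hside _ hq')
  have hF0 : 0 ≤ classProd P e u v n := classProd_nonneg _ huv _
  have hc0 := prod_ratio_nonneg (U := (coinPr γ A B l L q r n).filter (fun p => ¬ p ≤ y))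
    fun p hp => coinPr_prime (Finset.mem_filter.1 hp).1
  have hc1 : ∏ p ∈ (bothSet γ A B l L q r).filter (fun p => ¬ p ≤ y),
      (if (p : ℤ) ∣ coinForm A B l L q r n then (p : ℝ) / (p - 1) else 1) =
      ∏ p ∈ (coinPr γ A B l L q r n).filter (fun p => ¬ p ≤ y), ((p : ℝ) / (p - 1)) := by
    rw [← Finset.prod_filter, Finset.filter_comm]
    rfl
  have hbig := mul_le_mul_of_nonneg_left
    (mul_le_mul (mul_le_mul a1' b1' b0 (a0.trans a1')) hboth hc0
      (mul_nonneg (a0.trans a1') (b0.trans b1'))) hF0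
  refine le_trans (le_of_eq ?_) (hbig.trans_eq ?_)
  · unfold rho rhoLeft rhoBoth
    rw [← bothSet, ← Finset.prod_filter_mul_prod_filter_not
        ((red q r).primeFactors.filter fun p => Det γ A B l p) (fun p => p ≤ y),
      ← Finset.prod_filter_mul_prod_filter_not
        ((red r q).primeFactors.filter fun p => Det γ A B L p) (fun p => p ≤ y),
      ← Finset.prod_filter_mul_prod_filter_not (bothSet γ A B l L q r) (fun p => p ≤ y),
      hfeq n, hc1]
    ring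
  · rw [bigPi]; ring

end Vale.Agent.P028.Tame
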