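import Vale.Agent.P028.ScaleLeaf

/-! The leaf bound with a gain in every dyadic cell. -/

namespace Vale.Agent.P028.Tame

open Finset Real

/-- Leaf bound for the pairs of an event at prescribed scales, with a gain in every cell. -/
theorem gain_leaf {V W R : Finset ℕ} (hR : ∀ p ∈ R, p.Prime) (hVpos : ∀ v ∈ V, 0 < v)
    (hWpos : ∀ w ∈ W, 0 < w) (cV : ExpConst R V) (cW : ExpConst R W) (N : ℕ → ℕ) (ψV ψW : ℕ → ℝ)
    {S₁ S₂ D₁ D₂ θ : ℝ} (hS₁ : 0 < S₁) (hS₂ : 0 < S₂) (hD₁ : 0 < D₁) (hD₂ : 0 < D₂)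
    (hsV : ∀ v ∈ V, ψV v * S₁ ≤ v ∧ (v : ℝ) < 2 * S₁ * ψV v)
    (hsW : ∀ w ∈ W, ψW w * S₂ ≤ w ∧ (w : ℝ) < 2 * S₂ * ψW w)
    (hθ : 1 / 2 < θ) (hθ1 : θ < 1) {v₀ w₀ : ℕ} (hv₀ : v₀ ∈ V) (hw₀ : w₀ ∈ W) (Ev' : ℕ → ℕ → Prop)
    {Γ : ℝ} (hΓ : 0 ≤ Γ)
    (hgain : ∀ Nn : ℕ, 0 < Nn → (∀ p, Nn.factorization p = if p ∈ R then 0 else N p) →
      ∀ (α γ : ℕ) (F : Finset (ℕ × ℕ)), (∀ x ∈ F, x.1 ∈ V ∧ x.2 ∈ W ∧ Apart R N x.1 x.2 ∧
          Ev' x.1 x.2 ∧ Nat.log 2 (red (freePart R v₀ x.1) Nn) = α ∧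
          Nat.log 2 (red (freePart R w₀ x.2) Nn) = γ) →
        ∑ x ∈ F, divWeight Nn.primeFactors (red Nn (freePart R v₀ x.1)) *
          divWeight Nn.primeFactors (red Nn (freePart R w₀ x.2)) ≤ Γ * (2 : ℝ) ^ α * (2 : ℝ) ^ γ) :
    (∑ v ∈ V, ∑ w ∈ W, open Classical in
        if Apart R N v w ∧ (red v w : ℝ) * ψW w ≤ D₁ ∧ (red w v : ℝ) * ψV v ≤ D₂ ∧ Ev' v w
        then ψV v * phiR v * (ψW w * phiR w) else 0) ≤
      (4 * (4 * Γ)) ^ (1 - θ) * (1 / (1 - ((4 : ℝ)⁻¹) ^ (1 - θ))) *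
        ((∑ v ∈ V, ψV v * phiR v) * ∑ w ∈ W, ψW w * phiR w) ^ θ *
        (D₁ * D₂ / ((resolvedPart R v₀ w₀ : ℝ) * resolvedPart R w₀ v₀)) ^ (1 - θ) := by
  classical
  have hψV : ∀ v ∈ V, 0 < ψV v := fun v hv => by
    have := (hsV v hv).2; nlinarith [(Nat.cast_nonneg v : (0 : ℝ) ≤ v)]
  have hψW : ∀ w ∈ W, 0 < ψW w := fun w hw => by
    have := (hsW w hw).2; nlinarith [(Nat.cast_nonneg w : (0 : ℝ) ≤ w)]
  have hphi : ∀ v : ℕ, 0 ≤ phiR v := fun v => div_nonneg (Nat.cast_nonneg _) (Nat.cast_nonneg _)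
  set mA : ℕ → ℝ := fun v => ψV v * phiR v
  set mB : ℕ → ℝ := fun w => ψW w * phiR w
  have hmA : ∀ v ∈ V, 0 ≤ mA v := fun v hv => mul_nonneg (hψV v hv).le (hphi v)
  have hmB : ∀ w ∈ W, 0 ≤ mB w := fun w hw => mul_nonneg (hψW w hw).le (hphi w)
  have hρ : ((4 : ℝ)⁻¹) ^ (1 - θ) < 1 := rpow_lt_one (by norm_num) (by norm_num) (by linarith)
  have hgeo0 : 0 ≤ 1 / (1 - ((4 : ℝ)⁻¹) ^ (1 - θ)) := div_nonneg zero_le_one (by linarith)
  set X := resolvedPart R v₀ w₀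
  set Y := resolvedPart R w₀ v₀
  have hX0 : (0 : ℝ) < X := by exact_mod_cast resolvedPart_pos hR v₀ w₀
  have hY0 : (0 : ℝ) < Y := by exact_mod_cast resolvedPart_pos hR w₀ v₀
  set P := (V ×ˢ W).filter (fun x => Apart R N x.1 x.2 ∧
    (red x.1 x.2 : ℝ) * ψW x.2 ≤ D₁ ∧ (red x.2 x.1 : ℝ) * ψV x.1 ≤ D₂ ∧ Ev' x.1 x.2) with hP
  rw [show (∑ v ∈ V, ∑ w ∈ W, if Apart R N v w ∧ (red v w : ℝ) * ψW w ≤ D₁ ∧ (red w v : ℝ) * ψV v ≤ D₂ ∧ Ev' v w
      then ψV v * phiR v * (ψW w * phiR w) else 0) = ∑ x ∈ P, mA x.1 * mB x.2 by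
    rw [hP, sum_filter, sum_product]]
  have hPm : ∀ x ∈ P, x.1 ∈ V ∧ x.2 ∈ W ∧ Apart R N x.1 x.2 ∧
      (red x.1 x.2 : ℝ) * ψW x.2 ≤ D₁ ∧ (red x.2 x.1 : ℝ) * ψV x.1 ≤ D₂ ∧ Ev' x.1 x.2 := fun x hx =>
    ⟨(mem_product.1 (mem_filter.1 hx).1).1, (mem_product.1 (mem_filter.1 hx).1).2, (mem_filter.1 hx).2⟩
  rcases P.eq_empty_or_nonempty with hemp | ⟨z, hz⟩
  · rw [hemp, sum_empty]
    exact mul_nonneg (mul_nonneg (mul_nonneg (by positivity) hgeo0)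
      (rpow_nonneg (mul_nonneg (sum_nonneg hmA) (sum_nonneg hmB)) _)) (rpow_nonneg (by positivity) _)
  obtain ⟨Sup, Nn, hSup, hSupmem, hNn0, hNnf⟩ := exists_reference (hPm z hz).2.2.1
  set eV := ∏ p ∈ R, p ^ v₀.factorization p
  set eW := ∏ p ∈ R, p ^ w₀.factorization p
  have heV : (0 : ℝ) < eV := by exact_mod_cast prod_pos fun p hp => pow_pos (hR p hp).pos _
  have heW : (0 : ℝ) < eW := by exact_mod_cast prod_pos fun p hp => pow_pos (hR p hp).pos _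
  have hNnR : (0 : ℝ) < Nn := by exact_mod_cast hNn0
  set cA : ℕ → ℕ := fun v => red (freePart R v₀ v) Nn with hcA
  set cB : ℕ → ℕ := fun v => red Nn (freePart R v₀ v) with hcB
  set cC : ℕ → ℕ := fun w => red (freePart R w₀ w) Nn with hcC
  set cD : ℕ → ℕ := fun w => red Nn (freePart R w₀ w) with hcD
  have hdens : ∀ (U : Finset ℕ), ExpConst R U → ∀ u₀ ∈ U, ∀ v ∈ U, 0 < v →
      phiR v ≤ divWeight Sup (red Nn (freePart R u₀ v)) * red Nn (freePart R u₀ v) := by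
    intro U cU u₀ hu₀ v hv hv'
    obtain ⟨-, fp, ff⟩ := freePart_spec hR cU hu₀ hv hv'
    have hb : 0 < red Nn (freePart R u₀ v) := red_pos hNn0
    rw [divWeight, div_mul_cancel₀ _ (by exact_mod_cast hb.ne')]
    refine phiR_le_prod hv' fun p hp => ?_
    obtain ⟨h1, h2⟩ := mem_filter.1 hp
    rw [factorization_red hNn0 fp, ff, hNnf, if_neg (hSup p h1).2.1, if_neg (hSup p h1).2.1] at h2
    have := (hSup p h1).2.2
    rw [← Nat.support_factorization, Finsupp.mem_support_iff]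
    omega
  set Z := √(4 * S₁ * S₂ * D₁ * D₂ / ((X : ℝ) * Y * eV * eW * Nn ^ 2)) with hZdef
  have hZ : 0 < Z := sqrt_pos.2 (by positivity)
  have hZ2 : Z ^ 2 * ((X : ℝ) * Y * eV * eW * Nn ^ 2) = 4 * S₁ * S₂ * D₁ * D₂ := by
    rw [hZdef, sq_sqrt (by positivity)]; field_simp
  set C := 4 * (D₁ * D₂ / ((X : ℝ) * Y)) / Z ^ 2 with hC
  have hpair : ∀ x ∈ P, (cA x.1 : ℝ) * cC x.2 < Z ∧ mA x.1 * mB x.2 ≤
      C * ((cA x.1 : ℝ) * cC x.2) * (divWeight Sup (cB x.1) * divWeight Sup (cD x.2)) := by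
    intro x hx
    obtain ⟨h1, h2, ha, hb1, hb2, -⟩ := hPm x hx
    obtain ⟨hrV, hA, hB⟩ := scale_decomp hR cV hv₀ h1 (hVpos _ h1) hNn0
    obtain ⟨hrW, hC', hD⟩ := scale_decomp hR cW hw₀ h2 (hWpos _ h2) hNn0
    have ha' : Apart R N x.2 x.1 := fun p hp => (ha p hp).symm
    rw [red_eq_of_apart hR cV cW hNn0 hNnf hv₀ hw₀ h1 h2 (hVpos _ h1) (hWpos _ h2) ha] at hb1
    rw [red_eq_of_apart hR cW cV hNn0 hNnf hw₀ hv₀ h2 h1 (hWpos _ h2) (hVpos _ h1) ha'] at hb2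
    push_cast at hb1 hb2
    refine scale_pair hX0 hY0 heV heW hNnR (Nat.cast_pos.2 hA) (Nat.cast_pos.2 hB) (Nat.cast_pos.2 hC')
      (Nat.cast_pos.2 hD) hS₁ hS₂ hD₁ hD₂ ?_ ?_ (hsV _ h1).1 (hsV _ h1).2 (hsW _ h2).1 (hsW _ h2).2
      (hψV _ h1) (hψW _ h2) hb1 hb2 (hphi _) (hdens V cV v₀ hv₀ _ h1 (hVpos _ h1))
      (hdens W cW w₀ hw₀ _ h2 (hWpos _ h2)) (divWeight_nonneg (fun p hp => (hSup p hp).1) _)
      (divWeight_nonneg (fun p hp => (hSup p hp).1) _) hZ hZ2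
    · exact_mod_cast hrV
    · exact_mod_cast hrW
  set lA : ℕ → ℕ := fun v => Nat.log 2 (cA v)
  set lC : ℕ → ℕ := fun w => Nat.log 2 (cC w)
  set MA : ℕ → ℝ := fun α => ∑ v ∈ V.filter (fun v => lA v = α), mA v
  set MB : ℕ → ℝ := fun γ => ∑ w ∈ W.filter (fun w => lC w = γ), mB w
  set cell : ℕ → ℕ → Finset (ℕ × ℕ) := fun α γ => P.filter (fun x => lA x.1 = α ∧ lC x.2 = γ)
  set K : ℝ := 4 * (4 * Γ) * (D₁ * D₂ / ((X : ℝ) * Y)) with hK
  set ker : ℕ → ℕ → ℝ := fun α γ =>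
    if (2 : ℝ) ^ (α + γ) < Z then ((4 : ℝ) ^ (α + γ) / Z ^ 2) ^ (1 - θ) else 0
  have hcell : ∀ α γ, ∑ x ∈ cell α γ, mA x.1 * mB x.2 ≤
      (MA α * MB γ) ^ θ * (ker α γ * K ^ (1 - θ)) := by
    intro α γ
    have hm : ∀ x ∈ cell α γ, x ∈ P ∧ lA x.1 = α ∧ lC x.2 = γ ∧ x.1 ∈ V ∧ x.2 ∈ W ∧
        0 < cA x.1 ∧ 0 < cC x.2 := fun x hx => by
      obtain ⟨h, h1, h2⟩ := mem_filter.1 hx
      obtain ⟨m1, m2, -⟩ := hPm x h
      exact ⟨h, h1, h2, m1, m2, (scale_decomp hR cV hv₀ m1 (hVpos _ m1) hNn0).2.1,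
        (scale_decomp hR cW hw₀ m2 (hWpos _ m2) hNn0).2.1⟩
    by_cases hcut : (2 : ℝ) ^ (α + γ) < Z
    · have hE0 : 0 ≤ ∑ x ∈ cell α γ, mA x.1 * mB x.2 := sum_nonneg fun x hx =>
        mul_nonneg (hmA _ (hm x hx).2.2.2.1) (hmB _ (hm x hx).2.2.2.2.1)
      have hE1 : ∑ x ∈ cell α γ, mA x.1 * mB x.2 ≤ MA α * MB γ := by
        rw [sum_mul_sum, ← sum_product']
        refine sum_le_sum_of_subset_of_nonneg (fun x hx => ?_) fun x hx _ => ?_
        · obtain ⟨-, h1, h2, h3, h4, -⟩ := hm x hx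
          exact mem_product.2 ⟨mem_filter.2 ⟨h3, h1⟩, mem_filter.2 ⟨h4, h2⟩⟩
        · obtain ⟨h1, h2⟩ := mem_product.1 hx
          exact mul_nonneg (hmA _ (filter_subset _ _ h1)) (hmB _ (filter_subset _ _ h2))
      have hE2 : ∑ x ∈ cell α γ, mA x.1 * mB x.2 ≤ ((4 : ℝ) ^ (α + γ) / Z ^ 2) * K := by
        have hSupEq : Sup = Nn.primeFactors := by
          ext p
          rw [← Nat.support_factorization, Finsupp.mem_support_iff, hNnf]
          refine ⟨fun h => by rw [if_neg (hSup p h).2.1]; exact (hSup p h).2.2, fun h => ?_⟩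
          split at h
          · exact absurd rfl h
          · next hR' => exact hSupmem p hR' h
        have hstep : ∀ x ∈ cell α γ, mA x.1 * mB x.2 ≤ C * ((2 : ℝ) ^ (α + 1) * (2 : ℝ) ^ (γ + 1)) *
            (divWeight Sup (cB x.1) * divWeight Sup (cD x.2)) := by
          intro x hx
          obtain ⟨hxP, h1, h2, -, -, -, -⟩ := hm x hx
          refine (hpair x hxP).2.trans (mul_le_mul_of_nonneg_right (mul_le_mul_of_nonneg_left ?_ (by positivity))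
            (mul_nonneg (divWeight_nonneg (fun p hp => (hSup p hp).1) _)
              (divWeight_nonneg (fun p hp => (hSup p hp).1) _)))
          refine mul_le_mul ?_ ?_ (Nat.cast_nonneg _) (by positivity)
          · rw [← h1]; exact_mod_cast (Nat.lt_pow_succ_log_self (by norm_num) (cA x.1)).le
          · rw [← h2]; exact_mod_cast (Nat.lt_pow_succ_log_self (by norm_num) (cC x.2)).le
        refine (sum_le_sum hstep).trans ?_
        rw [← mul_sum]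
        refine (mul_le_mul_of_nonneg_left (?_ : _ ≤ Γ * (2 : ℝ) ^ α * (2 : ℝ) ^ γ) (by positivity)).trans_eq ?_
        · rw [hSupEq]
          refine hgain Nn hNn0 hNnf α γ (cell α γ) fun x hx => ?_
          obtain ⟨hxP, h1, h2, -, -, -, -⟩ := hm x hx
          obtain ⟨m1, m2, m3, -, -, m6⟩ := hPm x hxP
          exact ⟨m1, m2, m3, m6, h1, h2⟩
        · rw [hK, hC, show (4 : ℝ) ^ (α + γ) = (2 : ℝ) ^ α * 2 ^ α * ((2 : ℝ) ^ γ * 2 ^ γ) by
            rw [pow_add, show (4 : ℝ) = 2 * 2 by norm_num, mul_pow, mul_pow]]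
          ring
      have hker : ker α γ = ((4 : ℝ) ^ (α + γ) / Z ^ 2) ^ (1 - θ) := if_pos hcut
      rw [hker, ← mul_rpow (by positivity) (by positivity)]
      exact le_rpow_interp hE0 hE1 hE2 (by linarith) hθ1
    · have hempty : cell α γ = ∅ := by
        refine eq_empty_of_forall_notMem fun x hx => hcut ?_
        obtain ⟨hxP, h1, h2, -, -, hA, hC'⟩ := hm x hx
        refine lt_of_le_of_lt ?_ (hpair x hxP).1
        rw [pow_add]
        refine mul_le_mul ?_ ?_ (by positivity) (Nat.cast_nonneg _)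
        · rw [← h1]; exact_mod_cast Nat.pow_log_le_self 2 hA.ne'
        · rw [← h2]; exact_mod_cast Nat.pow_log_le_self 2 hC'.ne'
      simp [hempty, ker, hcut]
  set I := V.image lA
  set J := W.image lC
  calc ∑ x ∈ P, mA x.1 * mB x.2
      = ∑ α ∈ I, ∑ γ ∈ J, ∑ x ∈ cell α γ, mA x.1 * mB x.2 := by
        rw [← sum_product (s := I) (t := J) (f := fun c => ∑ x ∈ cell c.1 c.2, mA x.1 * mB x.2)]
        rw [← sum_fiberwise_of_maps_to (g := fun x : ℕ × ℕ => (lA x.1, lC x.2)) (t := I ×ˢ J)]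
        · refine sum_congr rfl fun c _ => sum_congr (filter_congr fun x _ => ?_) fun _ _ => rfl
          simp [Prod.ext_iff]
        · intro x hx
          exact mem_product.2 ⟨mem_image_of_mem _ (hPm x hx).1, mem_image_of_mem _ (hPm x hx).2.1⟩
    _ ≤ ∑ α ∈ I, ∑ γ ∈ J, (MA α * MB γ) ^ θ * (ker α γ * K ^ (1 - θ)) :=
        sum_le_sum fun α _ => sum_le_sum fun γ _ => hcell α γ
    _ = K ^ (1 - θ) * ∑ α ∈ I, ∑ γ ∈ J, (MA α * MB γ) ^ θ * ker α γ := by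
        simp_rw [mul_sum]
        exact sum_congr rfl fun α _ => sum_congr rfl fun γ _ => by ring
    _ ≤ K ^ (1 - θ) * (1 / (1 - ((4 : ℝ)⁻¹) ^ (1 - θ)) *
          ((∑ v ∈ V, mA v) * ∑ w ∈ W, mB w) ^ θ) := by
        refine mul_le_mul_of_nonneg_left ?_ (by positivity)
        refine sum_kernel_le I J MA MB ker hθ.le
          (fun α _ => sum_nonneg fun v hv => hmA v (filter_subset _ _ hv))
          (fun γ _ => sum_nonneg fun w hw => hmB w (filter_subset _ _ hw))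
          (sum_fiberwise_of_maps_to (fun v hv => mem_image_of_mem _ hv) _).le
          (sum_fiberwise_of_maps_to (fun v hv => mem_image_of_mem _ hv) _).le
          (fun α _ γ _ => ?_) hgeo0 (fun α _ => sum_scale_le hZ hθ1 J α) (fun γ _ => ?_)
        · simp only [ker]; split
          · exact rpow_nonneg (by positivity) _
          · exact le_rfl
        · refine (sum_congr rfl fun α _ => ?_).trans_le (sum_scale_le hZ hθ1 I γ)
          simp only [ker, add_comm α γ]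
    _ = _ := by
        rw [hK, mul_rpow (by positivity) (by positivity)]
        ring

end Vale.Agent.P028.Tame
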