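import Vale.Agent.P028.Tame.CoinCount
import Vale.Agent.P028.Tame.GainLeaf

/-! A block of the cell decomposition as a run of consecutive integers. -/

namespace Vale.Agent.P028.Tame

open Finset Real
open scoped Classical

variable {γ : ℝ} {A : ℕ → ℤ} {B : ℕ → ℕ}

/-- The event of the pairs counted with probability gain. -/
def CoinPair (γ : ℝ) (A : ℕ → ℤ) (B : ℕ → ℕ) (lv : ℕ → ℕ) (K : ℕ) (X : ℝ) (d v w : ℕ) : Prop :=
  lv v ≤ lv w ∧ X < 2 * dgap (lv v) (lv w) v w ∧ 1 / ((lv w : ℝ) + 8) ^ K ≤ X ∧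
    (d : ℝ) ≤ ((lv w : ℝ) + 8) ^ K ∧ CoinAt γ A B d (lv v) (lv w) v w

/-- Positive numbers of one scale within a factor two have one level. -/
theorem lv_eq_of_ratio (lv : ℕ → ℕ) {v v' : ℕ} (hv : 0 < v) (hv' : 0 < v')
    (hs : scaleOf lv v = scaleOf lv v') (h1 : v < 2 * v') (h2 : v' < 2 * v) : lv v = lv v' := by
  have key : ∀ a b : ℕ, 0 < a → 0 < b → scaleOf lv a = scaleOf lv b → b < 2 * a → lv a ≤ lv b := by
    intro a b ha hb hab hlt
    by_contra hcon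
    have hle : lv b + 1 ≤ lv a := by omega
    have h3 : a * 4 ^ lv a < 2 ^ (scaleOf lv a + 1) := Nat.lt_pow_succ_log_self (by norm_num) _
    have h4 : 2 ^ scaleOf lv b ≤ b * 4 ^ lv b := Nat.pow_log_le_self 2 (by positivity)
    have h5 : 4 ^ (lv b + 1) ≤ 4 ^ lv a := Nat.pow_le_pow_right (by norm_num) hle
    rw [hab, pow_succ] at h3
    rw [pow_succ] at h5
    have h6 : a * (4 ^ lv b * 4) ≤ a * 4 ^ lv a := Nat.mul_le_mul_left a h5
    have h7 : b * 4 ^ lv b < 2 * a * 4 ^ lv b := Nat.mul_lt_mul_of_pos_right hlt (by positivity)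
    nlinarith
  exact le_antisymm (key v v' hv hv' hs h2) (key v' v hv' hv hs.symm h1)

/-- The gap is governed by the reduced entry at the upper level. -/
theorem dgap_le_left (lv : ℕ → ℕ) {v w : ℕ} (hv : 0 < v) (hw : 0 < w) :
    dgap (lv v) (lv w) v w ≤
      2 * (2 : ℝ) ^ Nat.dist (scaleOf lv v) (scaleOf lv w) * ((red v w : ℝ) * rad (lv w)) := by
  set u := (red v w : ℝ) * rad (lv w)
  have hu : 0 ≤ u := mul_nonneg (Nat.cast_nonneg _) (rad_scale_pos _).le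
  have h := red_rad_le_of_scale lv hw hv (D := u) le_rfl
  have hdist : (2 : ℝ) ^ scaleOf lv w / (2 : ℝ) ^ scaleOf lv v ≤
      (2 : ℝ) ^ Nat.dist (scaleOf lv v) (scaleOf lv w) := by
    rw [div_le_iff₀ (by positivity), ← pow_add]
    refine pow_le_pow_right₀ one_le_two ?_
    simp only [Nat.dist]; omega
  have h1 : (1 : ℝ) ≤ (2 : ℝ) ^ Nat.dist (scaleOf lv v) (scaleOf lv w) := one_le_pow₀ one_le_two
  refine max_le (h.trans ?_) ?_
  · rw [mul_comm _ u, mul_div_assoc]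
    exact mul_le_mul_of_nonneg_left (mul_le_mul_of_nonneg_left hdist zero_le_two) hu
  · exact le_mul_of_one_le_left hu (by linarith)

/-- One block of a cell: the partners of one `w` with a prescribed deficit. -/
theorem block_count {lv : ℕ → ℕ} {K d : ℕ} {X : ℝ} {R V W : Finset ℕ}
    (hR : ∀ p ∈ R, p.Prime) (hV : ∀ v ∈ V, 0 < v) (hW : ∀ w ∈ W, 0 < w) (cV : ExpConst R V)
    (cW : ExpConst R W) {s t : ℕ} (hsV : ∀ v ∈ V, scaleOf lv v = s) (hsW : ∀ w ∈ W, scaleOf lv w = t)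
    {N : ℕ → ℕ} {Nn : ℕ} (hN : 0 < Nn) (hNf : ∀ p, Nn.factorization p = if p ∈ R then 0 else N p)
    {v₀ w₀ : ℕ} (hv₀ : v₀ ∈ V) (hw₀ : w₀ ∈ W) (α b w : ℕ) (hw : w ∈ W) (F : Finset ℕ)
    (hF : ∀ v ∈ F, v ∈ V ∧ Apart R N v w ∧ dgap (lv v) (lv w) v w ≤ X ∧
      CoinPair γ A B lv K X d v w ∧ Nat.log 2 (red (freePart R v₀ v) Nn) = α ∧
      red Nn (freePart R v₀ v) = b) :
    ∃ (S : Finset ℕ) (G r₀ : ℕ), 0 < G ∧ S.card = F.card ∧ S ⊆ Ico (2 ^ α) (2 ^ α + 2 ^ α) ∧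
      G = resolvedPart R v₀ w₀ * red Nn (freePart R w₀ w) ∧
      (F.Nonempty → ∃ l, l ≤ lv w ∧ Nat.Coprime d (B l * B (lv w)) ∧ (r₀ : ℝ) ≤ X * (4 : ℝ) ^ l ∧
        X * (4 : ℝ) ^ lv w ≤ 8 * (2 : ℝ) ^ Nat.dist s t * G * (2 : ℝ) ^ α ∧
        ∀ a ∈ S, BlockHit γ A B X d l (lv w) G r₀ a ∧
          (r₀ : ℝ) ≤ 2 * (2 : ℝ) ^ Nat.dist s t * ((G : ℝ) * a)) := by
  set f : ℕ → ℕ := fun v => red (freePart R v₀ v) Nn with hf
  set G := resolvedPart R v₀ w₀ * red Nn (freePart R w₀ w)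
  set r₀ := resolvedPart R w₀ v₀ * (red (freePart R w₀ w) Nn * b)
  have hinj : Set.InjOn f F := by
    intro x hx y hy hxy
    obtain ⟨hx1, -, -, -, -, hxb⟩ := hF x hx
    obtain ⟨hy1, -, -, -, -, hyb⟩ := hF y hy
    obtain ⟨a1, -, -⟩ := scale_decomp hR cV hv₀ hx1 (hV _ hx1) hN
    obtain ⟨b1, -, p1⟩ := scale_decomp hR cV hv₀ hy1 (hV _ hy1) hN
    simp only [f] at hxy
    rw [hxy, hxb, b1, hyb] at a1
    exact (Nat.eq_of_mul_eq_mul_right (hyb ▸ p1) a1).symm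
  refine ⟨F.image f, G, r₀, Nat.mul_pos (resolvedPart_pos hR _ _) (red_pos hN),
    card_image_of_injOn hinj, ?_, rfl, fun hne => ?_⟩
  · intro a ha
    obtain ⟨v, hv, rfl⟩ := mem_image.1 ha
    obtain ⟨hv1, -, -, -, hlog, -⟩ := hF v hv
    obtain ⟨-, hpos, -⟩ := scale_decomp hR cV hv₀ hv1 (hV _ hv1) hN
    rw [mem_Ico, ← hlog]
    refine ⟨Nat.pow_log_le_self 2 hpos.ne', ?_⟩
    rw [← Nat.two_mul, ← pow_succ']
    exact Nat.lt_pow_succ_log_self (by norm_num) _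
  obtain ⟨v₁, hv₁⟩ := hne
  obtain ⟨hm₁, hap₁, hgap₁, hcp₁, hlog₁, hb₁⟩ := hF v₁ hv₁
  have hred : ∀ v ∈ F, red v w = G * f v ∧ red w v = r₀ := by
    intro v hv
    obtain ⟨hm, hap, -, -, -, hbv⟩ := hF v hv
    refine ⟨?_, ?_⟩
    · rw [red_eq_of_apart hR cV cW hN hNf hv₀ hw₀ hm hw (hV _ hm) (hW _ hw) hap]
      simp only [G, f]; ring
    · rw [red_eq_of_apart hR cW cV hN hNf hw₀ hv₀ hw hm (hW _ hw) (hV _ hm) fun p hp => (hap p hp).symm,
        hbv]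
  have hlev : ∀ v ∈ F, lv v = lv v₁ := by
    intro v hv
    obtain ⟨hm, -, -, -, hlog, hbv⟩ := hF v hv
    obtain ⟨a1, p1, q1⟩ := scale_decomp hR cV hv₀ hm (hV _ hm) hN
    obtain ⟨b1, p2, -⟩ := scale_decomp hR cV hv₀ hm₁ (hV _ hm₁) hN
    rw [hbv] at a1 q1; rw [hb₁] at b1
    have h1 : f v < 2 * f v₁ := by
      have := Nat.lt_pow_succ_log_self (b := 2) (by norm_num) (f v)
      have h' := Nat.pow_log_le_self 2 p2.ne'
      simp only [f] at this h' ⊢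
      rw [hlog, pow_succ] at this; rw [hlog₁] at h'
      omega
    have h2 : f v₁ < 2 * f v := by
      have := Nat.lt_pow_succ_log_self (b := 2) (by norm_num) (f v₁)
      have h' := Nat.pow_log_le_self 2 p1.ne'
      simp only [f] at this h' ⊢
      rw [hlog₁, pow_succ] at this; rw [hlog] at h'
      omega
    set e := (∏ p ∈ R, p ^ v₀.factorization p) * Nn with he
    have he0 : 0 < e := Nat.mul_pos (prod_pos fun p hp => pow_pos (hR p hp).pos _) hN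
    have ea : e * f v = v * b := by rw [← a1, he]; simp only [f]; ring
    have eb : e * f v₁ = v₁ * b := by rw [← b1, he]; simp only [f]; ring
    refine lv_eq_of_ratio lv (hV _ hm) (hV _ hm₁) (by rw [hsV _ hm, hsV _ hm₁]) ?_ ?_
    · refine Nat.lt_of_mul_lt_mul_right (a := b) ?_
      calc v * b = e * f v := ea.symm
        _ < e * (2 * f v₁) := Nat.mul_lt_mul_of_pos_left h1 he0
        _ = 2 * v₁ * b := by rw [mul_left_comm, eb, mul_assoc]
    · refine Nat.lt_of_mul_lt_mul_right (a := b) ?_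
      calc v₁ * b = e * f v₁ := eb.symm
        _ < e * (2 * f v) := Nat.mul_lt_mul_of_pos_left h2 he0
        _ = 2 * v * b := by rw [mul_left_comm, ea, mul_assoc]
  have hside : ∀ v ∈ F, dgap (lv v₁) (lv w) v w ≤
      2 * (2 : ℝ) ^ Nat.dist s t * (((G : ℝ) * f v) * rad (lv w)) := by
    intro v hv
    obtain ⟨hm, -⟩ := hF v hv
    have h := dgap_le_left lv (hV _ hm) (hW _ hw)
    rw [hsV _ hm, hsW _ hw, (hred v hv).1, hlev v hv] at h
    push_cast at h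
    exact h
  have hr0 : ∀ v ∈ F, (r₀ : ℝ) * rad (lv v₁) ≤ dgap (lv v₁) (lv w) v w := by
    intro v hv
    rw [← (hred v hv).2]; exact le_max_left _ _
  refine ⟨lv v₁, hcp₁.1, hcp₁.2.2.2.2.1, ?_, ?_, ?_⟩
  · have h := (hr0 v₁ hv₁).trans hgap₁
    rw [rad, ← div_eq_mul_inv, div_le_iff₀ (by positivity)] at h
    exact h
  · have h := hcp₁.2.1.trans_le (mul_le_mul_of_nonneg_left (hside v₁ hv₁) zero_le_two)
    have hfb : (f v₁ : ℝ) ≤ 2 * (2 : ℝ) ^ α := by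
      have := (Nat.lt_pow_succ_log_self (b := 2) (by norm_num) (f v₁)).le
      simp only [f] at this ⊢
      rw [hlog₁, pow_succ, mul_comm] at this
      exact_mod_cast this
    rw [rad, ← mul_assoc, ← mul_assoc, ← div_eq_mul_inv, lt_div_iff₀ (by positivity)] at h
    refine h.le.trans ?_
    calc 2 * (2 * (2 : ℝ) ^ Nat.dist s t) * ((G : ℝ) * f v₁)
        ≤ 2 * (2 * (2 : ℝ) ^ Nat.dist s t) * ((G : ℝ) * (2 * (2 : ℝ) ^ α)) := by gcongr
      _ = _ := by ring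
  · intro a ha
    obtain ⟨v, hv, rfl⟩ := mem_image.1 ha
    obtain ⟨hm, -, hgap, hcp, -, -⟩ := hF v hv
    obtain ⟨ea, eb⟩ := hred v hv
    refine ⟨?_, ?_⟩
    · obtain ⟨-, n, hn, h1, h2, h3⟩ := hcp.2.2.2.2
      rw [hlev v hv] at hn h1 h2 hgap
      unfold coinForm at h1 h2
      rw [ea, eb] at h1 h2 h3
      push_cast at h1 h2 h3
      refine ⟨n, ?_, h1, h2, h3⟩
      have hb' := (nRange_bound hn).trans (mul_le_mul_of_nonneg_left hgap zero_le_two)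
      rw [ea, eb] at hb'
      push_cast at hb'
      exact hb'
    · have h := (hr0 v hv).trans (hside v hv)
      have hl : (4 : ℝ) ^ lv v₁ ≤ (4 : ℝ) ^ lv w := pow_le_pow_right₀ (by norm_num) hcp₁.1
      rw [rad, rad, ← div_eq_mul_inv, ← mul_assoc, ← div_eq_mul_inv,
        div_le_div_iff₀ (by positivity) (by positivity)] at h
      refine le_of_mul_le_mul_right (h.trans ?_) (show (0 : ℝ) < (4 : ℝ) ^ lv w by positivity)
      exact mul_le_mul_of_nonneg_left hl (by positivity)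

end Vale.Agent.P028.Tame
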