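import Vale.Agent.P028.ScaleLeaf
import Vale.Agent.P028.Arith

/-! Moments of the divisor weights. -/

namespace Vale.Agent.P028.Tame

open Finset Real
open scoped Classical

/-- A multiplicative function against the divisor weights. -/
theorem sum_divWeight_mul_le {P : Finset ℕ} (hP : ∀ p ∈ P, p.Prime) (e : ℕ → ℕ) (Bs : Finset ℕ)
    (hB : ∀ b ∈ Bs, 0 < b ∧ b.primeFactors ⊆ P ∧ ∀ p ∈ P, b.factorization p ≤ e p)
    (h : ℕ → ℕ → ℝ) (h0 : ∀ p k, 0 ≤ h p k) (hh : ℕ → ℝ)
    (hle : ∀ b ∈ Bs, hh b ≤ ∏ p ∈ P, h p (b.factorization p)) :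
    ∑ b ∈ Bs, divWeight P b * hh b ≤
      ∏ p ∈ P, ((1 - (p : ℝ)⁻¹) * h p 0 + ∑ k ∈ range (e p), ((p : ℝ) ^ (k + 1))⁻¹ * h p (k + 1)) := by
  set f : {x // x ∈ P} → ℕ → ℝ := fun p k =>
    (if k = 0 then 1 - ((p : ℕ) : ℝ)⁻¹ else (((p : ℕ) : ℝ) ^ k)⁻¹) * h p k
  set σ : ℕ → ({x // x ∈ P} → ℕ) := fun b p => b.factorization p.1
  have hf0 : ∀ p k, 0 ≤ f p k := fun p k => by
    refine mul_nonneg ?_ (h0 _ _)
    split
    · exact (one_sub_inv_mem_unit (hP p.1 p.2)).1
    · positivity
  have hw : ∀ b ∈ Bs, divWeight P b * hh b ≤ ∏ p : {x // x ∈ P}, f p (σ b p) := by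
    intro b hb
    obtain ⟨hb0, hbP, -⟩ := hB b hb
    refine (mul_le_mul_of_nonneg_left (hle b hb) (divWeight_nonneg hP b)).trans_eq ?_
    rw [prod_coe_sort P (fun p => (if b.factorization p = 0 then 1 - (p : ℝ)⁻¹
      else ((p : ℝ) ^ b.factorization p)⁻¹) * h p (b.factorization p)), prod_mul_distrib]
    congr 1
    rw [prod_ite, divWeight, div_eq_mul_inv]
    congr 1
    rw [prod_inv_distrib]
    congr 1
    have hbe : b = ∏ p ∈ P.filter (fun p => ¬ b.factorization p = 0), p ^ b.factorization p := by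
      conv_lhs => rw [← Nat.prod_factorization_pow_eq_self hb0.ne']
      rw [Finsupp.prod, Nat.support_factorization]
      refine prod_congr ?_ fun _ _ => rfl
      ext p
      rw [← Nat.support_factorization, Finsupp.mem_support_iff, mem_filter]
      refine ⟨fun h => ⟨hbP ?_, h⟩, fun h => h.2⟩
      rw [← Nat.support_factorization]; exact Finsupp.mem_support_iff.2 h
    exact_mod_cast congrArg (fun n : ℕ => (n : ℝ)) hbe
  have hinj : Set.InjOn σ Bs := by
    intro a ha b hb hab
    obtain ⟨ha0, haP, -⟩ := hB a ha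
    obtain ⟨hb0, hbP, -⟩ := hB b hb
    refine Nat.eq_of_factorization_eq ha0.ne' hb0.ne' fun p => ?_
    by_cases hp : p ∈ P
    · exact congrFun hab ⟨p, hp⟩
    · have ea : a.factorization p = 0 := Finsupp.notMem_support_iff.1 (by
        rw [Nat.support_factorization]; exact fun h => hp (haP h))
      have eb : b.factorization p = 0 := Finsupp.notMem_support_iff.1 (by
        rw [Nat.support_factorization]; exact fun h => hp (hbP h))
      rw [ea, eb]
  calc ∑ b ∈ Bs, divWeight P b * hh b ≤ ∑ b ∈ Bs, ∏ p : {x // x ∈ P}, f p (σ b p) := sum_le_sum hw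
    _ = ∑ c ∈ Bs.image σ, ∏ p : {x // x ∈ P}, f p (c p) :=
        (sum_image (f := fun c : {x // x ∈ P} → ℕ => ∏ p, f p (c p)) hinj).symm
    _ ≤ ∑ c ∈ Fintype.piFinset (fun p : {x // x ∈ P} => range (e p.1 + 1)), ∏ p, f p (c p) := by
        refine sum_le_sum_of_subset_of_nonneg (fun c hc => ?_) fun c _ _ => prod_nonneg fun p _ => hf0 _ _
        obtain ⟨b, hb, rfl⟩ := mem_image.1 hc
        exact Fintype.mem_piFinset.2 fun p => mem_range.2 (Nat.lt_succ_of_le ((hB b hb).2.2 p.1 p.2))
    _ = ∏ p : {x // x ∈ P}, ∑ k ∈ range (e p.1 + 1), f p k := (prod_univ_sum _ _).symm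
    _ = _ := by
        rw [← prod_coe_sort P (fun p =>
          (1 - (p : ℝ)⁻¹) * h p 0 + ∑ k ∈ range (e p), ((p : ℝ) ^ (k + 1))⁻¹ * h p (k + 1))]
        refine prod_congr rfl fun p _ => ?_
        rw [sum_range_succ', add_comm]
        simp only [f, Nat.succ_ne_zero, if_false, if_pos]

/-- Geometric bound for one prime. -/
theorem local_pow_le {p : ℕ} (hp : 2 ≤ p) {u : ℝ} (hu : u ≤ 1 / 2) (n : ℕ) :
    ∑ k ∈ range n, ((p : ℝ) ^ (k + 1))⁻¹ * ((p : ℝ) ^ u) ^ (k + 1) ≤
      (p : ℝ) ^ (u - 1) / (1 - (p : ℝ) ^ (u - 1)) ∧ (p : ℝ) ^ (u - 1) ≤ 3 / 4 := by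
  have hp2 : (2 : ℝ) ≤ p := by exact_mod_cast hp
  set z := (p : ℝ) ^ (u - 1) with hz
  have hz34 : z ≤ 3 / 4 := by
    have h1 : z ≤ (p : ℝ) ^ (-(1 / 2 : ℝ)) := rpow_le_rpow_of_exponent_le (by linarith) (by linarith)
    have h2 : (p : ℝ) ^ (-(1 / 2 : ℝ)) ≤ (2 : ℝ) ^ (-(1 / 2 : ℝ)) :=
      rpow_le_rpow_of_nonpos (by norm_num) hp2 (by norm_num)
    have h3 : (2 : ℝ) ^ (-(1 / 2 : ℝ)) ≤ 3 / 4 := by
      rw [rpow_neg zero_le_two, ← sqrt_eq_rpow, inv_le_comm₀ (by positivity) (by norm_num),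
        Real.le_sqrt (by norm_num) (by norm_num)]
      norm_num
    linarith
  have hz0 : 0 ≤ z := by positivity
  refine ⟨?_, hz34⟩
  have e : ∀ k ∈ range n, ((p : ℝ) ^ (k + 1))⁻¹ * ((p : ℝ) ^ u) ^ (k + 1) = z * z ^ k := by
    intro k _
    rw [← inv_pow, ← mul_pow, ← pow_succ']
    congr 1
    rw [hz, rpow_sub_one (by linarith), div_eq_mul_inv, mul_comm]
  rw [sum_congr rfl e, ← mul_sum, div_eq_mul_inv]
  refine mul_le_mul_of_nonneg_left ?_ hz0
  rw [range_eq_Ico]
  refine (geom_sum_Ico_le_of_lt_one hz0 (by linarith)).trans_eq ?_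
  rw [pow_zero, one_div]

/-- The weights against the square root of the gcd with `b₀`. -/
theorem sum_divWeight_gcd_le {P : Finset ℕ} (hP : ∀ p ∈ P, p.Prime) (e : ℕ → ℕ) (Bs : Finset ℕ)
    (hB : ∀ b ∈ Bs, 0 < b ∧ b.primeFactors ⊆ P ∧ ∀ p ∈ P, b.factorization p ≤ e p)
    {b₀ : ℕ} (hb₀ : 0 < b₀) :
    ∑ b ∈ Bs, divWeight P b * √(Nat.gcd b b₀ : ℝ) ≤ Real.exp 1 * 4 ^ b₀.primeFactors.card := by
  set h : ℕ → ℕ → ℝ := fun p k => if p ∈ b₀.primeFactors then ((p : ℝ) ^ (1 / 2 : ℝ)) ^ k else 1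
  have h0 : ∀ p k, 0 ≤ h p k := fun p k => by simp only [h]; split <;> positivity
  have hh : ∀ b ∈ Bs, √(Nat.gcd b b₀ : ℝ) ≤ ∏ p ∈ P, h p (b.factorization p) := by
    intro b hb
    obtain ⟨hb0, hbP, -⟩ := hB b hb
    set g := Nat.gcd b b₀
    have hg : g ≠ 0 := (Nat.gcd_pos_of_pos_left _ hb0).ne'
    have hgb : g ≤ ∏ p ∈ P.filter (fun p => p ∈ b₀.primeFactors), p ^ b.factorization p := by
      conv_lhs => rw [← Nat.prod_factorization_pow_eq_self hg]
      rw [Finsupp.prod, Nat.support_factorization]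
      have hsub : g.primeFactors ⊆ P.filter (fun p => p ∈ b₀.primeFactors) := fun p hp =>
        mem_filter.2 ⟨hbP (Nat.primeFactors_mono (Nat.gcd_dvd_left _ _) hb0.ne' hp),
          Nat.primeFactors_mono (Nat.gcd_dvd_right _ _) hb₀.ne' hp⟩
      refine (prod_le_prod' fun p hp => ?_).trans (prod_le_prod_of_subset_of_one_le' hsub fun p hp _ => ?_)
      · exact Nat.pow_le_pow_right (hP p (filter_subset _ _ (hsub hp))).pos
          ((Nat.factorization_le_iff_dvd hg hb0.ne').2 (Nat.gcd_dvd_left _ _) p)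
      · exact Nat.one_le_pow _ _ (hP p (filter_subset _ _ hp)).pos
    calc √(g : ℝ) ≤ √(∏ p ∈ P.filter (fun p => p ∈ b₀.primeFactors), (p : ℝ) ^ b.factorization p) := by
          refine Real.sqrt_le_sqrt ?_
          exact_mod_cast hgb
      _ = _ := by
          rw [sqrt_eq_rpow, ← finsetProd_rpow _ _ (fun p _ => by positivity), prod_filter]
          refine prod_congr rfl fun p _ => ?_
          simp only [h]
          split
          · rw [← rpow_natCast (p : ℝ), ← rpow_mul (Nat.cast_nonneg _), mul_comm,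
              rpow_mul (Nat.cast_nonneg _), rpow_natCast]
          · rfl
  refine (sum_divWeight_mul_le hP e Bs hB h h0 _ hh).trans ?_
  calc ∏ p ∈ P, ((1 - (p : ℝ)⁻¹) * h p 0 + ∑ k ∈ range (e p), ((p : ℝ) ^ (k + 1))⁻¹ * h p (k + 1))
      ≤ ∏ p ∈ P, Real.exp (1 / ((p : ℝ) * ((p : ℝ) - 1))) * (if p ∈ b₀.primeFactors then 4 else 1) := by
        refine prod_le_prod (fun p hp => ?_) fun p hp => ?_
        · exact add_nonneg (mul_nonneg (one_sub_inv_mem_unit (hP p hp)).1 (h0 _ _))
            (sum_nonneg fun k _ => mul_nonneg (by positivity) (h0 _ _))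
        have h2 : (2 : ℝ) ≤ p := by exact_mod_cast (hP p hp).two_le
        have hexp : 1 ≤ Real.exp (1 / ((p : ℝ) * ((p : ℝ) - 1))) :=
          Real.one_le_exp (div_nonneg zero_le_one (by nlinarith))
        have hu := (one_sub_inv_mem_unit (hP p hp))
        simp only [h]
        split
        · obtain ⟨h3, h4⟩ := local_pow_le (hP p hp).two_le (le_refl (1 / 2 : ℝ)) (e p)
          rw [pow_zero, mul_one]
          refine le_trans ?_ (mul_le_mul_of_nonneg_right hexp (by norm_num : (0 : ℝ) ≤ 4))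
          rw [one_mul]
          refine (add_le_add hu.2 h3).trans ?_
          have : (p : ℝ) ^ ((1 : ℝ) / 2 - 1) / (1 - (p : ℝ) ^ ((1 : ℝ) / 2 - 1)) ≤ 3 := by
            rw [div_le_iff₀ (by linarith)]; linarith
          linarith
        · simp only [mul_one]
          obtain ⟨h3, -⟩ := local_pow_le (hP p hp).two_le (show (0 : ℝ) ≤ 1 / 2 by norm_num) (e p)
          simp only [rpow_zero, one_pow, mul_one, zero_sub, rpow_neg_one] at h3
          refine (add_le_add le_rfl h3).trans ((le_of_eq ?_).trans (Real.add_one_le_exp _))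
          field_simp [show (p : ℝ) - 1 ≠ 0 by linarith, show (p : ℝ) ≠ 0 by linarith]
          ring
    _ = Real.exp (∑ p ∈ P, 1 / ((p : ℝ) * ((p : ℝ) - 1))) *
          ∏ p ∈ P.filter (fun p => p ∈ b₀.primeFactors), (4 : ℝ) := by
        rw [prod_mul_distrib, Real.exp_sum, prod_filter]
    _ ≤ _ := by
        rw [prod_const]
        refine mul_le_mul (Real.exp_le_exp.2 (sum_one_div_mul_pred_le P fun p hp => (hP p hp).two_le))
          (pow_le_pow_right₀ (by norm_num) (card_le_card fun p hp => (mem_filter.1 hp).2)) (by positivity)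
          (Real.exp_nonneg _)

/-- `(p^u - 1)/p` summed over the prime divisors of a number below `exp x`. -/
theorem sum_excess_le : ∃ C : ℝ, 0 ≤ C ∧ ∀ (η u y : ℝ) (M : ℕ) (P : Finset ℕ),
    0 < η → 0 ≤ u → u ≤ 1 / 4 → u * (1 + y) ^ (1 + η) ≤ 1 → 0 < M → P ⊆ M.primeFactors →
    Real.log (Real.log ((M : ℝ) + 16)) ≤ y →
    ∑ p ∈ P, ((p : ℝ) ^ u - 1) / p ≤ C * (1 + 1 / η) := by
  obtain ⟨C, hC⟩ := mertens
  refine ⟨3 * (max C 1) + 30, by positivity, fun η u y M P hη hu hu4 huy hM hP hy => ?_⟩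
  have hP' : ∀ p ∈ P, p.Prime := fun p hp => Nat.prime_of_mem_primeFactors (hP hp)
  set x := Real.log ((M : ℝ) + 16) with hx
  have h16 : (1 : ℝ) ≤ x := by
    rw [hx, Real.le_log_iff_exp_le (by positivity)]
    have := Real.exp_one_lt_d9; have : (0 : ℝ) ≤ M := Nat.cast_nonneg _
    linarith
  have hy0 : 0 ≤ y := le_trans (Real.log_nonneg h16) hy
  have hxy : x ≤ Real.exp y := (Real.log_le_iff_le_exp (by linarith)).1 hy
  have hone : (1 : ℝ) ≤ (1 + y) ^ η := one_le_rpow (by linarith) hη.le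
  have huy' : u * (1 + y) ≤ 1 ∧ u * (1 + y) * (1 + y) ^ η ≤ 1 := by
    have e : u * (1 + y) * (1 + y) ^ η = u * (1 + y) ^ (1 + η) := by
      rw [rpow_add (by linarith), rpow_one]; ring
    refine ⟨le_trans (le_mul_of_one_le_right (by positivity) hone) (by linarith), by linarith⟩
  set b := ⌊Real.exp y⌋₊ with hb
  rw [← sum_filter_add_sum_filter_not P (fun p => p ≤ b)]
  have hexp1 : Real.exp 1 ≤ 3 := by linarith [Real.exp_one_lt_d9]
  -- small primes
  have hsmall : ∑ p ∈ P.filter (fun p => p ≤ b), ((p : ℝ) ^ u - 1) / p ≤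
      3 * (max C 1) + 24 * (1 / η) := by
    have hS : ∑ p ∈ P.filter (fun p => p ≤ b), (p : ℝ)⁻¹ ≤ max C 1 + 8 * ((1 + y) ^ η / η) := by
      have hprod : Real.exp (∑ p ∈ P.filter (fun p => p ≤ b), (p : ℝ)⁻¹) ≤
          max C 1 * (1 + y) ^ (8 : ℕ) := by
        rw [Real.exp_sum]
        refine le_trans ((prod_le_prod (fun p _ => (Real.exp_pos _).le) fun p hp => ?_).trans
          (prod_le_prod_of_subset_of_one_le (t := (Finset.Ioc 0 b).filter Nat.Prime) (fun p hp => ?_)
            (fun p hp => ?_) fun p hp _ => ?_)) ((hC 0 b (Nat.zero_le _)).trans ?_)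
        · have h2 : (2 : ℝ) ≤ p := by exact_mod_cast (hP' p (filter_subset _ _ hp)).two_le
          have h4 : (1 : ℝ) - (p : ℝ)⁻¹ ≤ Real.exp (-(p : ℝ)⁻¹) := by
            linarith [Real.add_one_le_exp (-(p : ℝ)⁻¹)]
          rw [Real.exp_neg] at h4
          have hpos : 0 < (1 : ℝ) - (p : ℝ)⁻¹ := by
            have : (p : ℝ)⁻¹ ≤ 1 / 2 := by rw [one_div]; exact inv_anti₀ two_pos h2
            linarith
          have h5 := (le_inv_comm₀ hpos (Real.exp_pos _)).1 h4
          refine h5.trans_eq ?_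
          field_simp [show (p : ℝ) - 1 ≠ 0 by linarith]
        · exact mem_filter.2 ⟨mem_Ioc.2 ⟨(hP' p (filter_subset _ _ hp)).pos, (mem_filter.1 hp).2⟩,
            hP' p (filter_subset _ _ hp)⟩
        · have h2 : (2 : ℝ) ≤ p := by exact_mod_cast (hP' p (filter_subset _ _ hp)).two_le
          exact div_nonneg (Nat.cast_nonneg _) (by linarith)
        · have h2 : (2 : ℝ) ≤ p := by exact_mod_cast (mem_filter.1 hp).2.two_le
          rw [le_div_iff₀ (by linarith)]; linarith
        · simp only [Nat.cast_zero, zero_add, Real.log_one, add_zero, div_one]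
          have hlb : Real.log (b : ℝ) ≤ y := by
            rcases Nat.eq_zero_or_pos b with h | h
            · rw [h, Nat.cast_zero, Real.log_zero]; exact hy0
            · exact (Real.log_le_iff_le_exp (by exact_mod_cast h)).2 (Nat.floor_le (Real.exp_nonneg y))
          have : 0 ≤ Real.log (b : ℝ) := Real.log_natCast_nonneg _
          exact mul_le_mul (le_max_left _ _) (pow_le_pow_left₀ (by linarith) (by linarith) 8)
            (by positivity) (by positivity)
      have h := (Real.le_log_iff_exp_le (by positivity)).2 hprod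
      rw [Real.log_mul (by positivity) (by positivity), Real.log_pow] at h
      have h1 := Real.log_le_sub_one_of_pos (show (0 : ℝ) < max C 1 by positivity)
      have h2 := Real.log_le_rpow_div (show (0 : ℝ) ≤ 1 + y by linarith) hη
      push_cast at h
      linarith
    have hterm : ∀ p ∈ P.filter (fun p => p ≤ b), ((p : ℝ) ^ u - 1) / p ≤ 3 * (u * (1 + y)) * (p : ℝ)⁻¹ := by
      intro p hp
      have hp0 : (0 : ℝ) < p := by exact_mod_cast (hP' p (filter_subset _ _ hp)).pos
      rw [div_eq_mul_inv]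
      refine mul_le_mul_of_nonneg_right ?_ (by positivity)
      have hlp : Real.log p ≤ 1 + y := by
        have : (p : ℝ) ≤ Real.exp y :=
          (Nat.cast_le.2 (mem_filter.1 hp).2).trans (Nat.floor_le (Real.exp_nonneg y))
        have := (Real.log_le_iff_le_exp hp0).2 this
        linarith
      have hl0 : 0 ≤ Real.log p := Real.log_natCast_nonneg p
      have hz : u * Real.log p ≤ u * (1 + y) := mul_le_mul_of_nonneg_left hlp hu
      rw [rpow_def_of_pos hp0, mul_comm (Real.log _)]
      set z := u * Real.log p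
      have hz0 : 0 ≤ z := mul_nonneg hu hl0
      have hkey : Real.exp z - 1 ≤ z * Real.exp z := by
        have hm := mul_le_mul_of_nonneg_left (Real.add_one_le_exp (-z)) (Real.exp_nonneg z)
        rw [← Real.exp_add, add_neg_cancel, Real.exp_zero] at hm
        linarith
      have hez : Real.exp z ≤ 3 := (Real.exp_le_exp.2 (by linarith [huy'.1])).trans hexp1
      nlinarith [mul_le_mul_of_nonneg_left hez hz0]
    refine (sum_le_sum hterm).trans ?_
    rw [← mul_sum]
    refine (mul_le_mul_of_nonneg_left hS (by positivity)).trans ?_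
    have h1 : 3 * (u * (1 + y)) * max C 1 ≤ 3 * max C 1 := by
      have := huy'.1; have : (0 : ℝ) ≤ max C 1 := by positivity
      nlinarith
    have h2 : 3 * (u * (1 + y)) * (8 * ((1 + y) ^ η / η)) ≤ 24 * (1 / η) := by
      calc 3 * (u * (1 + y)) * (8 * ((1 + y) ^ η / η)) = 24 * (1 / η) * (u * (1 + y) * (1 + y) ^ η) := by
            field_simp; ring
        _ ≤ 24 * (1 / η) * 1 := mul_le_mul_of_nonneg_left huy'.2 (by positivity)
        _ = _ := mul_one _
    linarith
  -- big primes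
  have hbig : ∑ p ∈ P.filter (fun p => ¬ p ≤ b), ((p : ℝ) ^ u - 1) / p ≤ 30 := by
    set U := P.filter (fun p => ¬ p ≤ b)
    have hey : 1 ≤ Real.exp y := Real.one_le_exp hy0
    have hterm : ∀ p ∈ U, ((p : ℝ) ^ u - 1) / p ≤ Real.exp y ^ (u - 1) := by
      intro p hp
      have hp0 : (0 : ℝ) < p := by exact_mod_cast (hP' p (filter_subset _ _ hp)).pos
      have hpb : Real.exp y < p := Nat.lt_of_floor_lt (not_le.1 (mem_filter.1 hp).2)
      refine le_trans ?_ (rpow_le_rpow_of_nonpos (by linarith) hpb.le (by linarith))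
      rw [rpow_sub_one hp0.ne']
      exact div_le_div_of_nonneg_right (by linarith) hp0.le
    have hcard : (U.card : ℝ) ≤ 2 * Real.exp y := by
      have h1 : 2 ^ U.card ≤ M := by
        calc 2 ^ U.card ≤ ∏ p ∈ U, p := by
              rw [← prod_const]; exact prod_le_prod' fun p hp => (hP' p (filter_subset _ _ hp)).two_le
          _ ≤ ∏ p ∈ M.primeFactors, p :=
              prod_le_prod_of_subset_of_one_le' ((filter_subset _ _).trans hP)
                fun p hp _ => (Nat.prime_of_mem_primeFactors hp).pos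
          _ ≤ M := Nat.le_of_dvd hM (Nat.prod_primeFactors_dvd M)
      have h2 : (2 : ℝ) ^ U.card ≤ (M : ℝ) + 16 := by
        have : (((2 ^ U.card : ℕ)) : ℝ) ≤ M := by exact_mod_cast h1
        push_cast at this; linarith
      have h3 := Real.log_le_log (by positivity) h2
      rw [Real.log_pow, ← hx] at h3
      nlinarith [Real.log_two_gt_d9, (Nat.cast_nonneg U.card : (0 : ℝ) ≤ _)]
    refine (sum_le_sum hterm).trans ?_
    rw [sum_const, nsmul_eq_mul]
    refine (mul_le_mul_of_nonneg_right hcard (by positivity)).trans ?_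
    have e : 2 * Real.exp y * Real.exp y ^ (u - 1) = 2 * Real.exp (y * u) := by
      rw [rpow_sub_one (Real.exp_pos y).ne', ← Real.exp_mul]
      field_simp
    rw [e]
    have : y * u ≤ 1 := by nlinarith [huy'.1]
    linarith [(Real.exp_le_exp.2 this).trans hexp1]
  have h1 : (3 * max C 1) * 1 ≤ (3 * max C 1) * (1 + 1 / η) :=
    mul_le_mul_of_nonneg_left (by linarith [show 0 ≤ 1 / η by positivity]) (by positivity)
  have : 0 ≤ 1 / η := by positivity
  linarith

/-- Large divisors carry little weight. -/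
theorem sum_divWeight_tail : ∀ η : ℝ, 0 < η → ∃ C : ℝ, 0 ≤ C ∧ ∀ (P : Finset ℕ),
    (∀ p ∈ P, p.Prime) → ∀ (e : ℕ → ℕ) (Bs : Finset ℕ),
    (∀ b ∈ Bs, 0 < b ∧ b.primeFactors ⊆ P ∧ ∀ p ∈ P, b.factorization p ≤ e p) →
    ∀ (M : ℕ) (y T : ℝ), 0 < M → P ⊆ M.primeFactors → Real.log (Real.log ((M : ℝ) + 16)) ≤ y → 0 ≤ y →
      ∑ b ∈ Bs, (if T < (b : ℝ) then divWeight P b else 0) ≤
        C * Real.exp (-(Real.log T / (4 * (1 + y) ^ (1 + η)))) + (if T ≤ 0 then 3 else 0) := by
  intro η hη
  obtain ⟨C, hC, hex⟩ := sum_excess_le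
  refine ⟨Real.exp (C * (1 + 1 / η) + 64), by positivity,
    fun P hP e Bs hB M y T hM hPM hy hy0 => ?_⟩
  have hw : ∀ b, 0 ≤ divWeight P b := divWeight_nonneg hP
  rcases le_or_gt T 0 with hT | hT
  · rw [if_pos hT]
    refine le_trans (sum_le_sum fun b _ => ?_) ((sum_divWeight_le hP e Bs hB).trans ?_)
    · split
      · exact le_rfl
      · exact hw b
    · linarith [Real.exp_one_lt_d9, show 0 ≤ Real.exp (C * (1 + 1 / η) + 64) *
        Real.exp (-(Real.log T / (4 * (1 + y) ^ (1 + η)))) by positivity]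
  rw [if_neg (not_le.2 hT), add_zero]
  set Y := (1 + y) ^ (1 + η) with hY
  have hY1 : 1 ≤ Y := one_le_rpow (by linarith) (by linarith)
  set u : ℝ := 1 / (4 * Y) with hu
  have hu0 : 0 ≤ u := by positivity
  have hu4 : u ≤ 1 / 4 := by rw [hu, div_le_iff₀ (by positivity)]; linarith
  have hTu : 0 < T ^ u := rpow_pos_of_pos hT u
  have step : ∀ b ∈ Bs, (if T < (b : ℝ) then divWeight P b else 0) ≤
      divWeight P b * (b : ℝ) ^ u / T ^ u := by
    intro b hb
    split
    · next h =>
      rw [le_div_iff₀ hTu]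
      exact mul_le_mul_of_nonneg_left (rpow_le_rpow hT.le h.le hu0) (hw b)
    · exact div_nonneg (mul_nonneg (hw b) (by positivity)) hTu.le
  refine (sum_le_sum step).trans ?_
  rw [← sum_div, div_le_iff₀ hTu]
  have e1 : Real.exp (C * (1 + 1 / η) + 64) * Real.exp (-(Real.log T / (4 * Y))) * T ^ u =
      Real.exp (C * (1 + 1 / η) + 64) := by
    rw [rpow_def_of_pos hT, mul_assoc, ← Real.exp_add, hu]
    rw [show -(Real.log T / (4 * Y)) + Real.log T * (1 / (4 * Y)) = 0 by ring, Real.exp_zero, mul_one]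
  rw [e1]
  refine (sum_divWeight_mul_le hP e Bs hB (fun p k => ((p : ℝ) ^ u) ^ k) (fun p k => by positivity)
    (fun b => (b : ℝ) ^ u) fun b hb => le_of_eq ?_).trans ?_
  · obtain ⟨hb0, hbP, -⟩ := hB b hb
    have hb' : (b : ℝ) = ∏ p ∈ P, (p : ℝ) ^ b.factorization p := by
      conv_lhs => rw [← Nat.prod_factorization_pow_eq_self hb0.ne']
      rw [Finsupp.prod, Nat.support_factorization]
      push_cast
      refine prod_subset hbP fun p hp hnp => ?_
      rw [← Nat.support_factorization, Finsupp.notMem_support_iff] at hnp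
      rw [hnp, pow_zero]
    change (b : ℝ) ^ u = _
    rw [hb', ← finsetProd_rpow _ _ (fun p _ => by positivity)]
    refine prod_congr rfl fun p _ => ?_
    rw [← rpow_natCast (p : ℝ), ← rpow_mul (Nat.cast_nonneg _), mul_comm, rpow_mul (Nat.cast_nonneg _),
      rpow_natCast]
  calc ∏ p ∈ P, ((1 - (p : ℝ)⁻¹) * ((p : ℝ) ^ u) ^ 0 +
        ∑ k ∈ range (e p), ((p : ℝ) ^ (k + 1))⁻¹ * ((p : ℝ) ^ u) ^ (k + 1))
      ≤ ∏ p ∈ P, Real.exp (((p : ℝ) ^ u - 1) / p + 4 * (p : ℝ) ^ (2 * u - 2)) := by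
        refine prod_le_prod (fun p hp => ?_) fun p hp => ?_
        · exact add_nonneg (mul_nonneg (one_sub_inv_mem_unit (hP p hp)).1 (by positivity))
            (sum_nonneg fun k _ => by positivity)
        have hp2 : (2 : ℝ) ≤ p := by exact_mod_cast (hP p hp).two_le
        obtain ⟨h3, h4⟩ := local_pow_le (hP p hp).two_le (show u ≤ 1 / 2 by linarith) (e p)
        set z := (p : ℝ) ^ (u - 1) with hz
        have hz0 : 0 ≤ z := by positivity
        have hdiv : z / (1 - z) ≤ z + 4 * z ^ 2 := by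
          rw [div_le_iff₀ (by linarith)]; nlinarith
        have hzz : z ^ 2 = (p : ℝ) ^ (2 * u - 2) := by
          rw [hz, ← rpow_natCast, ← rpow_mul (Nat.cast_nonneg _)]; push_cast; ring_nf
        have hz' : z = (p : ℝ) ^ u / p := rpow_sub_one (by linarith) u
        refine le_trans ?_ (Real.add_one_le_exp _)
        rw [pow_zero, mul_one, ← hzz]
        have : ((p : ℝ) ^ u - 1) / p = z - (p : ℝ)⁻¹ := by rw [hz', sub_div, one_div]
        linarith
    _ = Real.exp ((∑ p ∈ P, ((p : ℝ) ^ u - 1) / p) + 4 * ∑ p ∈ P, (p : ℝ) ^ (2 * u - 2)) := by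
        rw [← Real.exp_sum, sum_add_distrib, mul_sum]
    _ ≤ _ := by
        refine Real.exp_le_exp.2 (add_le_add (hex η u y M P hη hu0 hu4 ?_ hM hPM hy) ?_)
        · rw [← hY, hu, div_mul_eq_mul_div, div_le_one (by positivity)]; linarith
        calc 4 * ∑ p ∈ P, (p : ℝ) ^ (2 * u - 2) ≤ 4 * ∑ p ∈ P, (p : ℝ) ^ (-(3 / 2 : ℝ)) := by
              refine mul_le_mul_of_nonneg_left (sum_le_sum fun p hp => ?_) (by norm_num)
              exact rpow_le_rpow_of_exponent_le (by exact_mod_cast (hP p hp).one_le) (by linarith)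
          _ ≤ 64 := by
              have key : ∀ n : ℕ, 1 ≤ n → (n : ℝ) ^ (-(3 / 2 : ℝ)) ≤
                  8 * (1 / √(n : ℝ) - 1 / √((n : ℝ) + 1)) := by
                intro n hn
                have hn1 : (1 : ℝ) ≤ n := by exact_mod_cast hn
                set a := √(n : ℝ) with ha
                set c := √((n : ℝ) + 1) with hc
                have ha0 : 0 < a := by positivity
                have hac : a ≤ c := Real.sqrt_le_sqrt (by linarith)
                have hc2 : c ≤ 2 * a := by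
                  rw [hc, Real.sqrt_le_left (by positivity), mul_pow, ha, Real.sq_sqrt (by linarith)]
                  linarith
                have e : (n : ℝ) ^ (-(3 / 2 : ℝ)) = (a ^ 3)⁻¹ := by
                  rw [rpow_neg (by linarith), ha, sqrt_eq_rpow, ← rpow_natCast, ← rpow_mul (by linarith)]
                  norm_num
                have hd : c * c - a * a = 1 := by
                  rw [hc, ha, Real.mul_self_sqrt (by linarith), Real.mul_self_sqrt (by linarith)]; ring
                rw [e, div_sub_div _ _ ha0.ne' (by positivity), one_mul, mul_one, inv_eq_one_div,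
                  mul_div_assoc', div_le_div_iff₀ (by positivity) (by positivity)]
                have h5 : 1 ≤ (c - a) * (3 * a) := by nlinarith
                nlinarith [mul_le_mul_of_nonneg_left h5 (by positivity : 0 ≤ a * a),
                  mul_le_mul_of_nonneg_left hc2 ha0.le]
              have hsum : ∑ p ∈ P, (p : ℝ) ^ (-(3 / 2 : ℝ)) ≤ 8 := by
                refine (sum_le_sum_of_subset_of_nonneg (t := Ico 1 (P.sup id + 1)) ?_ fun _ _ _ => by positivity).trans
                  ((sum_le_sum fun n hn => key n ?_).trans ?_)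
                · intro p hp
                  exact mem_Ico.2 ⟨(hP p hp).one_le, Nat.lt_succ_of_le (le_sup (f := id) hp)⟩
                · exact (mem_Ico.1 hn).1
                · rw [← mul_sum]
                  have htel : ∀ N : ℕ, 1 ≤ N → ∑ n ∈ Ico 1 N, (1 / √(n : ℝ) - 1 / √((n : ℝ) + 1)) =
                      1 - 1 / √(N : ℝ) := by
                    intro N hN
                    induction N, hN using Nat.le_induction with
                    | base => simp
                    | succ N hN ih => rw [sum_Ico_succ_top hN, ih]; push_cast; ring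
                  rw [htel _ (Nat.le_add_left 1 _)]
                  have : 0 ≤ 1 / √((P.sup id + 1 : ℕ) : ℝ) := by positivity
                  linarith
              linarith

end Vale.Agent.P028.Tame
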