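import Vale.Agent.P028.Tame.CoinBlock
import Vale.Agent.P028.Tame.WeightTail

/-! Bounds for the blocks of a cell, and their sum over the cell. -/

namespace Vale.Agent.P028.Tame

open Finset Real
open scoped Classical

/-- A cell through its blocks. -/
theorem cell_of_blocks {R V W : Finset ℕ} (hR : ∀ p ∈ R, p.Prime) (hV : ∀ v ∈ V, 0 < v)
    (hW : ∀ w ∈ W, 0 < w) (cW : ExpConst R W) {N : ℕ → ℕ} {Nn : ℕ}
    (hN : 0 < Nn) (v₀ w₀ : ℕ) (hw₀ : w₀ ∈ W) (α γ : ℕ) (F : Finset (ℕ × ℕ))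
    (hF : ∀ x ∈ F, x.1 ∈ V ∧ x.2 ∈ W ∧ Apart R N x.1 x.2 ∧
      Nat.log 2 (red (freePart R w₀ x.2) Nn) = γ)
    (u : ℕ → ℝ) (hu : ∀ c, 0 ≤ u c)
    (hblock : ∀ b w, (((F.filter (fun x => x.2 = w ∧ red Nn (freePart R v₀ x.1) = b)).card : ℕ) : ℝ) ≤
      (2 : ℝ) ^ α * u (red Nn (freePart R w₀ w))) :
    ∑ x ∈ F, divWeight Nn.primeFactors (red Nn (freePart R v₀ x.1)) *
        divWeight Nn.primeFactors (red Nn (freePart R w₀ x.2)) ≤
      Real.exp 1 * (2 : ℝ) ^ α * (2 : ℝ) ^ γ *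
        ∑ c ∈ Nn.divisors, divWeight Nn.primeFactors c * u c := by
  set P := Nn.primeFactors
  have hP : ∀ p ∈ P, p.Prime := fun p hp => Nat.prime_of_mem_primeFactors hp
  have hw0 : ∀ c, 0 ≤ divWeight P c := divWeight_nonneg hP
  set cB : ℕ → ℕ := fun v => red Nn (freePart R v₀ v)
  set cC : ℕ → ℕ := fun w => red (freePart R w₀ w) Nn
  set cD : ℕ → ℕ := fun w => red Nn (freePart R w₀ w)
  set W' := F.image Prod.snd
  have hdivmem : ∀ z : ℕ, red Nn z ∈ Nn.divisors := fun z =>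
    Nat.mem_divisors.2 ⟨Nat.div_dvd_of_dvd (Nat.gcd_dvd_left _ _), hN.ne'⟩
  have hsum : ∑ b ∈ Nn.divisors, divWeight P b ≤ Real.exp 1 :=
    sum_divWeight_le hP (fun p => Nn.factorization p) _ fun b hb =>
      ⟨Nat.pos_of_mem_divisors hb, Nat.primeFactors_mono (Nat.mem_divisors.1 hb).1 hN.ne',
        fun p _ => (Nat.factorization_le_iff_dvd (Nat.pos_of_mem_divisors hb).ne' hN.ne').2
          (Nat.mem_divisors.1 hb).1 p⟩
  have hW' : ∀ w ∈ W', w ∈ W ∧ Nat.log 2 (cC w) = γ := by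
    intro w hw
    obtain ⟨x, hx, rfl⟩ := mem_image.1 hw
    exact ⟨(hF x hx).2.1, (hF x hx).2.2.2⟩
  have h1 : ∑ x ∈ F, divWeight P (cB x.1) * divWeight P (cD x.2) ≤
      (∑ b ∈ Nn.divisors, divWeight P b) * ((2 : ℝ) ^ α * ∑ w ∈ W', divWeight P (cD w) * u (cD w)) := by
    rw [← sum_fiberwise_of_maps_to (g := fun x : ℕ × ℕ => (cB x.1, x.2)) (t := Nn.divisors ×ˢ W')
      (fun x hx => mem_product.2 ⟨hdivmem _, (mem_image_of_mem Prod.snd (a := x) hx :)⟩), sum_product, sum_mul]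
    refine sum_le_sum fun b _ => ?_
    rw [mul_sum, mul_sum]
    refine sum_le_sum fun w _ => ?_
    rw [sum_congr rfl (g := fun _ => divWeight P b * divWeight P (cD w)) (fun x hx => by
      obtain ⟨-, hxe⟩ := mem_filter.1 hx
      obtain ⟨e1, e2⟩ := Prod.mk.injEq .. ▸ hxe
      rw [e1, e2]), sum_const, nsmul_eq_mul]
    have hc : (((F.filter (fun x => (cB x.1, x.2) = (b, w))).card : ℕ) : ℝ) ≤ (2 : ℝ) ^ α * u (cD w) := by
      refine le_trans (le_of_eq ?_) (hblock b w)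
      congr 2
      exact filter_congr fun x _ => by simp [cB, Prod.ext_iff, and_comm]
    refine (mul_le_mul_of_nonneg_right hc (mul_nonneg (hw0 _) (hw0 _))).trans_eq ?_
    ring
  have h2 : ∑ w ∈ W', divWeight P (cD w) * u (cD w) ≤
      (2 : ℝ) ^ γ * ∑ c ∈ Nn.divisors, divWeight P c * u c := by
    have hinj : Set.InjOn (fun w => (cC w, cD w)) W' := by
      intro x hx y hy hxy
      obtain ⟨hx', -⟩ := hW' x hx
      obtain ⟨hy', -⟩ := hW' y hy
      simp only [Prod.mk.injEq, cC, cD] at hxy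
      obtain ⟨a1, -, -⟩ := scale_decomp hR cW hw₀ hx' (hW _ hx') hN
      obtain ⟨b1, -, p1⟩ := scale_decomp hR cW hw₀ hy' (hW _ hy') hN
      rw [hxy.1, hxy.2, b1] at a1
      exact (Nat.eq_of_mul_eq_mul_right p1 a1).symm
    calc ∑ w ∈ W', divWeight P (cD w) * u (cD w)
        = ∑ z ∈ W'.image (fun w => (cC w, cD w)), divWeight P z.2 * u z.2 := (sum_image (f := fun z : ℕ × ℕ => divWeight P z.2 * u z.2) hinj).symm
      _ ≤ ∑ z ∈ Ico (2 ^ γ) (2 ^ (γ + 1)) ×ˢ Nn.divisors, divWeight P z.2 * u z.2 := by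
          refine sum_le_sum_of_subset_of_nonneg (fun z hz => ?_) fun z _ _ => mul_nonneg (hw0 _) (hu _)
          obtain ⟨w, hw, rfl⟩ := mem_image.1 hz
          obtain ⟨hwW, hlog⟩ := hW' w hw
          obtain ⟨-, hpos, -⟩ := scale_decomp hR cW hw₀ hwW (hW _ hwW) hN
          refine mem_product.2 ⟨mem_Ico.2 ⟨?_, ?_⟩, hdivmem _⟩
          · rw [← hlog]; exact Nat.pow_log_le_self 2 hpos.ne'
          · rw [← hlog]; exact Nat.lt_pow_succ_log_self (by norm_num) _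
      _ = _ := by
          rw [sum_product]
          simp only [sum_const, Nat.card_Ico, nsmul_eq_mul]
          rw [pow_succ, Nat.mul_two, Nat.add_sub_cancel]
          push_cast
          rfl
  refine h1.trans ?_
  have h3 : 0 ≤ ∑ c ∈ Nn.divisors, divWeight P c * u c := sum_nonneg fun c _ => mul_nonneg (hw0 c) (hu c)
  refine (mul_le_mul hsum (mul_le_mul_of_nonneg_left h2 (by positivity))
    (mul_nonneg (by positivity) (sum_nonneg fun w _ => mul_nonneg (hw0 _) (hu _)))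
    (Real.exp_nonneg _)).trans_eq ?_
  ring

/-- The error of a block, split by the size of the two factors of its step. -/
theorem err_split {Dd Y : ℝ} (hD : 1 ≤ Dd) (hY : 1 ≤ Y) {L L₁ Xr c : ℕ} (hL : L₁ ≤ L) (hXr : 0 < Xr) :
    min 1 (Dd * Y * (((Xr * c : ℕ) : ℝ) ^ 2 / (2 : ℝ) ^ L)) ≤
      Dd * Y * ((Xr : ℝ) * (2 : ℝ) ^ (-((L₁ : ℝ) / 8))) +
        (if (2 : ℝ) ^ ((L₁ : ℝ) / 8) < (c : ℝ) then 1 else 0) := by
  have hDY : 1 ≤ Dd * Y := one_le_mul_of_one_le_of_one_le hD hY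
  have hXr1 : (1 : ℝ) ≤ Xr := by exact_mod_cast hXr
  have hterm : 0 ≤ Dd * Y * ((Xr : ℝ) * (2 : ℝ) ^ (-((L₁ : ℝ) / 8))) :=
    mul_nonneg (by linarith) (by positivity)
  split
  · exact (min_le_left _ _).trans (le_add_of_nonneg_left hterm)
  next hc =>
  rw [not_lt] at hc
  rw [add_zero]
  rcases le_or_gt (Xr : ℝ) ((2 : ℝ) ^ ((L₁ : ℝ) / 8)) with hX | hX
  · refine (min_le_right _ _).trans (mul_le_mul_of_nonneg_left ?_ (by linarith))
    push_cast
    rw [div_le_iff₀ (by positivity)]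
    set z := (2 : ℝ) ^ ((L₁ : ℝ) / 8) with hz
    have hz0 : 0 < z := by positivity
    have h4 : z ^ 4 ≤ (2 : ℝ) ^ L := by
      rw [hz, ← rpow_natCast, ← rpow_mul zero_le_two, ← rpow_natCast 2 L]
      refine rpow_le_rpow_of_exponent_le one_le_two ?_
      have : (L₁ : ℝ) ≤ L := by exact_mod_cast hL
      have : (0 : ℝ) ≤ L₁ := Nat.cast_nonneg _
      push_cast
      linarith
    rw [rpow_neg zero_le_two, ← hz]
    calc ((Xr : ℝ) * c) ^ 2 = Xr * ((Xr : ℝ) * ((c : ℝ) * c)) := by ring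
      _ ≤ Xr * (z * (z * z)) := by gcongr
      _ = (Xr : ℝ) * z⁻¹ * z ^ 4 := by field_simp
      _ ≤ _ := mul_le_mul_of_nonneg_left h4 (by positivity)
  · refine (min_le_left _ _).trans ?_
    rw [rpow_neg zero_le_two, ← div_eq_mul_inv]
    refine le_trans ?_ (le_mul_of_one_le_left (by positivity) hDY)
    rw [one_le_div (by positivity)]
    exact hX.le

/-- A block bound by its main term and the split error. -/
theorem block_split {n M Q E : ℝ} (hM : 0 ≤ M) (hQ : 0 ≤ Q) (h1 : n ≤ M) (h2 : n ≤ M * (Q + E)) :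
    n ≤ M * (Q + min 1 E) := by
  rcases le_total E 1 with h | h
  · rwa [min_eq_right h]
  · rw [min_eq_left h]; nlinarith

variable {γ : ℝ} {A : ℕ → ℤ} {B : ℕ → ℕ}

/-- Both counts of a block, in a common shape. -/
theorem block_bounds (h : IsCls γ A B) {d l L G r₀ M : ℕ} {X Dd : ℝ} (hl : l ≤ L) (hX : 0 < X) (hd : 0 < d)
    (hG : 0 < G) (hD : 1 ≤ Dd) (hco : Nat.Coprime d (B l * B L)) (hr₀ : (r₀ : ℝ) ≤ X * (4 : ℝ) ^ l)
    (hM : X * (4 : ℝ) ^ L ≤ 8 * Dd * G * M) (S : Finset ℕ) (hS : S ⊆ Ico M (M + M))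
    (hhit : ∀ a ∈ S, BlockHit γ A B X d l L G r₀ a ∧ (r₀ : ℝ) ≤ 2 * Dd * ((G : ℝ) * a)) :
    (S.card : ℝ) ≤ M * (4 * X / d + (Nat.gcd G (B L) : ℝ) / B L +
        min 1 (40 * Dd * (1 + 1 / X) * ((G : ℝ) ^ 2 / (2 : ℝ) ^ L))) ∧
      (4 * X * B L ≤ √(d : ℝ) → (1 < d → 16 * (1 + X) * (B L : ℝ) ^ 4 ≤ √(d : ℝ)) →
        (S.card : ℝ) ≤ M * (72 * Dd * X * B L / √(d : ℝ) +
          min 1 (40 * Dd * (1 + 1 / X) * ((G : ℝ) ^ 2 / (2 : ℝ) ^ L)))) := by
  have hcardM : (S.card : ℝ) ≤ M := by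
    have := card_le_card hS
    rw [Nat.card_Ico, Nat.add_sub_cancel_left] at this
    exact_mod_cast this
  have hM0 : (0 : ℝ) ≤ M := Nat.cast_nonneg _
  have hG1 : (1 : ℝ) ≤ G := by exact_mod_cast hG
  have h2L : (1 : ℝ) ≤ (2 : ℝ) ^ L := one_le_pow₀ one_le_two
  have hX' : 0 ≤ 1 / X := by positivity
  set Er := 40 * Dd * (1 + 1 / X) * ((G : ℝ) ^ 2 / (2 : ℝ) ^ L) with hEr
  have hGsq : (G : ℝ) ≤ (G : ℝ) ^ 2 := le_self_pow₀ hG1 (by norm_num)
  set z := (G : ℝ) ^ 2 / (2 : ℝ) ^ L with hz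
  have hz0 : 0 ≤ z := by positivity
  have hGz : (G : ℝ) / (2 : ℝ) ^ L ≤ z := div_le_div_of_nonneg_right hGsq (by positivity)
  have hsc : ∀ c : ℝ, 0 ≤ c → c * X * (2 : ℝ) ^ L ≤ 8 * c * Dd * z * M := by
    intro c hc
    rw [show 8 * c * Dd * z * M = 8 * c * Dd * (G : ℝ) ^ 2 * M / (2 : ℝ) ^ L by rw [hz]; ring,
      le_div_iff₀ (by positivity)]
    calc c * X * (2 : ℝ) ^ L * (2 : ℝ) ^ L = c * (X * (4 : ℝ) ^ L) := by rw [four_pow_eq]; ring
      _ ≤ c * (8 * Dd * G * M) := mul_le_mul_of_nonneg_left hM hc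
      _ ≤ c * (8 * Dd * (G : ℝ) ^ 2 * M) := by gcongr
      _ = _ := by ring
  have hone : 2 * (G : ℝ) ≤ 16 * Dd * z * M / X := by
    rw [le_div_iff₀ hX, show 16 * Dd * z * M = 16 * Dd * (G : ℝ) ^ 2 * M / (2 : ℝ) ^ L by rw [hz]; ring,
      le_div_iff₀ (by positivity)]
    calc 2 * (G : ℝ) * X * (2 : ℝ) ^ L ≤ 2 * (G : ℝ) * X * ((2 : ℝ) ^ L * (2 : ℝ) ^ L) := by
          refine mul_le_mul_of_nonneg_left (le_mul_of_one_le_left (by positivity) h2L) (by positivity)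
      _ = 2 * (G : ℝ) * (X * (4 : ℝ) ^ L) := by rw [four_pow_eq]; ring
      _ ≤ 2 * (G : ℝ) * (8 * Dd * G * M) := mul_le_mul_of_nonneg_left hM (by positivity)
      _ = _ := by ring
  have hzD : z ≤ Dd * z := le_mul_of_one_le_left hz0 hD
  have hEr' : Er = 40 * (Dd * z) + 40 * (Dd * z * (1 / X)) := by rw [hEr]; ring
  have hnn : 0 ≤ Dd * z * (1 / X) := by positivity
  have h16 : 16 * Dd * z * M / X = (M : ℝ) * (16 * (Dd * z * (1 / X))) := by ring
  refine ⟨?_, fun hB4 hB16 => ?_⟩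
  · refine block_split hM0 (by positivity) hcardM ?_
    refine (count_rot h hX.le hd hG hco S hS fun a ha => (hhit a ha).1).trans ?_
    have h1 := hsc 4 (by norm_num)
    have h2 : z + 32 * (Dd * z) + 16 * (Dd * z * (1 / X)) ≤ Er := by
      linarith [show 0 ≤ Dd * z by positivity]
    have h3 := mul_le_mul_of_nonneg_left h2 hM0
    linarith
  · refine block_split hM0 (by positivity) hcardM ?_
    refine (count_win h hl hX.le hd (by linarith : (1 : ℝ) ≤ 2 * Dd) hco hr₀ hB4 hB16 S hS hhit).trans ?_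
    have h2 : z + 16 * (Dd * z * (1 / X)) ≤ Er := by
      linarith [show 0 ≤ Dd * z by positivity]
    have h3 := mul_le_mul_of_nonneg_left h2 hM0
    have h5 := mul_le_mul_of_nonneg_left hGz hM0
    have h6 : 36 * (2 * Dd) * X * (B L : ℝ) / √(d : ℝ) = 72 * Dd * X * B L / √(d : ℝ) := by ring
    rw [h6]
    linarith

end Vale.Agent.P028.Tame
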