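import Vale.Agent.P028.Lattice

/-! Two counts along a block of consecutive integers. -/

namespace Vale.Agent.P028.Tame

open Finset
open scoped Classical

theorem card_nat_le_of_span (S : Finset ℕ) {L : ℝ} (hL : 0 ≤ L)
    (h : ∀ x ∈ S, ∀ y ∈ S, (x : ℝ) - y ≤ L) : (S.card : ℝ) ≤ L + 1 := by
  have hc := card_le_of_dvd_sub (S.image (fun x : ℕ => (x : ℤ))) (k := 1) le_rfl hL
    (fun x _ y _ => by simp) (fun x hx y hy => by
      obtain ⟨a, ha, rfl⟩ := mem_image.1 hx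
      obtain ⟨b, hb, rfl⟩ := mem_image.1 hy
      exact_mod_cast h a ha b hb)
  rw [card_image_of_injective _ Nat.cast_injective] at hc
  simpa using hc

/-- Integers of a block at which a nearly rational rotation comes close to a point. -/
theorem rotation_count (k : ℤ) {B₁ : ℕ} (hB₁ : 0 < B₁) (hk : IsCoprime k (B₁ : ℤ)) (θ κ δ : ℝ)
    (hδ : 0 ≤ δ) (M H : ℕ) (S : Finset ℕ) (hS : S ⊆ Ico M (M + H))
    (hhit : ∀ a ∈ S, ∃ z : ℤ, |(z : ℝ) + ((k : ℝ) / B₁ + θ) * a + κ| ≤ δ) :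
    (S.card : ℝ) ≤ ((H : ℝ) / B₁ + 1) * (2 * δ * B₁ + |θ| * B₁ ^ 2 + 1) := by
  have hB : (0 : ℝ) < B₁ := by exact_mod_cast hB₁
  choose! z hz using hhit
  set blk : ℕ → ℕ := fun a => (a - M) / B₁
  have hmap : ∀ a ∈ S, blk a ∈ range (H / B₁ + 1) := by
    intro a ha
    have h := mem_Ico.1 (hS ha)
    exact mem_range.2 (Nat.lt_succ_of_le (Nat.div_le_div_right (by omega)))
  have hfib : ∀ i ∈ range (H / B₁ + 1),
      (((S.filter (fun a => blk a = i)).card : ℕ) : ℝ) ≤ 2 * δ * B₁ + |θ| * B₁ ^ 2 + 1 := by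
    intro i _
    set F := S.filter (fun a => blk a = i)
    set w : ℕ → ℤ := fun a => z a * B₁ + k * a
    have hF : ∀ a ∈ F, a ∈ S ∧ M ≤ a ∧ B₁ * i ≤ a - M ∧ a - M < B₁ * i + B₁ := by
      intro a ha
      obtain ⟨h1, h2⟩ := mem_filter.1 ha
      refine ⟨h1, (mem_Ico.1 (hS h1)).1, ?_, ?_⟩
      · rw [← h2]; exact Nat.mul_div_le (a - M) B₁
      · rw [← h2]; exact Nat.lt_mul_div_succ (a - M) hB₁ |>.trans_eq (by ring)
    have hinj : Set.InjOn w F := by
      intro a ha b hb hab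
      obtain ⟨-, ha1, ha2, ha3⟩ := hF a ha
      obtain ⟨-, hb1, hb2, hb3⟩ := hF b hb
      have hd : (B₁ : ℤ) ∣ k * ((a : ℤ) - b) := ⟨z b - z a, by simp only [w] at hab; linarith⟩
      have hd' := hk.symm.dvd_of_dvd_mul_left hd
      have := Int.eq_zero_of_abs_lt_dvd hd' (abs_lt.2 ⟨by omega, by omega⟩)
      omega
    have hspan : ∀ x ∈ F.image w, ∀ y ∈ F.image w, (x : ℝ) - y ≤ 2 * δ * B₁ + |θ| * B₁ ^ 2 := by
      intro x hx y hy
      obtain ⟨a, ha, rfl⟩ := mem_image.1 hx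
      obtain ⟨b, hb, rfl⟩ := mem_image.1 hy
      obtain ⟨ha0, ha1, ha2, ha3⟩ := hF a ha
      obtain ⟨hb0, hb1, hb2, hb3⟩ := hF b hb
      have key : ∀ c, c ∈ S → |(w c : ℝ) + B₁ * (θ * c + κ)| ≤ δ * B₁ := by
        intro c hc
        have e : (w c : ℝ) + B₁ * (θ * c + κ) = B₁ * ((z c : ℝ) + ((k : ℝ) / B₁ + θ) * c + κ) := by
          simp only [w]; push_cast; field_simp; ring
        rw [e, abs_mul, abs_of_pos hB, mul_comm δ]
        exact mul_le_mul_of_nonneg_left (hz c hc) hB.le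
      have hdist : |(b : ℝ) - a| ≤ B₁ := by
        rw [abs_le]
        have h1 : (b : ℤ) - a ≤ B₁ := by omega
        have h2 : -(B₁ : ℤ) ≤ (b : ℤ) - a := by omega
        exact ⟨by exact_mod_cast h2, by exact_mod_cast h1⟩
      have hθ : θ * ((b : ℝ) - a) ≤ |θ| * B₁ := by
        refine (le_abs_self _).trans ?_
        rw [abs_mul]; exact mul_le_mul_of_nonneg_left hdist (abs_nonneg θ)
      have := abs_le.1 (key a ha0)
      have := abs_le.1 (key b hb0)
      nlinarith [mul_le_mul_of_nonneg_left hθ hB.le]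
    have hc := card_le_of_dvd_sub (F.image w) (k := 1) le_rfl (by positivity) (fun x _ y _ => by simp) hspan
    rw [card_image_of_injOn hinj] at hc
    simpa using hc
  rw [card_eq_sum_card_fiberwise hmap, Nat.cast_sum]
  refine (sum_le_sum hfib).trans ?_
  rw [sum_const, card_range, nsmul_eq_mul]
  refine mul_le_mul_of_nonneg_right ?_ (by positivity)
  push_cast
  exact add_le_add Nat.cast_div_le le_rfl

/-- Integers of a block that a slow linear map sends near a progression of modulus `d`. -/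
theorem window_count (c₀ s W : ℝ) (hs : 0 < |s|) (hW : 0 ≤ W) {d : ℕ} (hd : 0 < d) (j₀ : ℤ) (M H : ℕ)
    (S : Finset ℕ) (hS : S ⊆ Ico M (M + H))
    (hhit : ∀ a ∈ S, ∃ j : ℤ, (d : ℤ) ∣ j - j₀ ∧ |(j : ℝ) + c₀ - s * a| ≤ W) :
    (S.card : ℝ) ≤ ((|s| * H + 2 * W) / d + 1) * (2 * W / |s| + 1) := by
  choose! j hjd hjw using hhit
  have hdist : ∀ a ∈ S, ∀ b ∈ S, |(a : ℝ) - b| ≤ H := by
    intro a ha b hb
    have h1 := mem_Ico.1 (hS ha)
    have h2 := mem_Ico.1 (hS hb)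
    rw [abs_le]
    have e1 : (a : ℤ) - b ≤ H := by omega
    have e2 : -(H : ℤ) ≤ (a : ℤ) - b := by omega
    exact ⟨by exact_mod_cast e2, by exact_mod_cast e1⟩
  have himg : ((S.image j).card : ℝ) ≤ (|s| * H + 2 * W) / d + 1 := by
    refine card_le_of_dvd_sub _ hd (by positivity) (fun x hx y hy => ?_) fun x hx y hy => ?_
    · obtain ⟨a, ha, rfl⟩ := mem_image.1 hx
      obtain ⟨b, hb, rfl⟩ := mem_image.1 hy
      simpa using dvd_sub (hjd a ha) (hjd b hb)
    · obtain ⟨a, ha, rfl⟩ := mem_image.1 hx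
      obtain ⟨b, hb, rfl⟩ := mem_image.1 hy
      have := abs_le.1 (hjw a ha)
      have := abs_le.1 (hjw b hb)
      have h3 : s * ((a : ℝ) - b) ≤ |s| * H := by
        refine (le_abs_self _).trans ?_
        rw [abs_mul]; exact mul_le_mul_of_nonneg_left (hdist a ha b hb) (abs_nonneg s)
      nlinarith
  have hfib : ∀ x ∈ S.image j, (((S.filter (fun a => j a = x)).card : ℕ) : ℝ) ≤ 2 * W / |s| + 1 := by
    intro x _
    refine card_nat_le_of_span _ (by positivity) fun a ha b hb => ?_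
    obtain ⟨ha1, ha2⟩ := mem_filter.1 ha
    obtain ⟨hb1, hb2⟩ := mem_filter.1 hb
    rw [le_div_iff₀ hs]
    have h1 := abs_le.1 (hjw a ha1)
    have h2 := abs_le.1 (hjw b hb1)
    rw [ha2] at h1; rw [hb2] at h2
    have h3 : |s * ((a : ℝ) - b)| ≤ 2 * W := by
      rw [abs_le]
      constructor <;> nlinarith
    rw [abs_mul] at h3
    nlinarith [le_abs_self ((a : ℝ) - b), abs_nonneg s]
  rw [card_eq_sum_card_fiberwise (f := j) (t := S.image j) (fun a ha => mem_image_of_mem _ ha),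
    Nat.cast_sum]
  refine (sum_le_sum hfib).trans ?_
  rw [sum_const, nsmul_eq_mul]
  exact mul_le_mul_of_nonneg_right himg (by positivity)

end Vale.Agent.P028.Tame
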