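import Vale.Agent.P028.Tame.Stmts
import Vale.Agent.P028.Tame.Counting

/-! Numerators of one block whose coincidence form is a multiple of `d`. -/

namespace Vale.Agent.P028.Tame

open Finset Real
open scoped Classical

variable {γ : ℝ} {A : ℕ → ℤ} {B : ℕ → ℕ}

theorem exists_inv_mod {d B : ℕ} (h : Nat.Coprime d B) : ∃ w t : ℤ, w * B - d * t = 1 := by
  obtain ⟨u, v, huv⟩ := Nat.isCoprime_iff_coprime.2 h
  exact ⟨v, -u, by linear_combination huv⟩

/-- The hit condition of a block. -/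
def BlockHit (γ : ℝ) (A : ℕ → ℤ) (B : ℕ → ℕ) (X : ℝ) (d l L G r₀ a : ℕ) : Prop :=
  ∃ n : ℤ, |(n : ℝ) + γ * ((r₀ : ℝ) - (G : ℝ) * a)| ≤ 2 * X ∧
    (B l : ℤ) * B L * n + A l * B L * r₀ - A L * B l * (G * a) ≠ 0 ∧
    (d : ℤ) ∣ (B l : ℤ) * B L * n + A l * B L * r₀ - A L * B l * (G * a) ∧
    (d = 1 → (B L : ℤ) * n + A L * ((r₀ : ℤ) - G * a) ≠ 0)

/-- By a rotation with the approximation of the upper level. -/
theorem count_rot (h : IsCls γ A B) {d l L G r₀ M : ℕ} {X : ℝ} (hX : 0 ≤ X) (hd : 0 < d) (hG : 0 < G)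
    (hco : Nat.Coprime d (B l * B L)) (S : Finset ℕ) (hS : S ⊆ Ico M (M + M))
    (hhit : ∀ a ∈ S, BlockHit γ A B X d l L G r₀ a) :
    (S.card : ℝ) ≤ (M : ℝ) * (4 * X / d + (Nat.gcd G (B L) : ℝ) / B L + (G : ℝ) ^ 2 / (2 : ℝ) ^ L) +
      (4 * X * (2 : ℝ) ^ L + G + 1) := by
  obtain ⟨hB1, hB2, hcop, he⟩ := h L
  obtain ⟨-, hB2R, heR⟩ := cls_real h L
  obtain ⟨w, t, hwt⟩ := exists_inv_mod (Nat.Coprime.coprime_mul_left_right hco)
  obtain ⟨w', t', hwt'⟩ := exists_inv_mod (Nat.Coprime.coprime_mul_right_right hco)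
  set g := Nat.gcd G (B L) with hg
  have hg0 : 0 < g := Nat.gcd_pos_of_pos_left _ hG
  obtain ⟨G₁, hG₁⟩ : g ∣ G := Nat.gcd_dvd_left _ _
  obtain ⟨B₁, hB₁⟩ : g ∣ B L := Nat.gcd_dvd_right _ _
  have hB₁0 : 0 < B₁ := Nat.pos_of_mul_pos_left (hB₁ ▸ hB1 : 0 < g * B₁)
  have hcop₁ : Nat.Coprime G₁ B₁ := by
    have := Nat.coprime_div_gcd_div_gcd (m := G) (n := B L) hg0
    rwa [← hg, hG₁, hB₁, Nat.mul_div_cancel_left _ hg0, Nat.mul_div_cancel_left _ hg0] at this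
  have hk : IsCoprime (A L * t * G₁) (B₁ : ℤ) := by
    have hB₁d : (B₁ : ℤ) ∣ (B L : ℤ) := Int.natCast_dvd_natCast.2 ⟨g, by rw [hB₁, mul_comm]⟩
    refine (IsCoprime.mul_left ?_ ?_).mul_left ?_
    · exact hcop.of_isCoprime_of_dvd_right hB₁d
    · exact IsCoprime.of_isCoprime_of_dvd_right ⟨-(d : ℤ), w, by linear_combination hwt⟩ hB₁d
    · exact Nat.isCoprime_iff_coprime.2 hcop₁
  have hdR : (0 : ℝ) < d := by exact_mod_cast hd
  have hgR : (0 : ℝ) < g := by exact_mod_cast hg0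
  have hB₁R : (0 : ℝ) < B₁ := by exact_mod_cast hB₁0
  have hBR : (B L : ℝ) = g * B₁ := by exact_mod_cast hB₁
  have hGR : (G : ℝ) = g * G₁ := by exact_mod_cast hG₁
  set e := eps γ A B L with hedef
  set θ := -(e * G) / ((d : ℝ) * B L) with hθ
  set κ := ((γ : ℝ) * r₀ - (w' : ℝ) * A l * r₀) / d with hκ
  have hrot : ∀ a ∈ S, ∃ z : ℤ, |(z : ℝ) + (((A L * t * G₁ : ℤ) : ℝ) / B₁ + θ) * a + κ| ≤ 2 * X / d := by
    intro a ha
    obtain ⟨n, hn, -, hdv, -⟩ := hhit a ha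
    have hz : (d : ℤ) ∣ n + w' * A l * r₀ - w * A L * (G * a) := by
      have e1 : n + w' * A l * r₀ - w * A L * (G * a) =
          w * w' * ((B l : ℤ) * B L * n + A l * B L * r₀ - A L * B l * (G * a)) +
            (d : ℤ) * (-(t * (w' * B l * n + w' * A l * r₀)) - t' * n + t' * w * A L * (G * a)) := by
        linear_combination (-(n * (w' * B l)) - w' * A l * r₀) * hwt +
          (-n + w * A L * (G * a)) * hwt'
      rw [e1]; exact dvd_add (hdv.mul_left _) (dvd_mul_right _ _)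
    obtain ⟨z, hz⟩ := hz
    refine ⟨z, ?_⟩
    have hzR : (n : ℝ) + w' * A l * r₀ - w * A L * (G * a) = d * z := by exact_mod_cast hz
    have hwR : (w : ℝ) * B L - d * t = 1 := by exact_mod_cast hwt
    have heq : e = (B L : ℝ) * γ - A L := rfl
    have key : (z : ℝ) + (((A L * t * G₁ : ℤ) : ℝ) / B₁ + θ) * a + κ =
        ((n : ℝ) + γ * ((r₀ : ℝ) - G * a)) / d := by
      have h1 : ((A L * t * G₁ : ℤ) : ℝ) / B₁ = (A L : ℝ) * t * G / B L := by
        rw [hBR, hGR]; push_cast; field_simp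
      rw [h1, hθ, hκ, heq]
      have hBne : (B L : ℝ) ≠ 0 := by rw [hBR]; positivity
      field_simp
      linear_combination (-(B L : ℝ)) * hzR - (A L : ℝ) * G * a * hwR
    rw [key, abs_div, abs_of_pos hdR]
    exact div_le_div_of_nonneg_right hn hdR.le
  have hcnt := rotation_count _ hB₁0 hk θ κ (2 * X / d) (by positivity) M M S hS hrot
  refine hcnt.trans ?_
  have hB1R : (1 : ℝ) ≤ B L := by exact_mod_cast hB1
  have hd1 : (1 : ℝ) ≤ d := by exact_mod_cast hd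
  have hg1 : (1 : ℝ) ≤ g := by exact_mod_cast hg0
  have hgG : (g : ℝ) ≤ G := by exact_mod_cast Nat.gcd_le_left (B L) hG
  have hB₁le : (B₁ : ℝ) ≤ (2 : ℝ) ^ L := le_trans (by rw [hBR]; nlinarith) hB2R
  have hθb : |θ| * (B₁ : ℝ) ≤ (G : ℝ) / (2 : ℝ) ^ L := by
    rw [hθ, abs_div, abs_neg, abs_mul, abs_mul, Nat.abs_cast, Nat.abs_cast, Nat.abs_cast,
      div_mul_eq_mul_div, div_le_iff₀ (by positivity)]
    have h1 : |e| * (G : ℝ) ≤ ((2 : ℝ) ^ L)⁻¹ * G := mul_le_mul_of_nonneg_right heR.le (Nat.cast_nonneg _)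
    calc |e| * (G : ℝ) * B₁ ≤ ((2 : ℝ) ^ L)⁻¹ * G * B₁ := mul_le_mul_of_nonneg_right h1 hB₁R.le
      _ = (G : ℝ) / (2 : ℝ) ^ L * (1 * B₁) := by ring
      _ ≤ (G : ℝ) / (2 : ℝ) ^ L * ((d : ℝ) * B L) :=
          mul_le_mul_of_nonneg_left (mul_le_mul hd1 (by rw [hBR]; nlinarith) hB₁R.le hdR.le) (by positivity)
  have hθb2 : |θ| * (B₁ : ℝ) ^ 2 ≤ (G : ℝ) := by
    calc |θ| * (B₁ : ℝ) ^ 2 = |θ| * B₁ * B₁ := by ring
      _ ≤ (G : ℝ) / (2 : ℝ) ^ L * (2 : ℝ) ^ L := mul_le_mul hθb hB₁le hB₁R.le (by positivity)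
      _ = G := by field_simp
  have e1 : ((M : ℝ) / B₁ + 1) * (2 * (2 * X / d) * B₁ + |θ| * B₁ ^ 2 + 1) =
      (M : ℝ) * (4 * X / d + |θ| * B₁ + 1 / B₁) + (4 * X / d * B₁ + |θ| * B₁ ^ 2 + 1) := by
    field_simp; ring
  rw [e1]
  refine add_le_add (mul_le_mul_of_nonneg_left ?_ (Nat.cast_nonneg _)) ?_
  · have h1 : 1 / (B₁ : ℝ) = (g : ℝ) / B L := by rw [hBR]; field_simp
    have h2 : (G : ℝ) / (2 : ℝ) ^ L ≤ (G : ℝ) ^ 2 / (2 : ℝ) ^ L := by
      refine div_le_div_of_nonneg_right ?_ (by positivity)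
      have : (1 : ℝ) ≤ G := hg1.trans hgG
      nlinarith
    linarith
  · have h1 : 4 * X / d * B₁ ≤ 4 * X * (2 : ℝ) ^ L :=
      mul_le_mul (div_le_self (by positivity) hd1) hB₁le hB₁R.le (by positivity)
    linarith

/-- A hit lies on the progression, near `ε (G a - r₀)`, away from zero. -/
theorem hit_window (h : IsCls γ A B) {d l L G r₀ a : ℕ} {X : ℝ} (hl : l ≤ L) (hX : 0 ≤ X) (hd : 0 < d)
    {w' t' : ℤ} (hwt' : w' * B l - d * t' = 1) (hr₀ : (r₀ : ℝ) ≤ X * (4 : ℝ) ^ l)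
    (hB16 : 1 < d → 16 * (1 + X) * (B L : ℝ) ^ 4 ≤ √(d : ℝ)) (hhit : BlockHit γ A B X d l L G r₀ a) :
    ∃ j : ℤ, (d : ℤ) ∣ j - -(w' * (r₀ * (A l * B L - A L * B l))) ∧
      |(j : ℝ) + eps γ A B L * r₀ - eps γ A B L * G * a| ≤ 2 * X * B L ∧
      √(d : ℝ) ≤ |(j : ℝ)| := by
    obtain ⟨hB1R, hB2R, heR⟩ := cls_real h L
    obtain ⟨hBl1, hBl2, hel⟩ := cls_real h l
    set e := eps γ A B L with hedef
    set Δ : ℤ := A l * B L - A L * B l with hΔ
    set j₀ : ℤ := -(w' * (r₀ * Δ)) with hj₀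
    have hdR : (1 : ℝ) ≤ d := by exact_mod_cast hd
    obtain ⟨n, hn, hne0, hdv, hone⟩ := hhit
    set j : ℤ := (B L : ℤ) * n + A L * ((r₀ : ℤ) - G * a) with hjdef
    have hid : (B l : ℤ) * B L * n + A l * B L * r₀ - A L * B l * (G * a) = B l * j + r₀ * Δ := by
      rw [hjdef, hΔ]; ring
    refine ⟨j, ?_, ?_, ?_⟩
    · rw [hid] at hdv
      have e1 : j - j₀ = w' * ((B l : ℤ) * j + r₀ * Δ) + (d : ℤ) * (-(t' * j)) := by
        rw [hj₀]; linear_combination (-j) * hwt'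
      rw [e1]; exact dvd_add (hdv.mul_left _) (dvd_mul_right _ _)
    · have e1 : (j : ℝ) + e * r₀ - e * G * a = B L * ((n : ℝ) + γ * ((r₀ : ℝ) - G * a)) := by
        rw [hjdef, hedef, eps]; push_cast; ring
      rw [e1, abs_mul, Nat.abs_cast]
      calc (B L : ℝ) * |(n : ℝ) + γ * ((r₀ : ℝ) - G * a)| ≤ B L * (2 * X) :=
            mul_le_mul_of_nonneg_left hn (Nat.cast_nonneg _)
        _ = _ := by ring
    · rcases Nat.lt_or_ge 1 d with h1 | h1
      swap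
      · have hd1 : d = 1 := by omega
        have hj0 : j ≠ 0 := hone hd1
        rw [hd1, Nat.cast_one, Real.sqrt_one, ← Int.cast_abs]
        exact Int.cast_one_le_of_pos (abs_pos.2 hj0)
      by_contra hlt
      rw [not_le] at hlt
      apply hne0
      rw [hid] at hdv ⊢
      refine Int.eq_zero_of_abs_lt_dvd hdv ?_
      have hsq : √(d : ℝ) * √(d : ℝ) = d := Real.mul_self_sqrt (by linarith)
      have hB16' := hB16 h1
      have hBd : 2 * (B L : ℝ) ≤ √(d : ℝ) / 8 ∧ 8 * X * (B L : ℝ) ^ 3 ≤ √(d : ℝ) / 2 := by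
        have h4 : (B L : ℝ) ≤ (B L : ℝ) ^ 4 := le_self_pow₀ hB1R (by norm_num)
        have h34 : (B L : ℝ) ^ 3 ≤ (B L : ℝ) ^ 4 := pow_le_pow_right₀ hB1R (by norm_num)
        constructor <;> nlinarith [pow_nonneg (zero_le_one.trans hB1R) 3]
      suffices hR' : |((B l * j + r₀ * Δ : ℤ) : ℝ)| < (d : ℝ) by exact_mod_cast hR'
      by_cases hs : SameCls A B l L
      · obtain ⟨hA, hB⟩ := hs
        have hΔ0 : Δ = 0 := by rw [hΔ, hA, hB]; ring
        rw [hΔ0, mul_zero, add_zero, Int.cast_mul, abs_mul, Int.cast_natCast, Nat.abs_cast, hB]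
        calc (B L : ℝ) * |(j : ℝ)| ≤ (√(d : ℝ) / 16) * √(d : ℝ) :=
              mul_le_mul (by linarith [hBd.1]) hlt.le (abs_nonneg _) (by linarith)
          _ < d := by nlinarith
      · obtain ⟨hlt', -, hBB, -⟩ := cls_diff h hl hs
        have h2l : (2 : ℝ) ^ l ≤ 2 * B L := by exact_mod_cast hBB
        have hΔb : |(Δ : ℝ)| ≤ 2 * B L := by
          have hid2 : (Δ : ℝ) = -eps γ A B l * B L + e * B l := by
            rw [hΔ, hedef]; simp only [eps]; push_cast; ring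
          rw [hid2]
          refine (abs_add_le _ _).trans ?_
          rw [abs_mul, abs_mul, abs_neg, Nat.abs_cast, Nat.abs_cast]
          have h3 : |eps γ A B l| * (B L : ℝ) ≤ 1 * B L := by
            refine mul_le_mul_of_nonneg_right (hel.le.trans ?_) (Nat.cast_nonneg _)
            exact inv_le_one_of_one_le₀ (one_le_pow₀ one_le_two)
          have h4 : |e| * (B l : ℝ) ≤ 1 := by
            calc |e| * (B l : ℝ) ≤ ((2 : ℝ) ^ L)⁻¹ * (2 : ℝ) ^ l :=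
                  mul_le_mul heR.le hBl2 (Nat.cast_nonneg _) (by positivity)
              _ ≤ 1 := by
                  rw [inv_mul_le_iff₀ (by positivity), mul_one]
                  exact pow_le_pow_right₀ one_le_two hl
          linarith
        push_cast
        refine lt_of_le_of_lt (abs_add_le _ _) ?_
        rw [abs_mul, abs_mul, Nat.abs_cast, Nat.abs_cast]
        have h5 : (r₀ : ℝ) * |(Δ : ℝ)| ≤ 8 * X * (B L : ℝ) ^ 3 := by
          have h6 : (4 : ℝ) ^ l ≤ 4 * (B L : ℝ) ^ 2 := by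
            rw [four_pow_eq]; nlinarith [pow_pos (two_pos (α := ℝ)) l]
          calc (r₀ : ℝ) * |(Δ : ℝ)| ≤ X * (4 * (B L : ℝ) ^ 2) * (2 * B L) :=
                mul_le_mul (hr₀.trans (mul_le_mul_of_nonneg_left h6 hX)) hΔb (abs_nonneg _) (by positivity)
            _ = _ := by ring
        have h7 : (B l : ℝ) * |(j : ℝ)| ≤ √(d : ℝ) / 8 * √(d : ℝ) :=
          mul_le_mul (hBl2.trans (h2l.trans hBd.1)) hlt.le (abs_nonneg _) (by linarith)
        nlinarith [hBd.2]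

/-- By windows, for an approximation with a small denominator. -/
theorem count_win (h : IsCls γ A B) {d l L G r₀ M : ℕ} {X R : ℝ} (hl : l ≤ L) (hX : 0 ≤ X) (hd : 0 < d)
    (hR : 1 ≤ R) (hco : Nat.Coprime d (B l * B L)) (hr₀ : (r₀ : ℝ) ≤ X * (4 : ℝ) ^ l)
    (hB4 : 4 * X * B L ≤ √(d : ℝ)) (hB16 : 1 < d → 16 * (1 + X) * (B L : ℝ) ^ 4 ≤ √(d : ℝ))
    (S : Finset ℕ) (hS : S ⊆ Ico M (M + M))
    (hhit : ∀ a ∈ S, BlockHit γ A B X d l L G r₀ a ∧ (r₀ : ℝ) ≤ R * ((G : ℝ) * a)) :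
    (S.card : ℝ) ≤ (M : ℝ) * (36 * R * X * B L / √(d : ℝ) + (G : ℝ) / (2 : ℝ) ^ L) + 2 := by
  rcases S.eq_empty_or_nonempty with rfl | hne
  · simp only [card_empty, Nat.cast_zero]; positivity
  obtain ⟨hB1R, hB2R, heR⟩ := cls_real h L
  obtain ⟨w', t', hwt'⟩ := exists_inv_mod (Nat.Coprime.coprime_mul_right_right hco)
  set e := eps γ A B L with hedef
  set Δ : ℤ := A l * B L - A L * B l with hΔ
  set j₀ : ℤ := -(w' * (r₀ * Δ)) with hj₀
  have hdR : (1 : ℝ) ≤ d := by exact_mod_cast hd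
  have hsd : 1 ≤ √(d : ℝ) := Real.one_le_sqrt.2 hdR
  have hW : (0 : ℝ) ≤ 2 * X * B L := by positivity
  have hj : ∀ a ∈ S, ∃ j : ℤ, (d : ℤ) ∣ j - j₀ ∧ |(j : ℝ) + e * r₀ - e * G * a| ≤ 2 * X * B L ∧
      √(d : ℝ) ≤ |(j : ℝ)| := fun a ha => hit_window h hl hX hd hwt' hr₀ hB16 (hhit a ha).1
  obtain ⟨a₁, ha₁⟩ := hne
  obtain ⟨j₁, -, hj₁, hj₁'⟩ := hj a₁ ha₁
  have ha₁M : (a₁ : ℝ) ≤ 2 * M := by
    have := (mem_Ico.1 (hS ha₁)).2
    have : a₁ ≤ 2 * M := by omega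
    exact_mod_cast this
  have hT : √(d : ℝ) / (4 * R) ≤ |e| * G * M := by
    have h1 : √(d : ℝ) / 2 ≤ |e * ((r₀ : ℝ) - G * a₁)| := by
      have h2 := abs_sub_abs_le_abs_sub (j₁ : ℝ) (-(e * ((r₀ : ℝ) - G * a₁)))
      rw [abs_neg, sub_neg_eq_add,
        show (j₁ : ℝ) + e * ((r₀ : ℝ) - G * a₁) = (j₁ : ℝ) + e * r₀ - e * G * a₁ by ring] at h2
      linarith
    have h3 : |(r₀ : ℝ) - G * a₁| ≤ R * (G * a₁) := by
      have hGa : (0 : ℝ) ≤ (G : ℝ) * a₁ := by positivity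
      have := (hhit a₁ ha₁).2
      rw [abs_le]
      constructor <;> nlinarith [(Nat.cast_nonneg r₀ : (0 : ℝ) ≤ _)]
    rw [abs_mul] at h1
    rw [div_le_iff₀ (by positivity)]
    have h4 : |e| * |(r₀ : ℝ) - G * a₁| ≤ |e| * (R * (G * (2 * M))) := by
      refine mul_le_mul_of_nonneg_left (h3.trans ?_) (abs_nonneg e)
      gcongr
    linarith
  have hMpos : 0 < M := by
    have := mem_Ico.1 (hS ha₁)
    omega
  have hMR : (0 : ℝ) < M := by exact_mod_cast hMpos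
  set T := |e| * G * M with hTdef
  have hT0 : 0 < T := lt_of_lt_of_le (by positivity) hT
  have hs : 0 < |e * (G : ℝ)| := by
    rw [abs_mul, Nat.abs_cast]
    exact pos_of_mul_pos_left hT0 hMR.le
  have hcnt := window_count (e * r₀) (e * G) (2 * X * B L) hs hW hd j₀ M M S hS fun a ha => by
    obtain ⟨j, hj1, hj2, -⟩ := hj a ha
    exact ⟨j, hj1, hj2⟩
  refine hcnt.trans ?_
  have habs : |e * (G : ℝ)| = |e| * G := by rw [abs_mul, Nat.abs_cast]
  rw [habs]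
  rw [habs] at hs
  set W := 2 * (2 * X * (B L : ℝ)) with hWdef
  have hWd : W / d ≤ 1 := by
    rw [div_le_one (by linarith)]
    have : √(d : ℝ) ≤ d := by
      calc √(d : ℝ) ≤ √(d : ℝ) * √(d : ℝ) := le_mul_of_one_le_left (Real.sqrt_nonneg _) hsd
        _ = d := Real.mul_self_sqrt (by linarith)
    rw [hWdef]; linarith
  have hW0 : 0 ≤ W := by positivity
  have e2 : W / (|e| * G) = W * M / T := by rw [hTdef]; field_simp
  rw [e2, show |e| * (G : ℝ) * M = T from rfl]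
  have e3 : ((T + W) / d + 1) * (W * M / T + 1) =
      W * M / d + T / d + (W / d) * (W * M / T) + W / d + W * M / T + 1 := by
    field_simp; ring
  rw [e3]
  have hWT : 0 ≤ W * M / T := by positivity
  have h1 : (W / d) * (W * M / T) ≤ W * M / T := mul_le_of_le_one_left hWT hWd
  have h2 : W * M / T ≤ (M : ℝ) * (16 * R * X * B L / √(d : ℝ)) := by
    rw [div_le_iff₀ hT0]
    have h3 := mul_le_mul_of_nonneg_left hT
      (show 0 ≤ (M : ℝ) * (16 * R * X * B L / √(d : ℝ)) by positivity)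
    refine le_trans (le_of_eq ?_) h3
    rw [hWdef]; field_simp; ring
  have h4 : W * M / d ≤ (M : ℝ) * (4 * R * X * B L / √(d : ℝ)) := by
    rw [mul_comm W, mul_div_assoc]
    refine mul_le_mul_of_nonneg_left (div_le_div₀ (by positivity) ?_ (by positivity) ?_) hMR.le
    · rw [hWdef]
      calc 2 * (2 * X * (B L : ℝ)) = 4 * 1 * X * B L := by ring
        _ ≤ _ := by gcongr
    · calc √(d : ℝ) ≤ √(d : ℝ) * √(d : ℝ) := le_mul_of_one_le_left (Real.sqrt_nonneg _) hsd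
        _ = d := Real.mul_self_sqrt (by linarith)
  have h5 : T / d ≤ (M : ℝ) * ((G : ℝ) / (2 : ℝ) ^ L) := by
    refine (div_le_self hT0.le hdR).trans ?_
    rw [hTdef, div_eq_inv_mul, mul_comm (M : ℝ)]
    exact mul_le_mul_of_nonneg_right (mul_le_mul_of_nonneg_right heR.le (Nat.cast_nonneg _)) hMR.le
  have e4 : (M : ℝ) * (36 * R * X * B L / √(d : ℝ) + (G : ℝ) / (2 : ℝ) ^ L) =
      (M : ℝ) * (4 * R * X * B L / √(d : ℝ)) + 2 * ((M : ℝ) * (16 * R * X * B L / √(d : ℝ))) +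
        (M : ℝ) * ((G : ℝ) / (2 : ℝ) ^ L) := by ring
  rw [e4]
  linarith

end Vale.Agent.P028.Tame
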