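import Vale.Agent.P028.Tame.CoinSum

/-! The leaf bound for pairs on a progression. -/

namespace Vale.Agent.P028.Tame

open Finset Real
open scoped Classical

theorem rpow_resolved_le {n : ℝ} {a b : ℝ} (hn : 1 ≤ n) (hab : a ≤ b) : n ^ (-b) ≤ n ^ (-a) :=
  rpow_le_rpow_of_exponent_le hn (by linarith)

/-- From the gain of the cells to the shift. -/
theorem leaf_assemble {C X δ : ℝ} {s t : ℕ} {R P : Finset ℕ} (hR : ∀ p ∈ R, p.Prime) (hPR : P ⊆ R)
    (v w : ℕ) (hC : 0 ≤ C) (hX : 0 < X) (hδ : 0 < δ) (hδ1 : δ ≤ 1) :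
    (4 * (4 * (C * min 1 ((2 : ℝ) ^ Nat.dist s t * resolvedPart P v w * δ ^ (1 / 20 : ℝ) +
        (2 : ℝ) ^ Nat.dist s t * resolvedPart R v w * δ ^ (58 : ℕ))))) ^ (1 - thT) *
      ((X * min 1 (2 * (2 : ℝ) ^ s / (2 : ℝ) ^ t)) * (X * min 1 (2 * (2 : ℝ) ^ t / (2 : ℝ) ^ s)) /
        ((resolvedPart R v w : ℝ) * resolvedPart R w v)) ^ (1 - thT) ≤
      4 * (16 * C) ^ (1 - thT) * 2 * δ ^ (29 / 2500 : ℝ) * (X ^ 2) ^ (1 - thT) *
        ((1 / 2 : ℝ) ^ ((1 - thT) / 2)) ^ Nat.dist s t *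
        (shiftWt (powT eT) (powT eT) (R \ P) v w * shiftWt (powT fT) (powT fT) P v w) := by
  have hPp : ∀ p ∈ P, p.Prime := fun p hp => hR p (hPR hp)
  have hQp : ∀ p ∈ R \ P, p.Prime := fun p hp => hR p (sdiff_subset hp)
  set n := Nat.dist s t with hn
  set D₀ := (2 : ℝ) ^ n with hD₀
  set Xn : ℝ := ((resolvedPart (R \ P) v w : ℕ) : ℝ) with hXn
  set Xp : ℝ := ((resolvedPart P v w : ℕ) : ℝ) with hXp
  set Yn : ℝ := ((resolvedPart (R \ P) w v : ℕ) : ℝ) with hYn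
  set Yp : ℝ := ((resolvedPart P w v : ℕ) : ℝ) with hYp
  have x1 : 1 ≤ Xn := one_le_resolvedPart hQp _ _
  have x2 : 1 ≤ Xp := one_le_resolvedPart hPp _ _
  have y1 : 1 ≤ Yn := one_le_resolvedPart hQp _ _
  have y2 : 1 ≤ Yp := one_le_resolvedPart hPp _ _
  rw [resolvedPart_split hPR v w, resolvedPart_split hPR w v, ← hXn, ← hXp, ← hYn, ← hYp,
    shiftWt_powT hQp, shiftWt_powT hPp, ← hXn, ← hXp, ← hYn, ← hYp]
  set e : ℝ := 1 - thT with he
  have he0 : 0 < e := by rw [he]; norm_num [thT]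
  have he1 : e ≤ 1 := by rw [he]; norm_num [thT]
  set a := D₀ * Xp * δ ^ (1 / 20 : ℝ)
  set b := D₀ * (Xn * Xp) * δ ^ (58 : ℕ)
  set DD := X * min 1 (2 * (2 : ℝ) ^ s / (2 : ℝ) ^ t) * (X * min 1 (2 * (2 : ℝ) ^ t / (2 : ℝ) ^ s))
  set ρ : ℝ := (1 / 2 : ℝ) ^ (e / 2) with hρ
  have hD01 : 1 ≤ D₀ := one_le_pow₀ one_le_two
  have hDD0 : 0 ≤ DD := by positivity
  have hDD : DD ^ e ≤ 2 * (X ^ 2) ^ e * (ρ ^ n * ρ ^ n) := by
    have h := rpow_le_rpow hDD0 (two_pow_ratio_mul_min (s := s) (t := t) hX.le) he0.le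
    refine h.trans ?_
    rw [mul_rpow (by positivity) (by positivity), mul_rpow zero_le_two (by positivity), ← hn]
    refine mul_le_mul (mul_le_mul_of_nonneg_right (rpow_le_self_of_one_le one_le_two he1) (by positivity))
      (le_of_eq ?_) (by positivity) (by positivity)
    rw [← mul_pow, hρ, ← rpow_add (by norm_num), add_halves, rpow_pow_comm (by norm_num)]
  have hD0ρ : ∀ r : ℝ, r ≤ e / 2 → D₀ ^ r * (ρ ^ n * ρ ^ n) ≤ ρ ^ n := by
    intro r hr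
    have h1 : D₀ ^ r * ρ ^ n ≤ 1 := by
      refine (mul_le_mul_of_nonneg_right (rpow_le_rpow_of_exponent_le hD01 hr) (by positivity)).trans_eq ?_
      rw [hρ, rpow_pow_comm (by norm_num : (0 : ℝ) ≤ 1 / 2), ← mul_rpow (by positivity) (by positivity), hD₀,
        ← mul_pow]
      norm_num
    calc D₀ ^ r * (ρ ^ n * ρ ^ n) = D₀ ^ r * ρ ^ n * ρ ^ n := by ring
      _ ≤ _ := mul_le_of_le_one_left (by positivity) h1
  set sh := Xn ^ (-eT) * Yn ^ (-eT) * (Xp ^ (-fT) * Yp ^ (-fT))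
  have hδe : ∀ r : ℝ, 29 / 2500 ≤ r → δ ^ r ≤ δ ^ (29 / 2500 : ℝ) := fun r hr =>
    rpow_le_rpow_of_exponent_ge hδ hδ1 hr
  set den := (Xn * Xp * (Yn * Yp)) ^ e with hden
  have hden' : den⁻¹ = Xn ^ (-e) * Yn ^ (-e) * (Xp ^ (-e) * Yp ^ (-e)) := by
    rw [hden, ← rpow_neg (by positivity), mul_rpow (by positivity) (by positivity),
      mul_rpow (by positivity) (by positivity), mul_rpow (by positivity) (by positivity)]
    ring
  have hYs : Yn ^ (-e) ≤ Yn ^ (-eT) ∧ Yp ^ (-e) ≤ Yp ^ (-fT) :=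
    ⟨rpow_resolved_le y1 (by norm_num [e, thT, eT]), rpow_resolved_le y2 (by norm_num [e, thT, fT])⟩
  have key : ∀ (r₁ r₂ r₃ : ℝ), r₁ ≤ e / 2 → Xn ^ r₂ * Xn ^ (-e) ≤ Xn ^ (-eT) →
      Xp ^ r₃ * Xp ^ (-e) ≤ Xp ^ (-fT) → ∀ dl : ℝ, 0 ≤ dl → dl ≤ δ ^ (29 / 2500 : ℝ) →
      D₀ ^ r₁ * Xn ^ r₂ * Xp ^ r₃ * dl * (2 * (X ^ 2) ^ e * (ρ ^ n * ρ ^ n)) * den⁻¹ ≤
        2 * δ ^ (29 / 2500 : ℝ) * (X ^ 2) ^ e * ρ ^ n * sh := by
    intro r₁ r₂ r₃ h1 h2 h3 dl hdl hdl'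
    rw [hden']
    calc D₀ ^ r₁ * Xn ^ r₂ * Xp ^ r₃ * dl * (2 * (X ^ 2) ^ e * (ρ ^ n * ρ ^ n)) *
          (Xn ^ (-e) * Yn ^ (-e) * (Xp ^ (-e) * Yp ^ (-e)))
        = 2 * dl * (X ^ 2) ^ e * (D₀ ^ r₁ * (ρ ^ n * ρ ^ n)) *
          ((Xn ^ r₂ * Xn ^ (-e)) * Yn ^ (-e) * ((Xp ^ r₃ * Xp ^ (-e)) * Yp ^ (-e))) := by ring
      _ ≤ _ := by
          have := hD0ρ r₁ h1
          simp only [sh]
          gcongr
          · norm_num [e, thT, eT]
          · norm_num [e, thT, fT]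
  have hca : a ^ (e / 2) * (2 * (X ^ 2) ^ e * (ρ ^ n * ρ ^ n)) * den⁻¹ ≤
      2 * δ ^ (29 / 2500 : ℝ) * (X ^ 2) ^ e * ρ ^ n * sh := by
    have hexp : a ^ (e / 2) = D₀ ^ (e / 2) * Xn ^ (0 : ℝ) * Xp ^ (e / 2) * δ ^ (1 / 20 * (e / 2) : ℝ) := by
      rw [rpow_zero, mul_one, mul_rpow (by positivity) (by positivity),
        mul_rpow (by positivity) (by positivity), ← rpow_mul hδ.le]
    rw [hexp]
    refine key _ _ _ le_rfl ?_ ?_ _ (by positivity) (hδe _ (by norm_num [e, thT]))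
    · rw [rpow_zero, one_mul]; exact rpow_resolved_le x1 (by norm_num [e, thT, eT])
    · rw [← rpow_add (by positivity)]
      exact le_of_eq (by norm_num [e, thT, fT])
  have hcb : b ^ (1 / 5000 : ℝ) * (2 * (X ^ 2) ^ e * (ρ ^ n * ρ ^ n)) * den⁻¹ ≤
      2 * δ ^ (29 / 2500 : ℝ) * (X ^ 2) ^ e * ρ ^ n * sh := by
    have hexp : b ^ (1 / 5000 : ℝ) = D₀ ^ (1 / 5000 : ℝ) * Xn ^ (1 / 5000 : ℝ) * Xp ^ (1 / 5000 : ℝ) *
        δ ^ (((58 : ℕ) : ℝ) * (1 / 5000) : ℝ) := by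
      rw [mul_rpow (by positivity) (by positivity), mul_rpow (by positivity) (by positivity),
        mul_rpow (by positivity) (by positivity), rpow_mul hδ.le, rpow_natCast]
      ring
    rw [hexp]
    refine key _ _ _ (by norm_num [e, thT]) ?_ ?_ _ (by positivity) (hδe _ (by norm_num))
    · rw [← rpow_add (by positivity)]
      exact le_of_eq (by norm_num [e, thT, eT])
    · rw [← rpow_add (by positivity)]
      exact rpow_le_rpow_of_exponent_le x2 (by norm_num [e, thT, fT])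
  have hgain : (4 * (4 * (C * min 1 (a + b)))) ^ e ≤
      (16 * C) ^ e * (2 * (a ^ (e / 2) + b ^ (1 / 5000 : ℝ))) := by
    rw [show 4 * (4 * (C * min 1 (a + b))) = 16 * C * min 1 (a + b) by ring,
      mul_rpow (by positivity) (le_min zero_le_one (by positivity))]
    exact mul_le_mul_of_nonneg_left (gain_interp (by positivity) (by positivity) (by positivity)
      (by linarith) (by linarith) (by norm_num) (by norm_num [e, thT]) (by norm_num)) (by positivity)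
  rw [div_rpow hDD0 (by positivity), div_eq_mul_inv, ← hden]
  refine (mul_le_mul hgain (mul_le_mul_of_nonneg_right hDD (by positivity)) (by positivity)
    (by positivity)).trans ?_
  calc (16 * C) ^ e * (2 * (a ^ (e / 2) + b ^ (1 / 5000 : ℝ))) *
        (2 * (X ^ 2) ^ e * (ρ ^ n * ρ ^ n) * den⁻¹)
      = (16 * C) ^ e * 2 * (a ^ (e / 2) * (2 * (X ^ 2) ^ e * (ρ ^ n * ρ ^ n)) * den⁻¹ +
          b ^ (1 / 5000 : ℝ) * (2 * (X ^ 2) ^ e * (ρ ^ n * ρ ^ n)) * den⁻¹) := by ring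
    _ ≤ (16 * C) ^ e * 2 * (2 * δ ^ (29 / 2500 : ℝ) * (X ^ 2) ^ e * ρ ^ n * sh +
          2 * δ ^ (29 / 2500 : ℝ) * (X ^ 2) ^ e * ρ ^ n * sh) :=
        mul_le_mul_of_nonneg_left (add_le_add hca hcb) (by positivity)
    _ = _ := by ring

/-- Leaf bound for the pairs on a progression whose small denominators are resolved in advance. -/
theorem coin_leaf {σ C₀ : ℝ} (hσ : 0 ≤ σ) (hσ1 : σ < 1) (hC₀ : 0 ≤ C₀) (K : ℕ) :
    ∃ C : ℝ, 0 ≤ C ∧ ∀ (γ : ℝ) (A : ℕ → ℤ) (B : ℕ → ℕ), IsCls γ A B → ∀ (lv : ℕ → ℕ) (S : Finset ℕ),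
      (∀ q ∈ S, TameQ σ C₀ lv q) → ∀ (X : ℝ) (d : ℕ), 0 < X → 0 < d → (X ≤ 1 / 8 ∨ 1 < d) →
      (1 < d → (4 + X + 1 / X) ^ (100 : ℕ) ≤ d) → ∀ (SW P : Finset ℕ), SW ⊆ S →
      (∀ w ∈ SW, (B (lv w) : ℝ) ≤ gainPar X d ^ (-(200 : ℝ)) → (B (lv w)).primeFactors ⊆ P) →
        LeafHyp lv S SW (CoinPair γ A B lv K X d) P X (C * gainPar X d ^ (29 / 2500 : ℝ)) := by
  obtain ⟨Cg, hCg, hgs⟩ := gain_sum hσ hσ1 hC₀ K
  set geo := 1 / (1 - ((4 : ℝ)⁻¹) ^ (1 - thT))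
  have hθ : 1 / 2 < thT := by norm_num [thT]
  have hθ1 : thT < 1 := by norm_num [thT]
  have hgeo0 : 0 ≤ geo := by
    have : ((4 : ℝ)⁻¹) ^ (1 - thT) < 1 := rpow_lt_one (by norm_num) (by norm_num) (by linarith)
    exact div_nonneg zero_le_one (by linarith)
  have hCg' : 0 ≤ Real.exp 1 * Cg := by positivity
  refine ⟨geo * (4 * (16 * (Real.exp 1 * Cg)) ^ (1 - thT) * 2), by positivity,
    fun γ A B h lv S hS X d hX hd hcase hbig SW P hSW hPB => ?_⟩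
  intro s t V W R hV hW hPR hR cV cW N v₀ hv₀ w₀ hw₀
  have hVm : ∀ v ∈ V, v ∈ S ∧ scaleOf lv v = s := fun v hv => mem_filter.1 (hV hv)
  have hWm : ∀ w ∈ W, w ∈ SW ∧ scaleOf lv w = t := fun w hw => mem_filter.1 (hW hw)
  have hVpos : ∀ v ∈ V, 0 < v := fun v hv => (hS v (hVm v hv).1).1
  have hWpos : ∀ w ∈ W, 0 < w := fun w hw => (hS w (hSW (hWm w hw).1)).1
  set dist := Nat.dist s t
  set δ := gainPar X d with hδ
  have hδ0 : 0 < δ := gainPar_pos hX hd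
  set Xr := resolvedPart R v₀ w₀ with hXrdef
  set Xp := resolvedPart P v₀ w₀ with hXpdef
  have hXr : 0 < Xr := resolvedPart_pos hR _ _
  have hPp : ∀ p ∈ P, p.Prime := fun p hp => hR p (hPR hp)
  have hXp : 1 ≤ Xp := resolvedPart_pos hPp _ _
  set D₁ := X * min 1 (2 * (2 : ℝ) ^ s / (2 : ℝ) ^ t)
  set D₂ := X * min 1 (2 * (2 : ℝ) ^ t / (2 : ℝ) ^ s)
  have hD₁ : 0 < D₁ := mul_pos hX (lt_min one_pos (by positivity))
  have hD₂ : 0 < D₂ := mul_pos hX (lt_min one_pos (by positivity))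
  set Γ := Real.exp 1 * Cg * min 1 (gainA X d dist Xp + gainB X d dist Xr)
  have hΓ : 0 ≤ Γ := by
    refine mul_nonneg hCg' (le_min zero_le_one ?_)
    rw [gainA, gainB]; positivity
  have hgain : ∀ Nn : ℕ, 0 < Nn → (∀ p, Nn.factorization p = if p ∈ R then 0 else N p) →
      ∀ (α γ' : ℕ) (F : Finset (ℕ × ℕ)), (∀ x ∈ F, x.1 ∈ V ∧ x.2 ∈ W ∧ Apart R N x.1 x.2 ∧
          (dgap (lv x.1) (lv x.2) x.1 x.2 ≤ X ∧ CoinPair γ A B lv K X d x.1 x.2) ∧
          Nat.log 2 (red (freePart R v₀ x.1) Nn) = α ∧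
          Nat.log 2 (red (freePart R w₀ x.2) Nn) = γ') →
        ∑ x ∈ F, divWeight Nn.primeFactors (red Nn (freePart R v₀ x.1)) *
          divWeight Nn.primeFactors (red Nn (freePart R w₀ x.2)) ≤ Γ * (2 : ℝ) ^ α * (2 : ℝ) ^ γ' := by
    intro Nn hN hNf α γ' F hF
    rcases F.eq_empty_or_nonempty with rfl | hne
    · rw [sum_empty]; positivity
    set Ls := F.image (fun x => lv x.2) with hLs
    have hLne : Ls.Nonempty := hne.image _
    set L₁ := Ls.min' hLne with hL₁def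
    obtain ⟨x₁, hx₁, hx₁L⟩ := mem_image.1 (Ls.min'_mem hLne)
    obtain ⟨hv₁, hw₁, hap₁, ⟨-, hcp₁⟩, -, -⟩ := hF x₁ hx₁
    replace hx₁L : lv x₁.2 = L₁ := hx₁L
    have tv := hS _ (hVm _ hv₁).1
    have tw := hS _ (hSW (hWm _ hw₁).1)
    have hL₁1 : 1 ≤ L₁ := by rw [← hx₁L]; exact tw.2.1
    have hlv₁ : lv x₁.1 ≤ L₁ := by rw [← hx₁L]; exact hcp₁.1
    have hXL : 1 / ((L₁ : ℝ) + 8) ^ K ≤ X := by rw [← hx₁L]; exact hcp₁.2.2.1
    have hdL : (d : ℝ) ≤ ((L₁ : ℝ) + 8) ^ K := by rw [← hx₁L]; exact hcp₁.2.2.2.1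
    have hlogN : log (log ((Nn : ℝ) + 16)) ≤ 1 + C₀ * (L₁ : ℝ) ^ σ := by
      rw [add_comm 1]
      refine loglog_mul_le (v := x₁.1) (w := x₁.2) ?_ ?_ (Nat.le_of_dvd (Nat.mul_pos (hVpos _ hv₁) (hWpos _ hw₁)) ?_)
      · refine tv.2.2.1.trans (mul_le_mul_of_nonneg_left (rpow_le_rpow (Nat.cast_nonneg _) ?_ hσ) hC₀)
        exact_mod_cast hlv₁
      · rw [← hx₁L]; exact tw.2.2.1
      · rw [← Nat.factorization_le_iff_dvd hN.ne' (Nat.mul_pos (hVpos _ hv₁) (hWpos _ hw₁)).ne']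
        intro p
        rw [hNf, Nat.factorization_mul (hVpos _ hv₁).ne' (hWpos _ hw₁).ne', Finsupp.add_apply]
        split
        · exact Nat.zero_le _
        · next hp => rcases hap₁ p hp with h | h <;> omega
    set T := (SW.image lv).filter (fun L => δ ^ (-(200 : ℝ)) < (B L : ℝ)) with hT
    set u : ℕ → ℝ := fun c => min 1 (80 * gainA X d dist Xp +
        (Xr : ℝ) * (∑ z ∈ T.image (fun L => (A L, B L)), √(Nat.gcd c z.2 : ℝ) / √(z.2 : ℝ)) +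
        40 * ((2 : ℝ) ^ dist * (1 + 1 / X) * Xr * (2 : ℝ) ^ (-((L₁ : ℝ) / 8))) +
        (if (2 : ℝ) ^ ((L₁ : ℝ) / 8) < (c : ℝ) then 1 else 0)) with hu
    have hu0 : ∀ c, 0 ≤ u c := fun c => by
      refine le_min zero_le_one ?_
      rw [gainA]
      positivity
    have hsum := hgs γ A B h X d L₁ hX hd hL₁1 hXL hdL Nn hN hlogN T dist Xp Xr hXr
      (fun L hL => (mem_filter.1 hL).2)
    refine (cell_of_blocks hR hVpos hWpos cW hN v₀ w₀ hw₀ α γ' F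
      (fun x hx => ⟨(hF x hx).1, (hF x hx).2.1, (hF x hx).2.2.1, (hF x hx).2.2.2.2.2⟩) u hu0
      fun b w => ?_).trans ?_
    · set Fw := F.filter (fun x => x.2 = w ∧ red Nn (freePart R v₀ x.1) = b) with hFw
      rcases Fw.eq_empty_or_nonempty with he | hne'
      · rw [he, card_empty, Nat.cast_zero]; exact mul_nonneg (by positivity) (hu0 _)
      obtain ⟨y, hy⟩ := hne'
      have hyw : y.2 = w := (mem_filter.1 hy).2.1
      obtain ⟨-, hwW, -⟩ := hF y (filter_subset _ _ hy)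
      rw [hyw] at hwW
      set F₁ := Fw.image Prod.fst with hF₁
      have hcardF : F₁.card = Fw.card := card_image_of_injOn fun a ha c hc hac =>
        Prod.ext hac ((mem_filter.1 ha).2.1.trans (mem_filter.1 hc).2.1.symm)
      obtain ⟨S', G, r₀, -, hScard, hSsub, hGeq, hnon⟩ := block_count (γ := γ) (A := A) (B := B)
        (lv := lv) (K := K) (d := d) (X := X) hR hVpos hWpos cV cW (fun v hv => (hVm v hv).2)
        (fun w hw => (hWm w hw).2) hN hNf hv₀ hw₀ α b w hwW F₁ (fun v hv => by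
          obtain ⟨x, hx, rfl⟩ := mem_image.1 hv
          obtain ⟨hxF, hxw, hxb⟩ := mem_filter.1 hx
          obtain ⟨h1, -, h3, ⟨h4, h5⟩, h6, -⟩ := hF x hxF
          rw [hxw] at h3 h4 h5
          exact ⟨h1, h3, h4, h5, h6, hxb⟩)
      obtain ⟨l, hl, hco, hr₀, hM, hhit⟩ := hnon ⟨y.1, mem_image_of_mem _ hy⟩
      set c := red Nn (freePart R w₀ w) with hc
      have hwS : w ∈ SW := (hWm w hwW).1
      have hcpos : 0 < c := red_pos hN
      have hbl := coin_block h (L₁ := L₁) (dist := dist) (Xp := Xp) (c := c)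
        (Sb := ∑ z ∈ T.image (fun L => (A L, B L)), √(Nat.gcd c z.2 : ℝ) / √(z.2 : ℝ)) (M := 2 ^ α) hl hX hd
        hcase hbig hco hr₀ (by push_cast; exact hM) S' hSsub hhit hGeq hXr hcpos hXp
        (Ls.min'_le _ (mem_image.2 ⟨y, filter_subset _ _ hy, by rw [hyw]⟩)) (sum_nonneg fun _ _ => by positivity)
        (fun hB => ?_) (fun hB => ?_)
      · rw [hScard, hcardF] at hbl
        refine hbl.trans_eq ?_
        push_cast; rfl
      · rw [hGeq]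
        have hsub := hPB w hwS hB
        have hB0 : 0 < B (lv w) := (h _).1
        have hcop : Nat.Coprime c (B (lv w)) := by
          refine Nat.coprime_of_dvd fun p hp h1 h2 => ?_
          have hpR : p ∈ R := hPR (hsub (Nat.mem_primeFactors.2 ⟨hp, h2, hB0.ne'⟩))
          have hcN : c ∣ Nn := Nat.div_dvd_of_dvd (Nat.gcd_dvd_left _ _)
          have := hp.factorization_pos_of_dvd hN.ne' (h1.trans hcN)
          rw [hNf, if_pos hpR] at this
          omega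
        rw [Nat.Coprime.gcd_mul_right_cancel _ hcop]
        refine (gcd_le_primePart hPp hXr hB0 hsub).trans ?_
        rw [hXrdef, primePart_resolvedPart hR hPR]
      · exact single_le_sum (f := fun z : ℤ × ℕ => √(Nat.gcd c z.2 : ℝ) / √(z.2 : ℝ)) (a := (A (lv w), B (lv w)))
          (s := T.image (fun L => (A L, B L))) (fun _ _ => by positivity)
          (mem_image.2 ⟨lv w, (show lv w ∈ T by rw [hT]; exact mem_filter.2 ⟨mem_image_of_mem _ hwS, hB⟩), rfl⟩)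
    · calc Real.exp 1 * (2 : ℝ) ^ α * (2 : ℝ) ^ γ' * ∑ c ∈ Nn.divisors, divWeight Nn.primeFactors c * u c
          ≤ Real.exp 1 * (2 : ℝ) ^ α * (2 : ℝ) ^ γ' *
              (Cg * min 1 (gainA X d dist Xp + gainB X d dist Xr)) :=
            mul_le_mul_of_nonneg_left hsum (by positivity)
        _ = _ := by ring
  have hleaf := gain_leaf hR hVpos hWpos cV cW N (fun q => rad (lv q)) (fun q => rad (lv q))
    (S₁ := (2 : ℝ) ^ s) (S₂ := (2 : ℝ) ^ t) (θ := thT) (by positivity) (by positivity) hD₁ hD₂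
    (fun v hv => by rw [← (hVm v hv).2]; exact scaleOf_spec lv (hVpos v hv))
    (fun w hw => by rw [← (hWm w hw).2]; exact scaleOf_spec lv (hWpos w hw))
    hθ hθ1 hv₀ hw₀ (fun v w => dgap (lv v) (lv w) v w ≤ X ∧ CoinPair γ A B lv K X d v w) hΓ hgain
  refine le_trans (sum_le_sum fun x hx => sum_le_sum fun y hy => ?_) (hleaf.trans ?_)
  · by_cases hev : Apart R N x y ∧ dgap (lv x) (lv y) x y ≤ X ∧ CoinPair γ A B lv K X d x y
    swap
    · rw [if_neg hev]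
      split
      · exact mul_nonneg (mul_nonneg (rad_scale_pos _).le (phiR_nonneg _))
          (mul_nonneg (rad_scale_pos _).le (phiR_nonneg _))
      · exact le_rfl
    rw [if_pos hev]
    obtain ⟨hap, hd', hcp⟩ := hev
    have ha : (red y x : ℝ) * rad (lv x) ≤ X := le_trans (le_max_left _ _) hd'
    have hb' : (red x y : ℝ) * rad (lv y) ≤ X := le_trans (le_max_right _ _) hd'
    have h1 : (red x y : ℝ) * rad (lv y) ≤ D₁ := by
      have := red_rad_le_of_scale lv (hVpos x hx) (hWpos y hy) ha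
      rw [(hVm x hx).2, (hWm y hy).2] at this
      rw [show D₁ = X * min 1 (2 * (2 : ℝ) ^ s / (2 : ℝ) ^ t) from rfl, mul_min_of_nonneg _ _ hX.le, mul_one]
      exact le_min hb' this
    have h2 : (red y x : ℝ) * rad (lv x) ≤ D₂ := by
      have := red_rad_le_of_scale lv (hWpos y hy) (hVpos x hx) hb'
      rw [(hVm x hx).2, (hWm y hy).2] at this
      rw [show D₂ = X * min 1 (2 * (2 : ℝ) ^ t / (2 : ℝ) ^ s) from rfl, mul_min_of_nonneg _ _ hX.le, mul_one]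
      exact le_min ha this
    rw [if_pos ⟨hap, h1, h2, hd', hcp⟩]
    simp only [mass, phiR, le_refl]
  · have hMM : 0 ≤ ((∑ v ∈ V, rad (lv v) * phiR v) * ∑ w ∈ W, rad (lv w) * phiR w) ^ thT :=
      rpow_nonneg (mul_nonneg (sum_nonneg fun v _ => mass_nonneg _ _) (sum_nonneg fun v _ => mass_nonneg _ _)) _
    have hkey := leaf_assemble (s := s) (t := t) hR hPR v₀ w₀ hCg' hX hδ0 (gainPar_le_one hd)
    have := mul_le_mul_of_nonneg_left hkey (mul_nonneg hgeo0 hMM)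
    simp only [gainA, gainB, ← hδ, Γ, mass, dist, D₁, D₂, Xr, Xp] at this ⊢
    refine le_trans (le_of_eq ?_) (this.trans_eq ?_) <;> ring

end Vale.Agent.P028.Tame
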