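import Vale.Agent.P028.Tame.CoinBlock

/-! Scalar facts for the pairs on a progression, and the number of classes by size. -/

namespace Vale.Agent.P028.Tame

open Finset Real
open scoped Classical

/-- The gain parameter of a gap and a modulus. -/
noncomputable def gainPar (X : ℝ) (d : ℕ) : ℝ := min 1 X / d

theorem gainPar_pos {X : ℝ} {d : ℕ} (hX : 0 < X) (hd : 0 < d) : 0 < gainPar X d :=
  div_pos (lt_min one_pos hX) (Nat.cast_pos.2 hd)

theorem gainPar_le_one {X : ℝ} {d : ℕ} (hd : 0 < d) : gainPar X d ≤ 1 := by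
  have h1 : (1 : ℝ) ≤ d := by exact_mod_cast hd
  rw [gainPar, div_le_one (by linarith)]
  exact (min_le_left _ _).trans h1

/-- The main terms of a block in terms of the gain parameter. -/
theorem coin_main_bounds {X : ℝ} {d : ℕ} (hX : 0 < X) (hd : 0 < d) (hcase : X ≤ 1 / 8 ∨ 1 < d)
    (hbig : 1 < d → (4 + X + 1 / X) ^ (100 : ℕ) ≤ d) :
    X / d ≤ gainPar X d ^ (1 / 20 : ℝ) ∧
      ∀ b : ℝ, 1 ≤ b → b ≤ gainPar X d ^ (-(1 / 20) : ℝ) →
        4 * X * b ≤ √(d : ℝ) ∧ (1 < d → 16 * (1 + X) * b ^ (4 : ℕ) ≤ √(d : ℝ)) ∧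
          X * b / √(d : ℝ) ≤ gainPar X d ^ (1 / 20 : ℝ) := by
  set δ := gainPar X d with hδ
  have hδ0 : 0 < δ := gainPar_pos hX hd
  rcases Nat.lt_or_ge 1 d with hd1 | hd1
  swap
  · have hd' : d = 1 := by omega
    have hX8 : X ≤ 1 / 8 := hcase.resolve_right (by omega)
    have hX1 : X ≤ 1 := by linarith
    have hδX : δ = X := by rw [hδ, gainPar, hd', min_eq_right hX1, Nat.cast_one, div_one]
    rw [hδX, hd', Nat.cast_one, Real.sqrt_one, div_one]
    have hXle : X ≤ X ^ (1 / 20 : ℝ) := by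
      simpa using rpow_le_rpow_of_exponent_ge hX hX1 (show (1 / 20 : ℝ) ≤ 1 by norm_num)
    have hmul : X * X ^ (-(1 / 20) : ℝ) = X ^ (19 / 20 : ℝ) := by
      rw [mul_comm, ← rpow_add_one hX.ne']; norm_num
    refine ⟨hXle, fun b hb1 hb => ⟨?_, fun h => absurd h (by omega), ?_⟩⟩
    · have h4 : X * b ≤ X ^ (19 / 20 : ℝ) := (mul_le_mul_of_nonneg_left hb hX.le).trans_eq hmul
      have h5 : X ^ (19 / 20 : ℝ) ≤ (1 / 8 : ℝ) ^ (19 / 20 : ℝ) := rpow_le_rpow hX.le hX8 (by norm_num)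
      have h6 : (1 / 8 : ℝ) ^ (19 / 20 : ℝ) ≤ (1 / 8 : ℝ) ^ (2 / 3 : ℝ) :=
        rpow_le_rpow_of_exponent_ge (by norm_num) (by norm_num) (by norm_num)
      have h7 : (1 / 8 : ℝ) ^ (2 / 3 : ℝ) = 1 / 4 := by
        rw [show (1 / 8 : ℝ) = (1 / 2 : ℝ) ^ ((3 : ℕ) : ℝ) by rw [rpow_natCast]; norm_num,
          ← rpow_mul (by norm_num)]
        norm_num
      linarith
    · rw [div_one]
      refine ((mul_le_mul_of_nonneg_left hb hX.le).trans_eq hmul).trans ?_
      exact rpow_le_rpow_of_exponent_ge hX hX1 (by norm_num)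
  have hd0 : (0 : ℝ) < d := Nat.cast_pos.2 hd
  have hd1R : (1 : ℝ) ≤ d := by exact_mod_cast hd
  set u : ℝ := (d : ℝ) ^ (1 / 100 : ℝ) with hu
  have hpow : ∀ k : ℕ, u ^ k = (d : ℝ) ^ ((k : ℝ) / 100) := fun k => by
    rw [hu, ← rpow_natCast, ← rpow_mul hd0.le]; ring_nf
  have hXi : 0 < 1 / X := by positivity
  have hbase : 4 + X + 1 / X ≤ u := by
    have h := rpow_le_rpow (by positivity) (hbig hd1) (show (0 : ℝ) ≤ 1 / 100 by norm_num)
    rwa [← rpow_natCast, ← rpow_mul (by positivity), show ((100 : ℕ) : ℝ) * (1 / 100) = 1 by norm_num,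
      rpow_one] at h
  have hu4 : 4 ≤ u := by linarith
  have hu1 : 1 ≤ u := by linarith
  have hinvδ : δ⁻¹ ≤ u ^ (101 : ℕ) := by
    have e : u ^ (101 : ℕ) = (d : ℝ) * u := by
      rw [pow_succ, hpow, show (((100 : ℕ) : ℝ) / 100) = 1 by norm_num, rpow_one]
    rw [e, hδ, gainPar, inv_div, div_le_iff₀ (lt_min one_pos hX), mul_assoc]
    refine le_mul_of_one_le_right hd0.le ?_
    rcases le_total 1 X with h | h
    · rw [min_eq_left h]; linarith
    · rw [min_eq_right h]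
      calc (1 : ℝ) = (1 / X) * X := by field_simp
        _ ≤ u * X := mul_le_mul_of_nonneg_right (by linarith) hX.le
  have hδrp : ∀ e : ℝ, 0 ≤ e → δ ^ (-e) ≤ (d : ℝ) ^ ((101 / 100 : ℝ) * e) := by
    intro e he
    rw [rpow_neg hδ0.le, ← inv_rpow hδ0.le]
    refine (rpow_le_rpow (by positivity) hinvδ he).trans_eq ?_
    rw [hpow, ← rpow_mul hd0.le]; norm_num
  have hd20 : (d : ℝ) ^ (-(1 / 10) : ℝ) ≤ δ ^ (1 / 20 : ℝ) := by
    rw [rpow_neg hd0.le, inv_le_comm₀ (by positivity) (by positivity), ← rpow_neg hδ0.le]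
    refine (hδrp _ (by norm_num)).trans (rpow_le_rpow_of_exponent_le hd1R (by norm_num))
  have hsq : √(d : ℝ) = (d : ℝ) ^ (1 / 2 : ℝ) := sqrt_eq_rpow _
  refine ⟨?_, fun b hb1 hb => ?_⟩
  · refine le_trans ?_ hd20
    calc X / d ≤ u / d := div_le_div_of_nonneg_right (by linarith) hd0.le
      _ = (d : ℝ) ^ (-(99 / 100) : ℝ) := by
          rw [hu, ← rpow_sub_one hd0.ne']; norm_num
      _ ≤ _ := rpow_le_rpow_of_exponent_le hd1R (by norm_num)
  have hb' : b ≤ u ^ (6 : ℕ) := by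
    rw [hpow]
    exact (hb.trans (hδrp _ (by norm_num))).trans (rpow_le_rpow_of_exponent_le hd1R (by norm_num))
  have hb0 : 0 ≤ b := by linarith
  have hle : ∀ k : ℕ, k ≤ 50 → u ^ k ≤ √(d : ℝ) := fun k hk => by
    rw [hsq, hpow]
    refine rpow_le_rpow_of_exponent_le hd1R ?_
    have : (k : ℝ) ≤ 50 := by exact_mod_cast hk
    linarith
  refine ⟨?_, fun _ => ?_, ?_⟩
  · refine le_trans ?_ (hle 8 (by norm_num))
    calc 4 * X * b ≤ u * u * u ^ (6 : ℕ) :=
          mul_le_mul (mul_le_mul hu4 (by linarith) hX.le (by linarith)) hb' hb0 (by positivity)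
      _ = _ := by ring
  · refine le_trans ?_ (hle 27 (by norm_num))
    calc 16 * (1 + X) * b ^ (4 : ℕ) ≤ u * u * u * (u ^ (6 : ℕ)) ^ (4 : ℕ) :=
          mul_le_mul (mul_le_mul (by nlinarith) (by linarith) (by linarith) (by positivity))
            (pow_le_pow_left₀ hb0 hb' 4) (by positivity) (by positivity)
      _ = _ := by ring
  · refine le_trans ?_ hd20
    rw [div_le_iff₀ (by positivity), hsq, ← rpow_add hd0]
    calc X * b ≤ u * u ^ (6 : ℕ) := mul_le_mul (by linarith) hb' hb0 (by linarith)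
      _ = (d : ℝ) ^ ((7 : ℕ) / 100 : ℝ) := by rw [← hpow]; ring
      _ ≤ _ := rpow_le_rpow_of_exponent_le hd1R (by norm_num)

/-- Exponential decay in the level beats every power of the gain parameter. -/
theorem coin_decay {σ c : ℝ} (hσ : σ < 1) (hc : 0 < c) (K m : ℕ) :
    ∃ C : ℝ, 0 ≤ C ∧ ∀ (X : ℝ) (d L : ℕ), 0 < X → 0 < d → 1 / ((L : ℝ) + 8) ^ K ≤ X →
      (d : ℝ) ≤ ((L : ℝ) + 8) ^ K →
        (1 + 1 / X) * (2 : ℝ) ^ (-((L : ℝ) / 8)) ≤ C * gainPar X d ^ m ∧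
        Real.exp (-(c * (L : ℝ) ^ (1 - σ))) ≤ C * gainPar X d ^ m := by
  set k := 2 * K * m with hk
  obtain ⟨C₁, hC₁, h1⟩ := poly_mul_two_pow_le (k + K) (show (0 : ℝ) < 1 / 8 by norm_num)
  set n := ⌈1 / (1 - σ)⌉₊ with hn
  obtain ⟨C₂, hC₂, h2⟩ := poly_le_exp (n * k) hc
  refine ⟨2 * 8 ^ (k + K) * C₁ + 16 ^ k * C₂, by positivity, fun X d L hX hd hXL hdL => ?_⟩
  set δ := gainPar X d with hδ
  have hδ0 : 0 < δ := gainPar_pos hX hd
  have hL0 : (0 : ℝ) ≤ L := Nat.cast_nonneg L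
  set P := ((L : ℝ) + 8) ^ K with hP
  have hP1 : 1 ≤ P := one_le_pow₀ (by linarith)
  have hXi : 1 / X ≤ P := (one_div_le hX (by positivity)).2 hXL
  have hinv : δ⁻¹ ≤ P * P := by
    rw [hδ, gainPar, inv_div, div_le_iff₀ (lt_min one_pos hX)]
    rcases le_total 1 X with h | h
    · rw [min_eq_left h, mul_one]
      exact hdL.trans (le_mul_of_one_le_left (by linarith) hP1)
    · rw [min_eq_right h]
      have hPX : 1 ≤ P * X := by rwa [div_le_iff₀ hX] at hXi
      calc (d : ℝ) ≤ P * (P * X) := hdL.trans (le_mul_of_one_le_right (by linarith) hPX)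
        _ = _ := by ring
  have hδm : (δ ^ m)⁻¹ ≤ (8 * (1 + (L : ℝ))) ^ k := by
    rw [← inv_pow]
    refine (pow_le_pow_left₀ (by positivity) hinv m).trans ?_
    rw [hP, ← pow_add, ← pow_mul, show (K + K) * m = k by rw [hk]; ring]
    exact pow_le_pow_left₀ (by linarith) (by linarith) k
  have hto : ∀ a Cc : ℝ, 0 ≤ a → a * (8 * (1 + (L : ℝ))) ^ k ≤ Cc → a ≤ Cc * δ ^ m := by
    intro a Cc ha h
    rw [← div_le_iff₀ (by positivity), div_eq_mul_inv]
    exact (mul_le_mul_of_nonneg_left hδm ha).trans h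
  have hCA : 0 ≤ 2 * 8 ^ (k + K) * C₁ := by positivity
  have hCB : 0 ≤ 16 ^ k * C₂ := by positivity
  constructor
  · refine hto _ _ (by positivity) ?_
    have h3 : 1 + 1 / X ≤ 2 * (8 * (1 + (L : ℝ))) ^ K := by
      have : P ≤ (8 * (1 + (L : ℝ))) ^ K := pow_le_pow_left₀ (by linarith) (by linarith) K
      linarith
    calc (1 + 1 / X) * (2 : ℝ) ^ (-((L : ℝ) / 8)) * (8 * (1 + (L : ℝ))) ^ k
        ≤ 2 * (8 * (1 + (L : ℝ))) ^ K * (2 : ℝ) ^ (-((L : ℝ) / 8)) * (8 * (1 + (L : ℝ))) ^ k := by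
          gcongr
      _ = 2 * 8 ^ (k + K) * ((1 + (L : ℝ)) ^ (k + K) * (2 : ℝ) ^ (-(1 / 8 * (L : ℝ)))) := by
          rw [show -((L : ℝ) / 8) = -(1 / 8 * (L : ℝ)) by ring]
          simp only [mul_pow, pow_add]; ring
      _ ≤ 2 * 8 ^ (k + K) * C₁ := mul_le_mul_of_nonneg_left (h1 _ hL0) (by positivity)
      _ ≤ _ := le_add_of_nonneg_right hCB
  · refine hto _ _ (Real.exp_nonneg _) ?_
    set x := (L : ℝ) ^ (1 - σ) with hx
    have hx0 : 0 ≤ x := by positivity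
    have hLx : 1 + (L : ℝ) ≤ 2 * (1 + x) ^ n := by
      have hs : 0 < 1 - σ := by linarith
      have e : (L : ℝ) = x ^ (1 / (1 - σ)) := by
        rw [hx, ← rpow_mul hL0, show (1 - σ) * (1 / (1 - σ)) = 1 by field_simp, rpow_one]
      have h4 : (L : ℝ) ≤ (1 + x) ^ n := by
        rw [e, ← rpow_natCast (1 + x) n]
        exact (rpow_le_rpow hx0 (by linarith) (by positivity)).trans
          (rpow_le_rpow_of_exponent_le (by linarith) (Nat.le_ceil _))
      have h5 : 1 ≤ (1 + x) ^ n := one_le_pow₀ (by linarith)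
      linarith
    calc Real.exp (-(c * x)) * (8 * (1 + (L : ℝ))) ^ k
        ≤ Real.exp (-(c * x)) * (8 * (2 * (1 + x) ^ n)) ^ k := by gcongr
      _ = 16 ^ k * (Real.exp (-(c * x)) * (1 + x) ^ (n * k)) := by
          rw [pow_mul, ← mul_assoc 8, mul_pow]; norm_num; ring
      _ ≤ 16 ^ k * (Real.exp (-(c * x)) * (C₂ * Real.exp (c * x))) := by
          refine mul_le_mul_of_nonneg_left (mul_le_mul_of_nonneg_left (h2 x hx0) (Real.exp_nonneg _))
            (by positivity)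
      _ = 16 ^ k * C₂ := by
          rw [Real.exp_neg]; field_simp
      _ ≤ _ := le_add_of_nonneg_left hCA

variable {γ : ℝ} {A : ℕ → ℤ} {B : ℕ → ℕ}

/-- At most three classes have denominators of one dyadic size. -/
theorem card_cls_dyadic (h : IsCls γ A B) (T : Finset ℕ) (i : ℕ) :
    ((T.filter (fun L => Nat.log 2 (B L) = i)).image (fun L => (A L, B L))).card ≤ 3 := by
  set T' := T.filter (fun L => Nat.log 2 (B L) = i) with hT'
  rcases T'.eq_empty_or_nonempty with he | hne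
  · rw [he, image_empty, card_empty]; norm_num
  set M := T'.max' hne
  have hMi : Nat.log 2 (B M) = i := (mem_filter.1 (max'_mem _ hne)).2
  have hsub : T'.image (fun L => (A L, B L)) ⊆
      ({M, i, i + 1} : Finset ℕ).image (fun L => (A L, B L)) := by
    intro c hc
    obtain ⟨L, hL, rfl⟩ := mem_image.1 hc
    by_cases hs : SameCls A B L M
    · exact mem_image.2 ⟨M, mem_insert_self _ _, by rw [hs.1, hs.2]⟩
    have hLi : Nat.log 2 (B L) = i := (mem_filter.1 hL).2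
    obtain ⟨-, -, h2, -⟩ := cls_diff h (le_max' _ _ hL) hs
    have h3 : B M < 2 ^ (i + 1) := hMi ▸ Nat.lt_pow_succ_log_self (by norm_num) _
    have h4 : L < i + 2 := (Nat.pow_lt_pow_iff_right (by norm_num : 1 < 2)).1
      (calc 2 ^ L ≤ 2 * B M := h2
        _ < 2 * 2 ^ (i + 1) := by omega
        _ = 2 ^ (i + 2) := (pow_succ' 2 (i + 1)).symm)
    have h5 : i ≤ L := (Nat.pow_le_pow_iff_right (by norm_num : 1 < 2)).1
      ((hLi ▸ Nat.pow_log_le_self 2 (Nat.one_le_iff_ne_zero.1 (h L).1)).trans (h L).2.1)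
    refine mem_image.2 ⟨L, ?_, rfl⟩
    simp only [mem_insert, mem_singleton]
    omega
  exact ((card_le_card hsub).trans card_image_le).trans card_le_three

/-- Negative powers of the denominators are summable over the classes. -/
theorem sum_cls_rpow_le {s : ℝ} (hs : 0 < s) : ∃ C : ℝ, 0 ≤ C ∧
    ∀ (γ : ℝ) (A : ℕ → ℤ) (B : ℕ → ℕ), IsCls γ A B → ∀ T : Finset ℕ,
      ∑ c ∈ T.image (fun L => (A L, B L)), (c.2 : ℝ) ^ (-s) ≤ C := by
  set r := (2 : ℝ) ^ (-s) with hr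
  have hr1 : r < 1 := rpow_lt_one_of_one_lt_of_neg (by norm_num) (by linarith)
  have hr0 : 0 ≤ r := by positivity
  refine ⟨3 * (1 / (1 - r)), mul_nonneg (by norm_num) (div_nonneg zero_le_one (by linarith)),
    fun γ A B h T => ?_⟩
  set cl := T.image (fun L => (A L, B L))
  set I := cl.image (fun c => Nat.log 2 c.2)
  rw [← sum_fiberwise_of_maps_to (t := I) (g := fun c : ℤ × ℕ => Nat.log 2 c.2)
    (fun c hc => mem_image_of_mem _ hc)]
  have hterm : ∀ i ∈ I, ∑ c ∈ cl.filter (fun c => Nat.log 2 c.2 = i), (c.2 : ℝ) ^ (-s) ≤ 3 * r ^ i := by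
    intro i _
    have hc : ∀ c ∈ cl.filter (fun c => Nat.log 2 c.2 = i), (c.2 : ℝ) ^ (-s) ≤ r ^ i := by
      intro c hc
      obtain ⟨hc1, hc2⟩ := mem_filter.1 hc
      obtain ⟨L, -, rfl⟩ := mem_image.1 hc1
      have h2 : ((2 : ℝ) ^ i) ≤ B L := by
        rw [← hc2]
        exact_mod_cast Nat.pow_log_le_self 2 (Nat.one_le_iff_ne_zero.1 (h L).1)
      rw [hr, ← rpow_natCast ((2 : ℝ) ^ (-s)), ← rpow_mul zero_le_two, mul_comm, rpow_mul zero_le_two,
        rpow_natCast]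
      exact rpow_le_rpow_of_nonpos (by positivity) h2 (by linarith)
    refine (sum_le_card_nsmul _ _ _ hc).trans ?_
    rw [nsmul_eq_mul]
    refine mul_le_mul_of_nonneg_right ?_ (pow_nonneg hr0 _)
    have hcard : (cl.filter (fun c => Nat.log 2 c.2 = i)).card ≤ 3 := by
      rw [filter_image]; exact card_cls_dyadic h T i
    exact_mod_cast hcard
  refine (sum_le_sum hterm).trans ?_
  rw [← mul_sum]
  refine mul_le_mul_of_nonneg_left ?_ (by norm_num)
  refine (sum_le_sum_of_subset_of_nonneg (t := range (I.sup id + 1))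
    (fun i hi => mem_range.2 (Nat.lt_succ_of_le (le_sup (f := id) hi))) fun i _ _ => pow_nonneg hr0 _).trans ?_
  rw [range_eq_Ico]
  exact (geom_sum_Ico_le_of_lt_one hr0 hr1).trans_eq (by rw [pow_zero])

/-- Interpolation of a saturated gain. -/
theorem gain_interp {a b e p q : ℝ} (ha : 0 ≤ a) (hb : 0 ≤ b) (hp : 0 < p) (hpe : p ≤ e) (hp1 : p ≤ 1)
    (hq : 0 < q) (hqe : q ≤ e) (hq1 : q ≤ 1) :
    (min 1 (a + b)) ^ e ≤ 2 * (a ^ p + b ^ q) := by
  set m := min 1 (a + b) with hm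
  have hm0 : 0 ≤ m := le_min zero_le_one (by linarith)
  have hm1 : m ≤ 1 := min_le_left _ _
  have hz : ∀ z r : ℝ, 0 ≤ z → 0 < r → r ≤ e → r ≤ 1 → a + b ≤ 2 * z → m ^ e ≤ 2 * z ^ r := by
    intro z r hz hr hre hr1 hab
    refine (rpow_le_rpow_of_exponent_ge' hm0 hm1 hr.le hre).trans ?_
    refine (rpow_le_rpow hm0 ((min_le_right _ _).trans hab) hr.le).trans ?_
    rw [mul_rpow zero_le_two hz]
    exact mul_le_mul_of_nonneg_right (rpow_le_self_of_one_le one_le_two hr1) (by positivity)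
  have h1 : 0 ≤ a ^ p := by positivity
  have h2 : 0 ≤ b ^ q := by positivity
  rcases le_total b a with h | h
  · linarith [hz a p ha hp hpe hp1 (by linarith)]
  · linarith [hz b q hb hq hqe hq1 (by linarith)]

end Vale.Agent.P028.Tame
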