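import Vale.Agent.P028.Tame.CoinLeaf

/-! Pairs on a progression: proof of `CoinPairsStmt`. -/

namespace Vale.Agent.P028.Tame

open Finset Real
open scoped Classical

theorem evSum_split (lv : ℕ → ℕ) (SV SW : Finset ℕ) (D : ℝ) (E : ℕ → ℕ → Prop) (p : ℕ → Prop) :
    evSum lv SV SW D E =
      evSum lv SV (SW.filter p) D E + evSum lv SV (SW.filter (fun w => ¬ p w)) D E := by
  simp only [evSum, ← sum_add_distrib]
  exact sum_congr rfl fun v _ => (sum_filter_add_sum_filter_not SW p _).symm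

theorem evSum_fiber {ι : Type*} [DecidableEq ι] (lv : ℕ → ℕ) (SV SW : Finset ℕ) (D : ℝ)
    (E : ℕ → ℕ → Prop) (f : ℕ → ι) :
    evSum lv SV SW D E = ∑ c ∈ SW.image f, evSum lv SV (SW.filter (fun w => f w = c)) D E := by
  simp only [evSum]
  rw [sum_comm (s := SW.image f)]
  exact sum_congr rfl fun v _ =>
    (sum_fiberwise_of_maps_to (fun w hw => mem_image_of_mem _ hw) _).symm

theorem coinPairs : CoinPairsStmt := by
  intro σ C₀ hσ hσ1 hC₀ K
  obtain ⟨p₀, Cm, hCm, hmaster⟩ := pairs_master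
  obtain ⟨Cl, hCl, hleaf⟩ := coin_leaf hσ hσ1 hC₀ K
  obtain ⟨Cω, hω⟩ := omegaPow cT (1 / 250000) cT_one_le (by norm_num)
  obtain ⟨Cs, hCs, hcls⟩ := sum_cls_rpow_le (show (0 : ℝ) < 1 / 250000 by norm_num)
  have hCω : 0 ≤ Cω := by
    have := hω 1 le_rfl
    simp at this; linarith
  have hcT : 0 ≤ cT := zero_le_one.trans cT_one_le
  set n₀ := (smallPrimes p₀).card
  refine ⟨Cm * cT ^ n₀ * Cl * (1 + Cω * Cs), by positivity,
    fun γ A B h lv S hS X d hX hd hcase hbig => ?_⟩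
  set δ := gainPar X d with hδ
  have hδ0 : 0 < δ := gainPar_pos hX hd
  have hδ1 : δ ≤ 1 := gainPar_le_one hd
  set M := ∑ q ∈ S, mass (lv q) q
  have hM0 : 0 ≤ M := sum_nonneg fun q _ => mass_nonneg _ _
  have hpos : ∀ q ∈ S, 0 < q := fun q hq => (hS q hq).1
  change evSum lv S S X (CoinPair γ A B lv K X d) ≤ _
  have hθ : (0 : ℝ) ≤ thT := by norm_num [thT]
  have hgroup : ∀ (T : Finset ℕ) (P : Finset ℕ), T ⊆ S → smallPrimes p₀ ⊆ P → (∀ p ∈ P, p.Prime) →
      (∀ w ∈ T, (B (lv w) : ℝ) ≤ δ ^ (-(200 : ℝ)) → (B (lv w)).primeFactors ⊆ P) →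
      evSum lv S T X (CoinPair γ A B lv K X d) ≤
        Cm * Cl * δ ^ (29 / 2500 : ℝ) * (X ^ 2) ^ (1 - thT) * M ^ (2 * thT) * cT ^ P.card := by
    intro T P hT hP₀ hP hPB
    refine (hmaster lv S T hpos (fun w hw => hpos w (hT hw)) _ P hP₀ hP X _ hX.le (by positivity)
      (hleaf γ A B h lv S hS X d hX hd hcase hbig T P hT hPB)).trans ?_
    have hMT : ((∑ v ∈ S, mass (lv v) v) * ∑ w ∈ T, mass (lv w) w) ^ thT ≤ M ^ (2 * thT) := by
      rw [two_mul, rpow_add' hM0 (by norm_num [thT]), ← mul_rpow hM0 hM0]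
      refine rpow_le_rpow (mul_nonneg hM0 (sum_nonneg fun q _ => mass_nonneg _ _)) ?_ hθ
      exact mul_le_mul_of_nonneg_left
        (sum_le_sum_of_subset_of_nonneg hT fun q _ _ => mass_nonneg _ _) hM0
    calc Cm * cT ^ P.card * (Cl * δ ^ (29 / 2500 : ℝ)) * (X ^ 2) ^ (1 - thT) *
          ((∑ v ∈ S, mass (lv v) v) * ∑ w ∈ T, mass (lv w) w) ^ thT
        ≤ Cm * cT ^ P.card * (Cl * δ ^ (29 / 2500 : ℝ)) * (X ^ 2) ^ (1 - thT) * M ^ (2 * thT) :=
          mul_le_mul_of_nonneg_left hMT (by positivity)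
      _ = _ := by ring
  set base := Cm * Cl * δ ^ (29 / 2500 : ℝ) * (X ^ 2) ^ (1 - thT) * M ^ (2 * thT)
  have hbase : 0 ≤ base := by positivity
  set big : ℕ → Prop := fun w => δ ^ (-(200 : ℝ)) < (B (lv w) : ℝ)
  rw [evSum_split lv S S X _ big]
  have h1 : evSum lv S (S.filter big) X (CoinPair γ A B lv K X d) ≤ base * cT ^ n₀ :=
    hgroup _ _ (filter_subset _ _) subset_rfl (fun p hp => smallPrimes_prime hp)
      fun w hw hB => absurd hB (not_le.2 (mem_filter.1 hw).2)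
  set S' := S.filter (fun w => ¬ big w) with hS'
  set cl : ℕ → ℤ × ℕ := fun w => (A (lv w), B (lv w))
  have hpow : δ ^ (-(1 / 625) : ℝ) * δ ^ (29 / 2500 : ℝ) = δ ^ (1 / 100 : ℝ) := by
    rw [← rpow_add hδ0]; norm_num
  have h2 : evSum lv S S' X (CoinPair γ A B lv K X d) ≤
      base * cT ^ n₀ * (Cω * Cs) * δ ^ (-(1 / 625) : ℝ) := by
    rw [evSum_fiber lv S S' X _ cl]
    have hterm : ∀ c ∈ S'.image cl,
        evSum lv S (S'.filter (fun w => cl w = c)) X (CoinPair γ A B lv K X d) ≤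
          base * cT ^ n₀ * Cω * δ ^ (-(1 / 625) : ℝ) * (c.2 : ℝ) ^ (-(1 / 250000) : ℝ) := by
      intro c hc
      obtain ⟨w, hw, rfl⟩ := mem_image.1 hc
      obtain ⟨-, hnb⟩ := mem_filter.1 hw
      have hBle : (B (lv w) : ℝ) ≤ δ ^ (-(200 : ℝ)) := not_lt.1 hnb
      have hB0 : 0 < B (lv w) := (h _).1
      refine (hgroup _ (smallPrimes p₀ ∪ (B (lv w)).primeFactors)
        ((filter_subset _ _).trans (filter_subset _ _)) subset_union_left
        (fun p hp => (mem_union.1 hp).elim smallPrimes_prime Nat.prime_of_mem_primeFactors)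
        fun w' hw' _ => ?_).trans ?_
      · obtain ⟨-, he⟩ := mem_filter.1 hw'
        rw [show B (lv w') = B (lv w) from congrArg Prod.snd he]
        exact subset_union_right
      change base * _ ≤ _
      simp only [mul_assoc base]
      refine mul_le_mul_of_nonneg_left ?_ hbase
      refine (pow_le_pow_right₀ cT_one_le (card_union_le _ _)).trans ?_
      rw [pow_add]
      refine (mul_le_mul_of_nonneg_left (hω _ hB0) (by positivity)).trans ?_
      change _ ≤ cT ^ n₀ * Cω * δ ^ (-(1 / 625) : ℝ) * (B (lv w) : ℝ) ^ (-(1 / 250000) : ℝ)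
      rw [mul_assoc, mul_assoc]
      refine mul_le_mul_of_nonneg_left (mul_le_mul_of_nonneg_left ?_ hCω) (by positivity)
      have hBR : (0 : ℝ) < B (lv w) := Nat.cast_pos.2 hB0
      have h3 : (B (lv w) : ℝ) ^ (1 / 125000 : ℝ) ≤ δ ^ (-(1 / 625) : ℝ) := by
        refine (rpow_le_rpow hBR.le hBle (by norm_num)).trans_eq ?_
        rw [← rpow_mul hδ0.le]; norm_num
      refine le_trans (le_of_eq ?_) (mul_le_mul_of_nonneg_right h3 (by positivity))
      rw [← rpow_add hBR]; norm_num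
    refine (sum_le_sum hterm).trans ?_
    rw [← mul_sum]
    have himg : S'.image cl = (S'.image lv).image (fun L => (A L, B L)) := by
      rw [image_image]; rfl
    rw [himg]
    refine (mul_le_mul_of_nonneg_left (hcls γ A B h (S'.image lv)) (by positivity)).trans_eq ?_
    ring
  refine (add_le_add h1 h2).trans ?_
  have h1le : δ ^ (29 / 2500 : ℝ) ≤ δ ^ (1 / 100 : ℝ) :=
    rpow_le_rpow_of_exponent_ge hδ0 hδ1 (by norm_num)
  calc base * cT ^ n₀ + base * cT ^ n₀ * (Cω * Cs) * δ ^ (-(1 / 625) : ℝ)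
      = Cm * cT ^ n₀ * Cl * (X ^ 2) ^ (1 - thT) * M ^ (2 * thT) *
          (δ ^ (29 / 2500 : ℝ) + Cω * Cs * (δ ^ (-(1 / 625) : ℝ) * δ ^ (29 / 2500 : ℝ))) := by ring
    _ ≤ Cm * cT ^ n₀ * Cl * (X ^ 2) ^ (1 - thT) * M ^ (2 * thT) *
          (δ ^ (1 / 100 : ℝ) + Cω * Cs * δ ^ (1 / 100 : ℝ)) := by
        rw [hpow]
        exact mul_le_mul_of_nonneg_left (by linarith) (by positivity)
    _ = _ := by rw [hδ, gainPar]; ring

end Vale.Agent.P028.Tame
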