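import Vale.Agent.P028.Tame.CoinCell
import Vale.Agent.P028.Tame.CoinNum
import Vale.Agent.P028.Modes

/-! The gain of one cell of pairs on a progression. -/

namespace Vale.Agent.P028.Tame

open Finset Real
open scoped Classical

/-- The main gain. -/
noncomputable def gainA (X : ℝ) (d dist Xp : ℕ) : ℝ :=
  (2 : ℝ) ^ dist * Xp * gainPar X d ^ (1 / 20 : ℝ)

/-- The negligible gain. -/
noncomputable def gainB (X : ℝ) (d dist Xr : ℕ) : ℝ :=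
  (2 : ℝ) ^ dist * Xr * gainPar X d ^ (58 : ℕ)

theorem loglog_mul_le {v w : ℕ} {y : ℝ} (hv : log (log ((v : ℝ) + 16)) ≤ y)
    (hw : log (log ((w : ℝ) + 16)) ≤ y) {n : ℕ} (hn : n ≤ v * w) :
    log (log ((n : ℝ) + 16)) ≤ y + 1 := by
  have h1 : ∀ m : ℕ, 1 ≤ log ((m : ℝ) + 16) := fun m => by
    rw [Real.le_log_iff_exp_le (by positivity)]
    have := Real.exp_one_lt_d9; have : (0 : ℝ) ≤ m := Nat.cast_nonneg _
    linarith
  have hnR : (n : ℝ) ≤ (v : ℝ) * w := by exact_mod_cast hn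
  have h2 : log ((n : ℝ) + 16) ≤ log ((v : ℝ) + 16) + log ((w : ℝ) + 16) := by
    rw [← Real.log_mul (by positivity) (by positivity)]
    refine Real.log_le_log (by positivity) ?_
    nlinarith [(Nat.cast_nonneg v : (0 : ℝ) ≤ _), (Nat.cast_nonneg w : (0 : ℝ) ≤ _)]
  have hle : ∀ m : ℕ, log (log ((m : ℝ) + 16)) ≤ y → log ((m : ℝ) + 16) ≤ exp y := fun m hm =>
    (Real.log_le_iff_le_exp (by linarith [h1 m])).1 hm
  rw [Real.log_le_iff_le_exp (by linarith [h1 n]), Real.exp_add]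
  have h3 : (2 : ℝ) ≤ exp 1 := by linarith [Real.exp_one_gt_d9]
  nlinarith [hle v hv, hle w hw, exp_pos y]

theorem gcd_div_le {X c b : ℕ} (hX : 0 < X) (hc : 0 < c) (hb : 0 < b) :
    (Nat.gcd (X * c) b : ℝ) / b ≤ (X : ℝ) * (√(Nat.gcd c b : ℝ) / √(b : ℝ)) := by
  have h1 : Nat.gcd (X * c) b ≤ X * Nat.gcd c b := by
    rw [Nat.gcd_comm (X * c), Nat.gcd_comm c]
    refine (Nat.le_of_dvd (Nat.mul_pos (Nat.gcd_pos_of_pos_left _ hb) (Nat.gcd_pos_of_pos_left _ hb))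
      (Nat.gcd_mul_right_dvd_mul_gcd b X c)).trans ?_
    exact Nat.mul_le_mul_right _ (Nat.gcd_le_right b hX)
  have h1R : (Nat.gcd (X * c) b : ℝ) ≤ (X : ℝ) * Nat.gcd c b := by exact_mod_cast h1
  have hgb : (Nat.gcd c b : ℝ) ≤ b := by exact_mod_cast Nat.gcd_le_right c hb
  have hbR : (0 : ℝ) < b := Nat.cast_pos.2 hb
  refine (div_le_div_of_nonneg_right h1R hbR.le).trans ?_
  rw [mul_div_assoc, ← Real.sqrt_div (Nat.cast_nonneg _)]
  refine mul_le_mul_of_nonneg_left ?_ (Nat.cast_nonneg _)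
  set z := (Nat.gcd c b : ℝ) / b
  have hz0 : 0 ≤ z := by positivity
  have hz1 : z ≤ 1 := (div_le_one hbR).2 hgb
  refine Real.le_sqrt_of_sq_le ?_
  nlinarith

variable {γ : ℝ} {A : ℕ → ℤ} {B : ℕ → ℕ}

/-- One block in terms of the gains. -/
theorem coin_block (h : IsCls γ A B) {d l L L₁ G r₀ M Xr Xp c dist : ℕ} {X Sb : ℝ} (hl : l ≤ L)
    (hX : 0 < X) (hd : 0 < d) (hcase : X ≤ 1 / 8 ∨ 1 < d)
    (hbig : 1 < d → (4 + X + 1 / X) ^ (100 : ℕ) ≤ d) (hco : Nat.Coprime d (B l * B L))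
    (hr₀ : (r₀ : ℝ) ≤ X * (4 : ℝ) ^ l) (hM : X * (4 : ℝ) ^ L ≤ 8 * (2 : ℝ) ^ dist * G * M)
    (S : Finset ℕ) (hS : S ⊆ Ico M (M + M))
    (hhit : ∀ a ∈ S, BlockHit γ A B X d l L G r₀ a ∧ (r₀ : ℝ) ≤ 2 * (2 : ℝ) ^ dist * ((G : ℝ) * a))
    (hG : G = Xr * c) (hXr : 0 < Xr) (hc : 0 < c) (hXp : 1 ≤ Xp) (hL : L₁ ≤ L) (hSb : 0 ≤ Sb)
    (hsmall : (B L : ℝ) ≤ gainPar X d ^ (-(200 : ℝ)) → Nat.gcd G (B L) ≤ Xp)
    (hlarge : gainPar X d ^ (-(200 : ℝ)) < (B L : ℝ) → √(Nat.gcd c (B L) : ℝ) / √(B L : ℝ) ≤ Sb) :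
    (S.card : ℝ) ≤ (M : ℝ) * min 1 (80 * gainA X d dist Xp + (Xr : ℝ) * Sb +
      40 * ((2 : ℝ) ^ dist * (1 + 1 / X) * Xr * (2 : ℝ) ^ (-((L₁ : ℝ) / 8))) +
        (if (2 : ℝ) ^ ((L₁ : ℝ) / 8) < (c : ℝ) then 1 else 0)) := by
  have hM0 : (0 : ℝ) ≤ M := Nat.cast_nonneg _
  have hcard : (S.card : ℝ) ≤ M := by
    have := card_le_card hS
    rw [Nat.card_Ico, Nat.add_sub_cancel_left] at this
    exact_mod_cast this
  set δ := gainPar X d with hδ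
  have hδ0 : 0 < δ := gainPar_pos hX hd
  have hδ1 : δ ≤ 1 := gainPar_le_one hd
  set Dd := (2 : ℝ) ^ dist with hDd
  have hD1 : 1 ≤ Dd := one_le_pow₀ one_le_two
  have hG0 : 0 < G := hG ▸ Nat.mul_pos hXr hc
  obtain ⟨hb1, hb2⟩ := block_bounds h hl hX hd hG0 hD1 hco hr₀ hM S hS hhit
  obtain ⟨hmX, hmB⟩ := coin_main_bounds hX hd hcase hbig
  have hB1 : (1 : ℝ) ≤ B L := (cls_real h L).1
  have hδ20 : 0 ≤ δ ^ (1 / 20 : ℝ) := by positivity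
  have hXpR : (1 : ℝ) ≤ Xp := by exact_mod_cast hXp
  have hDX : 1 ≤ Dd * (Xp : ℝ) := one_le_mul_of_one_le_of_one_le hD1 hXpR
  have hXrSb : 0 ≤ (Xr : ℝ) * Sb := mul_nonneg (Nat.cast_nonneg _) hSb
  have herr : min 1 (40 * Dd * (1 + 1 / X) * ((G : ℝ) ^ 2 / (2 : ℝ) ^ L)) ≤
      40 * (Dd * (1 + 1 / X) * Xr * (2 : ℝ) ^ (-((L₁ : ℝ) / 8))) +
        (if (2 : ℝ) ^ ((L₁ : ℝ) / 8) < (c : ℝ) then 1 else 0) := by
    have hY : (1 : ℝ) ≤ 40 * (1 + 1 / X) := by linarith [show 0 < 1 / X by positivity]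
    have := err_split hD1 hY (c := c) hL hXr
    rw [hG, show 40 * Dd * (1 + 1 / X) = Dd * (40 * (1 + 1 / X)) by ring]
    refine this.trans_eq ?_
    ring
  rw [mul_min_of_nonneg _ _ hM0, mul_one]
  refine le_min hcard ?_
  have hfin : ∀ main : ℝ, main ≤ 80 * gainA X d dist Xp + (Xr : ℝ) * Sb →
      (S.card : ℝ) ≤ M * (main + min 1 (40 * Dd * (1 + 1 / X) * ((G : ℝ) ^ 2 / (2 : ℝ) ^ L))) →
      (S.card : ℝ) ≤ M * (80 * gainA X d dist Xp + (Xr : ℝ) * Sb +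
        40 * (Dd * (1 + 1 / X) * Xr * (2 : ℝ) ^ (-((L₁ : ℝ) / 8))) +
          (if (2 : ℝ) ^ ((L₁ : ℝ) / 8) < (c : ℝ) then 1 else 0)) := fun main hm hle =>
    hle.trans (mul_le_mul_of_nonneg_left (by linarith) hM0)
  rw [gainA, ← hδ, ← hDd] at hfin ⊢
  rcases le_or_gt (B L : ℝ) (δ ^ (-(1 / 20) : ℝ)) with hB | hB
  · obtain ⟨h4, h16, hwin⟩ := hmB _ hB1 hB
    refine hfin _ ?_ (hb2 h4 h16)
    have e : 72 * Dd * X * B L / √(d : ℝ) = 72 * Dd * (X * B L / √(d : ℝ)) := by ring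
    rw [e]
    have h5 : Dd * (X * B L / √(d : ℝ)) ≤ Dd * Xp * δ ^ (1 / 20 : ℝ) := by
      calc Dd * (X * B L / √(d : ℝ)) ≤ Dd * (1 * δ ^ (1 / 20 : ℝ)) := by
            rw [one_mul]; exact mul_le_mul_of_nonneg_left hwin (by positivity)
        _ ≤ Dd * ((Xp : ℝ) * δ ^ (1 / 20 : ℝ)) := by gcongr
        _ = _ := by ring
    have : 0 ≤ Dd * (Xp : ℝ) * δ ^ (1 / 20 : ℝ) := by positivity
    linarith
  refine hfin _ ?_ hb1
  have hA1 : δ ^ (1 / 20 : ℝ) ≤ Dd * Xp * δ ^ (1 / 20 : ℝ) := le_mul_of_one_le_left hδ20 hDX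
  have h4X : 4 * X / d ≤ 4 * (Dd * Xp * δ ^ (1 / 20 : ℝ)) := by
    rw [mul_div_assoc]; linarith
  have hA0 : 0 ≤ Dd * (Xp : ℝ) * δ ^ (1 / 20 : ℝ) := by positivity
  rcases le_or_gt (B L : ℝ) (δ ^ (-(200 : ℝ))) with hZ | hZ
  · have hinv : ((B L : ℝ))⁻¹ ≤ δ ^ (1 / 20 : ℝ) := by
      rw [inv_le_comm₀ (by linarith) (by positivity), ← rpow_neg hδ0.le]
      exact hB.le
    have hg : (Nat.gcd G (B L) : ℝ) / B L ≤ Dd * Xp * δ ^ (1 / 20 : ℝ) := by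
      rw [div_eq_mul_inv]
      calc (Nat.gcd G (B L) : ℝ) * (B L : ℝ)⁻¹ ≤ (Xp : ℝ) * δ ^ (1 / 20 : ℝ) :=
            mul_le_mul (by exact_mod_cast hsmall hZ) hinv (by positivity) (Nat.cast_nonneg _)
        _ ≤ _ := mul_le_mul_of_nonneg_right (le_mul_of_one_le_left (Nat.cast_nonneg _) hD1) hδ20
    linarith
  · have hg : (Nat.gcd G (B L) : ℝ) / B L ≤ (Xr : ℝ) * Sb := by
      rw [hG]
      exact (gcd_div_le hXr hc (h L).1).trans (mul_le_mul_of_nonneg_left (hlarge hZ) (Nat.cast_nonneg _))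
    linarith

/-- The weighted gain over the deficits of a cell. -/
theorem gain_sum {σ C₀ : ℝ} (hσ : 0 ≤ σ) (hσ1 : σ < 1) (hC₀ : 0 ≤ C₀) (K : ℕ) :
    ∃ C : ℝ, 1 ≤ C ∧ ∀ (γ : ℝ) (A : ℕ → ℤ) (B : ℕ → ℕ), IsCls γ A B → ∀ (X : ℝ) (d L₁ : ℕ),
      0 < X → 0 < d → 1 ≤ L₁ → 1 / ((L₁ : ℝ) + 8) ^ K ≤ X → (d : ℝ) ≤ ((L₁ : ℝ) + 8) ^ K →
      ∀ Nn : ℕ, 0 < Nn → log (log ((Nn : ℝ) + 16)) ≤ 1 + C₀ * (L₁ : ℝ) ^ σ →
      ∀ (T : Finset ℕ) (dist Xp Xr : ℕ), 0 < Xr →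
        (∀ L ∈ T, gainPar X d ^ (-(200 : ℝ)) < (B L : ℝ)) →
        ∑ c ∈ Nn.divisors, divWeight Nn.primeFactors c *
          min 1 (80 * gainA X d dist Xp +
            (Xr : ℝ) * (∑ z ∈ T.image (fun L => (A L, B L)), √(Nat.gcd c z.2 : ℝ) / √(z.2 : ℝ)) +
            40 * ((2 : ℝ) ^ dist * (1 + 1 / X) * Xr * (2 : ℝ) ^ (-((L₁ : ℝ) / 8))) +
            (if (2 : ℝ) ^ ((L₁ : ℝ) / 8) < (c : ℝ) then 1 else 0)) ≤
          C * min 1 (gainA X d dist Xp + gainB X d dist Xr) := by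
  set η := (1 - σ) / 2 with hη
  have hη0 : 0 < η := by rw [hη]; linarith
  set σ' := σ * (1 + η) with hσ'
  have hσ'1 : σ' < 1 := by rw [hσ', hη]; nlinarith
  set cc := Real.log 2 / (32 * (2 + C₀) ^ (1 + η)) with hcc
  have hcc0 : 0 < cc := by rw [hcc]; have := Real.log_pos (one_lt_two (α := ℝ)); positivity
  obtain ⟨Cd, hCd, hdecay⟩ := coin_decay hσ'1 hcc0 K 58
  obtain ⟨Ct, hCt, htail⟩ := sum_divWeight_tail η hη0
  obtain ⟨Cω, hω⟩ := omegaPow 4 (1 / 5) (by norm_num) (by norm_num)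
  obtain ⟨Cs, hCs, hcls⟩ := sum_cls_rpow_le (show (0 : ℝ) < 1 / 100 by norm_num)
  have hCω : 0 ≤ Cω := by
    have := hω 1 le_rfl
    simp at this; linarith
  have he1 : (1 : ℝ) ≤ Real.exp 1 := Real.one_le_exp zero_le_one
  set C₁ := 80 + Cω * Cs + 40 * Cd + Ct * Cd
  have hC₁ : 1 ≤ C₁ := by
    linarith [mul_nonneg hCω hCs, mul_nonneg hCt hCd]
  refine ⟨Real.exp 1 * C₁, one_le_mul_of_one_le_of_one_le he1 hC₁,
    fun γ A B h X d L₁ hX hd hL₁ hXL hdL Nn hN hlog T dist Xp Xr hXr hT => ?_⟩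
  set δ := gainPar X d with hδ
  have hδ0 : 0 < δ := gainPar_pos hX hd
  set P := Nn.primeFactors with hP
  have hPp : ∀ p ∈ P, p.Prime := fun p hp => Nat.prime_of_mem_primeFactors hp
  have hBs : ∀ b ∈ Nn.divisors, 0 < b ∧ b.primeFactors ⊆ P ∧ ∀ p ∈ P, b.factorization p ≤ Nn.factorization p :=
    fun b hb => ⟨Nat.pos_of_mem_divisors hb, Nat.primeFactors_mono (Nat.mem_divisors.1 hb).1 hN.ne',
      fun p _ => (Nat.factorization_le_iff_dvd (Nat.pos_of_mem_divisors hb).ne' hN.ne').2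
        (Nat.mem_divisors.1 hb).1 p⟩
  have hw : ∀ c, 0 ≤ divWeight P c := divWeight_nonneg hPp
  have htot := sum_divWeight_le hPp (fun p => Nn.factorization p) _ hBs
  obtain ⟨hd1, hd2⟩ := hdecay X d L₁ hX hd hXL hdL
  set a := gainA X d dist Xp with ha
  set b := gainB X d dist Xr with hb
  have ha0 : 0 ≤ a := by rw [ha, gainA]; positivity
  have hXrR : (1 : ℝ) ≤ Xr := by exact_mod_cast hXr
  have hDd : (1 : ℝ) ≤ (2 : ℝ) ^ dist := one_le_pow₀ one_le_two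
  have hb0 : δ ^ 58 ≤ b := by
    rw [hb, gainB, ← hδ]
    exact le_mul_of_one_le_left (by positivity) (one_le_mul_of_one_le_of_one_le hDd hXrR)
  have hb00 : 0 ≤ b := le_trans (by positivity) hb0
  set cl := T.image (fun L => (A L, B L)) with hcl
  rw [mul_assoc (Real.exp 1) C₁, mul_min_of_nonneg _ _ (by linarith : (0 : ℝ) ≤ C₁), mul_min_of_nonneg _ _ (by linarith :
    (0 : ℝ) ≤ Real.exp 1), mul_one]
  refine le_min ?_ ?_
  · refine (sum_le_sum fun c _ => mul_le_of_le_one_right (hw c) (min_le_left _ _)).trans (htot.trans ?_)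
    exact le_mul_of_one_le_right (by linarith) hC₁
  refine (sum_le_sum fun c _ => mul_le_mul_of_nonneg_left (min_le_right _ _) (hw c)).trans ?_
  simp only [mul_add (divWeight P _), sum_add_distrib]
  have t1 : ∑ c ∈ Nn.divisors, divWeight P c * (80 * a) ≤ Real.exp 1 * (80 * a) := by
    rw [← sum_mul]; exact mul_le_mul_of_nonneg_right htot (by positivity)
  have t3 : ∑ c ∈ Nn.divisors,
      divWeight P c * (40 * ((2 : ℝ) ^ dist * (1 + 1 / X) * Xr * (2 : ℝ) ^ (-((L₁ : ℝ) / 8)))) ≤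
      Real.exp 1 * (40 * Cd * b) := by
    rw [← sum_mul]
    refine mul_le_mul htot ?_ (by positivity) (Real.exp_nonneg _)
    have := mul_le_mul_of_nonneg_left hd1 (show 0 ≤ 40 * ((2 : ℝ) ^ dist * Xr) by positivity)
    rw [hb, gainB]
    calc 40 * ((2 : ℝ) ^ dist * (1 + 1 / X) * Xr * (2 : ℝ) ^ (-((L₁ : ℝ) / 8)))
        = 40 * ((2 : ℝ) ^ dist * Xr) * ((1 + 1 / X) * (2 : ℝ) ^ (-((L₁ : ℝ) / 8))) := by ring
      _ ≤ _ := this
      _ = _ := by ring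
  have t4 : ∑ c ∈ Nn.divisors, divWeight P c *
      (if (2 : ℝ) ^ ((L₁ : ℝ) / 8) < (c : ℝ) then 1 else 0) ≤ Real.exp 1 * (Ct * Cd * b) := by
    have hT0 : (0 : ℝ) < (2 : ℝ) ^ ((L₁ : ℝ) / 8) := by positivity
    have hy0 : 0 ≤ 1 + C₀ * (L₁ : ℝ) ^ σ := by positivity
    have h := htail P hPp (fun p => Nn.factorization p) Nn.divisors hBs Nn _ ((2 : ℝ) ^ ((L₁ : ℝ) / 8))
      hN subset_rfl hlog hy0
    rw [if_neg (not_le.2 hT0), add_zero] at h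
    simp only [mul_ite, mul_one, mul_zero]
    refine h.trans ?_
    have hL1R : (1 : ℝ) ≤ L₁ := by exact_mod_cast hL₁
    have hexp : Real.exp (-(Real.log ((2 : ℝ) ^ ((L₁ : ℝ) / 8)) /
        (4 * (1 + (1 + C₀ * (L₁ : ℝ) ^ σ)) ^ (1 + η)))) ≤ Real.exp (-(cc * (L₁ : ℝ) ^ (1 - σ'))) := by
      refine Real.exp_le_exp.2 (neg_le_neg ?_)
      rw [Real.log_rpow two_pos]
      set z := (1 + (1 + C₀ * (L₁ : ℝ) ^ σ)) ^ (1 + η)
      have hz0 : 0 < z := by positivity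
      have hz : z ≤ (2 + C₀) ^ (1 + η) * (L₁ : ℝ) ^ σ' := by
        rw [hσ', rpow_mul (by linarith), ← mul_rpow (by positivity) (by positivity)]
        refine rpow_le_rpow (by positivity) ?_ (by linarith)
        have : 1 ≤ (L₁ : ℝ) ^ σ := one_le_rpow hL1R hσ
        linarith
      rw [le_div_iff₀ (by positivity)]
      calc cc * (L₁ : ℝ) ^ (1 - σ') * (4 * z)
          ≤ cc * (L₁ : ℝ) ^ (1 - σ') * (4 * ((2 + C₀) ^ (1 + η) * (L₁ : ℝ) ^ σ')) := by gcongr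
        _ = cc * (4 * (2 + C₀) ^ (1 + η)) * ((L₁ : ℝ) ^ (1 - σ') * (L₁ : ℝ) ^ σ') := by ring
        _ = _ := by
            rw [← rpow_add (by linarith), sub_add_cancel, rpow_one, hcc]
            field_simp; ring
    calc Ct * Real.exp (-(Real.log ((2 : ℝ) ^ ((L₁ : ℝ) / 8)) /
          (4 * (1 + (1 + C₀ * (L₁ : ℝ) ^ σ)) ^ (1 + η))))
        ≤ Ct * (Cd * δ ^ 58) := mul_le_mul_of_nonneg_left (hexp.trans hd2) hCt
      _ ≤ Ct * (Cd * b) := by gcongr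
      _ ≤ Real.exp 1 * (Ct * Cd * b) := by
          rw [← mul_assoc]; exact le_mul_of_one_le_left (by positivity) he1
  have t2 : ∑ c ∈ Nn.divisors, divWeight P c *
      ((Xr : ℝ) * ∑ z ∈ cl, √(Nat.gcd c z.2 : ℝ) / √(z.2 : ℝ)) ≤ Real.exp 1 * (Cω * Cs * b) := by
    calc ∑ c ∈ Nn.divisors, divWeight P c * ((Xr : ℝ) * ∑ z ∈ cl, √(Nat.gcd c z.2 : ℝ) / √(z.2 : ℝ))
        = (Xr : ℝ) * ∑ z ∈ cl, (∑ c ∈ Nn.divisors, divWeight P c * √(Nat.gcd c z.2 : ℝ)) / √(z.2 : ℝ) := by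
          simp only [mul_sum, sum_div]
          rw [sum_comm]
          exact sum_congr rfl fun z _ => sum_congr rfl fun c _ => by ring
      _ ≤ (Xr : ℝ) * ∑ z ∈ cl, Real.exp 1 * (Cω * δ ^ 58 * (z.2 : ℝ) ^ (-(1 / 100) : ℝ)) := by
          refine mul_le_mul_of_nonneg_left (sum_le_sum fun z hz => ?_) (Nat.cast_nonneg _)
          obtain ⟨L, hL, rfl⟩ := mem_image.1 hz
          have hB0 : 0 < B L := (h L).1
          have hBR : (0 : ℝ) < B L := Nat.cast_pos.2 hB0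
          have h1 := sum_divWeight_gcd_le hPp (fun p => Nn.factorization p) _ hBs hB0
          rw [div_le_iff₀ (by positivity)]
          refine h1.trans ?_
          rw [mul_assoc]
          refine mul_le_mul_of_nonneg_left ((hω (B L) hB0).trans ?_) (Real.exp_nonneg _)
          rw [mul_assoc, mul_assoc]
          refine mul_le_mul_of_nonneg_left ?_ hCω
          rw [sqrt_eq_rpow, ← rpow_add hBR]
          have hlow : (B L : ℝ) ^ (-(29 / 100) : ℝ) ≤ δ ^ 58 := by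
            refine (rpow_le_rpow_of_nonpos (by positivity) (hT L hL).le (by norm_num)).trans_eq ?_
            rw [← rpow_mul hδ0.le, ← rpow_natCast]; norm_num
          calc (B L : ℝ) ^ (1 / 5 : ℝ)
              = (B L : ℝ) ^ (-(29 / 100) : ℝ) * (B L : ℝ) ^ (-(1 / 100) + 1 / 2 : ℝ) := by
                rw [← rpow_add hBR]; norm_num
            _ ≤ _ := mul_le_mul_of_nonneg_right hlow (by positivity)
      _ ≤ (Xr : ℝ) * (Real.exp 1 * (Cω * δ ^ 58 * Cs)) := by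
          rw [← mul_sum, ← mul_sum]
          gcongr
          exact hcls γ A B h T
      _ ≤ _ := by
          rw [hb, gainB, ← hδ]
          calc (Xr : ℝ) * (Real.exp 1 * (Cω * δ ^ 58 * Cs))
              = Real.exp 1 * (Cω * Cs * (1 * (Xr : ℝ) * δ ^ 58)) := by ring
            _ ≤ _ := by gcongr
  refine (add_le_add (add_le_add (add_le_add t1 t2) t3) t4).trans ?_
  have hC2 : 80 * a + Cω * Cs * b + 40 * Cd * b + Ct * Cd * b ≤ C₁ * a + C₁ * b := by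
    have h1 : 0 ≤ (C₁ - 80) * a := mul_nonneg (by linarith [mul_nonneg hCω hCs, mul_nonneg hCt hCd]) ha0
    have h2 : 0 ≤ 80 * b := by positivity
    simp only [C₁] at h1 ⊢
    linarith
  have := mul_le_mul_of_nonneg_left hC2 (Real.exp_nonneg 1)
  linarith

end Vale.Agent.P028.Tame
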