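import Vale.Agent.P028.Tame.Stmts

/-! Consequences of the split theorem: a loss in `log log q` only, and none for small functions. -/

namespace Vale.Agent.P028.Tame

open MeasureTheory Finset Real
open scoped Classical

theorem one_le_loglog (q : ℕ) : 1 ≤ log (log ((q : ℝ) + 16)) := by
  have h16 : (2.7725 : ℝ) ≤ log ((q : ℝ) + 16) := by
    refine le_trans ?_ (Real.log_le_log (by norm_num) (show (16 : ℝ) ≤ (q : ℝ) + 16 by linarith [(Nat.cast_nonneg q : (0 : ℝ) ≤ q)]))
    rw [show (16 : ℝ) = 2 ^ 4 by norm_num, Real.log_pow]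
    have := Real.log_two_gt_d9
    push_cast; linarith
  rw [Real.le_log_iff_exp_le (by linarith)]
  linarith [Real.exp_one_lt_d9]

/-- A power of `log log q` is the only loss. -/
theorem loglog_loss (h : SplitIDSStmt) (γ : ℝ) (ψ : ℕ → ℝ) (ε : ℝ) (hψ : ∀ q, 0 ≤ ψ q) (hε : 0 < ε)
    (hdiv : ¬ Summable (fun q : ℕ => (Nat.totient q : ℝ) * ψ q /
      ((q : ℝ) * log (log ((q : ℝ) + 16)) ^ ε))) :
    ∀ᵐ x : ℝ, {q : ℕ | 0 < q ∧ ∃ a : ℤ, |(q : ℝ) * x - a - γ| < ψ q}.Infinite := by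
  refine h γ ψ (ε / 2) 1 hψ (by linarith) one_pos fun hs => hdiv ?_
  set c := (3 : ℝ) ^ (ε / 2) with hc
  have hc1 : 1 ≤ c := one_le_rpow (by norm_num) (by linarith)
  refine Summable.of_nonneg_of_le (fun q => ?_) (fun q => ?_) (hs.mul_left c)
  · exact div_nonneg (mul_nonneg (Nat.cast_nonneg _) (hψ q)) (mul_nonneg (Nat.cast_nonneg _)
      (rpow_nonneg (by linarith [one_le_loglog q]) _))
  rcases Nat.eq_zero_or_pos q with rfl | hq
  · simp
  rcases eq_or_lt_of_le (hψ q) with h0 | h0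
  · rw [← h0]; simp
  set LL := log (log ((q : ℝ) + 16))
  have hLL : 1 ≤ LL := one_le_loglog q
  set T := exp (-(LL ^ ((1 : ℝ) + 1))) with hT
  set wt : ℝ := if ψ q ≤ T then 1 else log (3 + 1 / ψ q) ^ (ε / 2) with hw
  have hlog : 0 < log (3 + 1 / ψ q) := Real.log_pos (by linarith [show 0 < 1 / ψ q by positivity])
  have hw0 : 0 < wt := by rw [hw]; split <;> positivity
  have hwle : wt ≤ c * LL ^ ε := by
    have hLε : 1 ≤ LL ^ ε := one_le_rpow hLL hε.le
    rw [hw]
    split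
    · nlinarith
    · next hbig =>
      rw [not_le] at hbig
      have h1 : 1 / ψ q ≤ exp (LL ^ ((1 : ℝ) + 1)) := by
        rw [one_div_le h0 (exp_pos _)]
        refine le_trans (le_of_eq ?_) hbig.le
        rw [hT, exp_neg, one_div]
      have h2 : log (3 + 1 / ψ q) ≤ 3 * LL ^ ((1 : ℝ) + 1) := by
        have hp : 1 ≤ LL ^ ((1 : ℝ) + 1) := one_le_rpow hLL (by norm_num)
        have he : 1 ≤ exp (LL ^ ((1 : ℝ) + 1)) := one_le_exp (by linarith)
        calc log (3 + 1 / ψ q) ≤ log (4 * exp (LL ^ ((1 : ℝ) + 1))) :=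
              log_le_log (by positivity) (by
                generalize exp (LL ^ ((1 : ℝ) + 1)) = z at h1 he ⊢
                generalize 1 / ψ q = y at h1 ⊢
                linarith)
          _ = log 4 + LL ^ ((1 : ℝ) + 1) := by rw [log_mul (by norm_num) (exp_ne_zero _), log_exp]
          _ ≤ _ := by
              have : log 4 ≤ 2 := by
                rw [show (4 : ℝ) = 2 ^ 2 by norm_num, log_pow]
                have := Real.log_two_lt_d9
                push_cast; linarith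
              linarith
      refine (rpow_le_rpow hlog.le h2 (by linarith)).trans_eq ?_
      rw [mul_rpow (by norm_num) (by positivity), ← rpow_mul (by linarith), hc]
      ring_nf
  change _ ≤ c * ((Nat.totient q : ℝ) * ψ q / ((q : ℝ) * wt))
  have hqR : (0 : ℝ) < q := Nat.cast_pos.2 hq
  have hLp : 0 < LL ^ ε := rpow_pos_of_pos (by linarith) _
  rw [mul_div_assoc', div_le_div_iff₀ (by positivity) (by positivity)]
  calc (Nat.totient q : ℝ) * ψ q * ((q : ℝ) * wt) ≤ (Nat.totient q : ℝ) * ψ q * ((q : ℝ) * (c * LL ^ ε)) := by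
        refine mul_le_mul_of_nonneg_left (mul_le_mul_of_nonneg_left hwle hqR.le) ?_
        exact mul_nonneg (Nat.cast_nonneg _) h0.le
    _ = _ := by ring

/-- No loss for functions below the threshold. -/
theorem no_loss_small (h : SplitIDSStmt) (γ : ℝ) (ψ : ℕ → ℝ) (δ : ℝ) (hψ : ∀ q, 0 ≤ ψ q) (hδ : 0 < δ)
    (hsmall : ∀ q : ℕ, ψ q ≤ exp (-(log (log ((q : ℝ) + 16)) ^ (1 + δ))))
    (hdiv : ¬ Summable (fun q : ℕ => (Nat.totient q : ℝ) * ψ q / q)) :
    ∀ᵐ x : ℝ, {q : ℕ | 0 < q ∧ ∃ a : ℤ, |(q : ℝ) * x - a - γ| < ψ q}.Infinite := by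
  refine h γ ψ 1 δ hψ one_pos hδ fun hs => hdiv ?_
  refine hs.congr fun q => ?_
  rw [if_pos (hsmall q), mul_one]

end Vale.Agent.P028.Tame
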