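import Vale.Agent.P028.Tame.Stmts

/-! Pairs with a prescribed divisor of one reduced entry. -/

namespace Vale.Agent.P028.Tame

open Finset Real
open scoped Classical

theorem half_pow_rpow_le (n : ℕ) {a b : ℝ} (ha : a ≤ b) :
    ((1 / 2 : ℝ) ^ n) ^ b ≤ ((1 / 2 : ℝ) ^ a) ^ n := by
  rw [← rpow_natCast (1 / 2 : ℝ) n, ← rpow_natCast ((1 / 2 : ℝ) ^ a) n, ← rpow_mul (by norm_num),
    ← rpow_mul (by norm_num)]
  exact rpow_le_rpow_of_exponent_ge (by norm_num) (by norm_num)
    (by rw [mul_comm a]; exact mul_le_mul_of_nonneg_left ha (Nat.cast_nonneg n))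

/-- Splitting the resolved parts between the two exponents, keeping a power of a divisor. -/
theorem split_resolved {Xt Yt Xp Yp d : ℝ} (hXt : 1 ≤ Xt) (hYt : 1 ≤ Yt) (hXp : 1 ≤ Xp) (hYp : 1 ≤ Yp)
    (hd : 0 < d) (hdX : d ≤ Xp) :
    (Xt * Xp * (Yt * Yp)) ^ (-(1 - thT)) ≤
      d ^ (-(1 / 5 : ℝ)) * ((Xt ^ (-eT) * Yt ^ (-eT)) * (Xp ^ (-fT) * Yp ^ (-fT))) := by
  have h1 : ∀ {x : ℝ} {c : ℝ}, 1 ≤ x → c ≤ 1 - thT → x ^ (-(1 - thT)) ≤ x ^ (-c) := fun hx hc =>
    rpow_le_rpow_of_exponent_le hx (by linarith)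
  have hp : Xp ^ (-(1 - thT)) ≤ d ^ (-(1 / 5 : ℝ)) * Xp ^ (-fT) := by
    refine (rpow_le_rpow_of_exponent_le hXp
      (by norm_num [thT, fT] : -(1 - thT) ≤ -(1 / 5 : ℝ) + -fT)).trans ?_
    rw [rpow_add (by linarith)]
    exact mul_le_mul_of_nonneg_right (rpow_le_rpow_of_nonpos hd hdX (by norm_num)) (by positivity)
  rw [mul_rpow (by positivity) (by positivity), mul_rpow (x := Xt) (by linarith) (by linarith),
    mul_rpow (x := Yt) (by linarith) (by linarith)]
  calc Xt ^ (-(1 - thT)) * Xp ^ (-(1 - thT)) * (Yt ^ (-(1 - thT)) * Yp ^ (-(1 - thT)))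
      ≤ Xt ^ (-eT) * (d ^ (-(1 / 5 : ℝ)) * Xp ^ (-fT)) * (Yt ^ (-eT) * Yp ^ (-fT)) := by
        refine mul_le_mul (mul_le_mul (h1 hXt (by norm_num [thT, eT])) hp (by positivity) (by positivity))
          (mul_le_mul (h1 hYt (by norm_num [thT, eT])) (h1 hYp (by norm_num [thT, fT])) (by positivity)
            (by positivity)) (by positivity) (by positivity)
    _ = _ := by ring

theorem divPairs : DivPairsStmt := by
  obtain ⟨p₀, C, hC, hmaster⟩ := pairs_master
  set P₀ := smallPrimes p₀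
  set Cl : ℝ := (16 * exp 1 * exp 1) ^ (1 - thT) * (1 / (1 - ((4 : ℝ)⁻¹) ^ (1 - thT))) with hCl
  have hth : 0 < 1 - thT := by norm_num [thT]
  have hCl0 : 0 ≤ Cl := by
    have : ((4 : ℝ)⁻¹) ^ (1 - thT) < 1 := rpow_lt_one (by norm_num) (by norm_num) hth
    exact mul_nonneg (by positivity) (div_nonneg zero_le_one (by linarith))
  have hc0 : 0 ≤ cT := zero_le_one.trans cT_one_le
  refine ⟨C * cT ^ P₀.card * (2 * Cl), cT, by positivity, cT_one_le,
    fun lv SV SW hSV hSW D d hD hd => ?_⟩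
  set P := P₀ ∪ d.primeFactors with hPdef
  have hP : ∀ p ∈ P, p.Prime := fun p hp => by
    rcases mem_union.1 hp with h | h
    · exact smallPrimes_prime h
    · exact Nat.prime_of_mem_primeFactors h
  set G := 2 * Cl * (d : ℝ) ^ (-(1 / 5 : ℝ)) with hG
  have hG0 : 0 ≤ G := by positivity
  have hleaf : LeafHyp lv SV SW (fun v w => d ∣ red v w) P D G := by
    intro s t V W R hV hW hPR hR cV cW N v₀ hv₀ w₀ hw₀
    have hRHS : 0 ≤ G * (D ^ 2) ^ (1 - thT) * ((1 / 2 : ℝ) ^ ((1 - thT) / 2)) ^ Nat.dist s t *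
        ((∑ v ∈ V, mass (lv v) v) * ∑ w ∈ W, mass (lv w) w) ^ thT *
        (shiftWt (powT eT) (powT eT) (R \ P) v₀ w₀ * shiftWt (powT fT) (powT fT) P v₀ w₀) := by
      have hm : 0 ≤ (∑ v ∈ V, mass (lv v) v) * ∑ w ∈ W, mass (lv w) w :=
        mul_nonneg (sum_nonneg fun _ _ => mass_nonneg _ _) (sum_nonneg fun _ _ => mass_nonneg _ _)
      refine mul_nonneg (mul_nonneg (by positivity) (rpow_nonneg hm _)) (mul_nonneg ?_ ?_) <;>
        exact prod_nonneg fun p _ => expKer_nonneg (powT_nonneg _ _) (powT_nonneg _ _) _ _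
    have hVs : ∀ x ∈ V, x ∈ SV ∧ scaleOf lv x = s := fun x hx => mem_filter.1 (hV hx)
    have hWs : ∀ x ∈ W, x ∈ SW ∧ scaleOf lv x = t := fun x hx => mem_filter.1 (hW hx)
    have hVpos : ∀ x ∈ V, 0 < x := fun x hx => hSV x (hVs x hx).1
    have hWpos : ∀ x ∈ W, 0 < x := fun x hx => hSW x (hWs x hx).1
    by_cases hex : ∃ x ∈ V, ∃ y ∈ W, dgap (lv x) (lv y) x y ≤ D ∧ d ∣ red x y
    swap
    · refine (le_of_eq (sum_eq_zero fun x hx => sum_eq_zero fun y hy => if_neg ?_)).trans hRHS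
      exact fun h => hex ⟨x, hx, y, hy, h.2⟩
    obtain ⟨x₁, hx₁, y₁, hy₁, hgap, hdvd⟩ := hex
    have hDpos : 0 < D := by
      refine lt_of_lt_of_le ?_ hgap
      refine lt_of_lt_of_le (mul_pos ?_ (rad_scale_pos (lv x₁))) (le_max_left _ _)
      exact_mod_cast red_pos (hWpos y₁ hy₁)
    set D₁ := D * min 1 (2 * (2 : ℝ) ^ s / (2 : ℝ) ^ t) with hD₁
    set D₂ := D * min 1 (2 * (2 : ℝ) ^ t / (2 : ℝ) ^ s) with hD₂
    have hD₁0 : 0 < D₁ := mul_pos hDpos (lt_min one_pos (by positivity))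
    have hD₂0 : 0 < D₂ := mul_pos hDpos (lt_min one_pos (by positivity))
    have h := scale_leaf hR hVpos hWpos cV cW N (fun q => rad (lv q)) (fun q => rad (lv q))
      (S₁ := (2 : ℝ) ^ s) (S₂ := (2 : ℝ) ^ t) (θ := thT) (by positivity) (by positivity) hD₁0 hD₂0
      (fun x hx => by rw [← (hVs x hx).2]; exact scaleOf_spec lv (hVpos x hx))
      (fun x hx => by rw [← (hWs x hx).2]; exact scaleOf_spec lv (hWpos x hx))
      (by norm_num [thT]) (by norm_num [thT]) hv₀ hw₀
    refine le_trans (sum_le_sum fun x hx => sum_le_sum fun y hy => ?_) (h.trans ?_)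
    · by_cases hc : Apart R N x y ∧ dgap (lv x) (lv y) x y ≤ D ∧ d ∣ red x y
      swap
      · rw [if_neg hc]
        split
        · exact mul_nonneg (mul_nonneg (rad_scale_pos _).le (phiR_nonneg _))
            (mul_nonneg (rad_scale_pos _).le (phiR_nonneg _))
        · exact le_rfl
      rw [if_pos hc]
      obtain ⟨hap, hd', -⟩ := hc
      have ha : (red y x : ℝ) * rad (lv x) ≤ D := le_trans (le_max_left _ _) hd'
      have hb : (red x y : ℝ) * rad (lv y) ≤ D := le_trans (le_max_right _ _) hd'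
      have h1 : (red x y : ℝ) * rad (lv y) ≤ D₁ := by
        have := red_rad_le_of_scale lv (hVpos x hx) (hWpos y hy) ha
        rw [(hVs x hx).2, (hWs y hy).2] at this
        rw [hD₁, mul_min_of_nonneg _ _ hD, mul_one]
        exact le_min hb this
      have h2 : (red y x : ℝ) * rad (lv x) ≤ D₂ := by
        have := red_rad_le_of_scale lv (hWpos y hy) (hVpos x hx) hb
        rw [(hVs x hx).2, (hWs y hy).2] at this
        rw [hD₂, mul_min_of_nonneg _ _ hD, mul_one]
        exact le_min ha this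
      rw [if_pos ⟨hap, h1, h2⟩]
      exact le_of_eq (by simp only [mass])
    · have hRP : ∀ p ∈ R \ P, p.Prime := fun p hp => hR p (sdiff_subset hp)
      have hdX : d ∣ resolvedPart P v₀ w₀ := by
        rw [← Nat.factorization_le_iff_dvd hd.ne' (resolvedPart_pos hP _ _).ne']
        intro p
        rw [factorization_resolvedPart hP]
        by_cases hp : p ∈ P
        · rw [if_pos hp, cV p (hPR hp) v₀ hv₀ x₁ hx₁, cW p (hPR hp) w₀ hw₀ y₁ hy₁,
            ← factorization_red (hVpos x₁ hx₁) (hWpos y₁ hy₁)]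
          exact (Nat.factorization_le_iff_dvd hd.ne' (red_pos (hVpos x₁ hx₁)).ne').2 hdvd p
        · rw [if_neg hp]
          have : p ∉ d.primeFactors := fun hh => hp (mem_union_right _ hh)
          rw [← Nat.support_factorization, Finsupp.notMem_support_iff] at this
          rw [this]
      have hdX' : (d : ℝ) ≤ resolvedPart P v₀ w₀ := by
        exact_mod_cast Nat.le_of_dvd (resolvedPart_pos hP _ _) hdX
      have hXY := split_resolved (one_le_resolvedPart hRP v₀ w₀) (one_le_resolvedPart hRP w₀ v₀)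
        (one_le_resolvedPart hP v₀ w₀) (one_le_resolvedPart hP w₀ v₀) (by exact_mod_cast hd) hdX'
      rw [← resolvedPart_split hPR, ← resolvedPart_split hPR, ← shiftWt_powT hRP, ← shiftWt_powT hP] at hXY
      have hX0 : (0 : ℝ) < resolvedPart R v₀ w₀ := by exact_mod_cast resolvedPart_pos hR v₀ w₀
      have hY0 : (0 : ℝ) < resolvedPart R w₀ v₀ := by exact_mod_cast resolvedPart_pos hR w₀ v₀
      have hD12 : (D₁ * D₂) ^ (1 - thT) ≤
          2 * (D ^ 2) ^ (1 - thT) * ((1 / 2 : ℝ) ^ ((1 - thT) / 2)) ^ Nat.dist s t := by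
        refine (rpow_le_rpow (by positivity) (two_pow_ratio_mul_min (s := s) (t := t) hD) hth.le).trans ?_
        rw [mul_rpow (by positivity) (by positivity), mul_rpow (by norm_num) (by positivity)]
        refine mul_le_mul (mul_le_mul_of_nonneg_right ?_ (by positivity))
          (half_pow_rpow_le _ (by linarith)) (by positivity) (by positivity)
        exact (rpow_le_rpow_of_exponent_le one_le_two (by norm_num [thT] : 1 - thT ≤ (1 : ℝ))).trans_eq
          (rpow_one _)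
      have hm : 0 ≤ (∑ v ∈ V, mass (lv v) v) * ∑ w ∈ W, mass (lv w) w :=
        mul_nonneg (sum_nonneg fun _ _ => mass_nonneg _ _) (sum_nonneg fun _ _ => mass_nonneg _ _)
      rw [div_eq_mul_inv (D₁ * D₂), mul_rpow (mul_nonneg hD₁0.le hD₂0.le) (by positivity),
        inv_rpow (mul_nonneg hX0.le hY0.le), ← rpow_neg (mul_nonneg hX0.le hY0.le)]
      refine (mul_le_mul_of_nonneg_left (mul_le_mul hD12 hXY (by positivity) (by positivity))
        (mul_nonneg hCl0 (rpow_nonneg hm _))).trans_eq ?_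
      rw [hG]
      simp only [mass]
      ring
  have hmain := hmaster lv SV SW hSV hSW (fun v w => d ∣ red v w) P subset_union_left hP D G hD hG0 hleaf
  refine hmain.trans ?_
  have hm : 0 ≤ (∑ v ∈ SV, mass (lv v) v) * ∑ w ∈ SW, mass (lv w) w :=
    mul_nonneg (sum_nonneg fun _ _ => mass_nonneg _ _) (sum_nonneg fun _ _ => mass_nonneg _ _)
  have hcard : cT ^ P.card ≤ cT ^ P₀.card * cT ^ d.primeFactors.card := by
    rw [← pow_add]; exact pow_le_pow_right₀ cT_one_le (card_union_le _ _)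
  calc C * cT ^ P.card * G * (D ^ 2) ^ (1 - thT) *
        ((∑ v ∈ SV, mass (lv v) v) * ∑ w ∈ SW, mass (lv w) w) ^ thT
      ≤ C * (cT ^ P₀.card * cT ^ d.primeFactors.card) * G * (D ^ 2) ^ (1 - thT) *
        ((∑ v ∈ SV, mass (lv v) v) * ∑ w ∈ SW, mass (lv w) w) ^ thT := by
        gcongr
    _ = _ := by rw [hG]; ring

end Vale.Agent.P028.Tame
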