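import Vale.Agent.P028.Tame.ExpandTools

/-! The coinciding primes of medium size, from the pairs on progressions. -/

namespace Vale.Agent.P028.Tame

open Finset Real
open scoped Classical

variable {γ : ℝ} {A : ℕ → ℤ} {B : ℕ → ℕ}

/-- The event of a set of coinciding primes. -/
def CoinTuple (γ : ℝ) (A : ℕ → ℤ) (B : ℕ → ℕ) (t : Finset ℕ) (l L q r : ℕ) : Prop :=
  (∀ p ∈ t, p ≤ uBig L) ∧ CoinAt γ A B (∏ p ∈ t, p) l L q r

/-- The gate of the events counted with probability gain. -/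
def Gate (lv : ℕ → ℕ) (K : ℕ) (X : ℝ) (v w : ℕ) : Prop :=
  lv v ≤ lv w ∧ X < 2 * dgap (lv v) (lv w) v w ∧ 1 / ((lv w : ℝ) + 8) ^ K ≤ X

/-- The event of `CoinPairsStmt`. -/
def CoinEvent (γ : ℝ) (A : ℕ → ℤ) (B : ℕ → ℕ) (lv : ℕ → ℕ) (K : ℕ) (X : ℝ) (d v w : ℕ) : Prop :=
  lv v ≤ lv w ∧ X < 2 * dgap (lv v) (lv w) v w ∧ 1 / ((lv w : ℝ) + 8) ^ K ≤ X ∧
    (d : ℝ) ≤ ((lv w : ℝ) + 8) ^ K ∧ CoinAt γ A B d (lv v) (lv w) v w

theorem zGap_gt {X : ℝ} (hX : 0 < X) : 4 * X < zGap X ^ (100 : ℕ) := by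
  have hZ := four_le_zGap hX
  have h2 : zGap X ^ 2 ≤ zGap X ^ (100 : ℕ) := pow_le_pow_right₀ (by linarith) (by norm_num)
  have h3 : X < zGap X := by rw [zGap]; linarith [show 0 < 1 / X by positivity]
  nlinarith

theorem yBig_spec (X : ℝ) : zGap X ^ (100 : ℕ) ≤ (yBig X : ℝ) := by
  simp only [zGap, yBig]
  exact Nat.le_ceil _

/-- The excess of one pair through sets of primes. -/
theorem excCoin_le {X : ℝ} {l L q r : ℕ} (hX : 0 < X) (hD : dgap l L q r ≤ X)
    (U : Finset ℕ) (hUp : ∀ p ∈ U, p.Prime) (hU : ∀ p : ℕ, p.Prime → yBig X < p → p ≤ uBig L → p ∈ U) :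
    excCoin γ A B (yBig X) l L q r ≤
      ∑ t ∈ U.powerset.erase ∅, if CoinTuple γ A B t l L q r then ∏ p ∈ t, fExc p else 0 := by
  set Y := yBig X with hY
  set F := (nRange γ l L q r).filter (fun n => coinForm A B l L q r n ≠ 0) with hF
  have hmem : ∀ n : ℤ, ∀ p ∈ coinSet γ A B Y l L q r n, p.Prime ∧ Y < p ∧ p ≤ uBig L ∧
      (p : ℤ) ∣ coinForm A B l L q r n ∧ ¬ p ∣ B l ∧ ¬ p ∣ B L := by
    intro n p hp
    obtain ⟨h1, h2, h3, h4⟩ := mem_filter.1 hp
    obtain ⟨h5, hd1, hd2, -⟩ := mem_filter.1 h1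
    exact ⟨Nat.prime_of_mem_primeFactors h5, h2, h3, h4, hd1.1, hd2.1⟩
  have hsub : ∀ n, coinSet γ A B Y l L q r n ⊆ U := fun n p hp =>
    hU p (hmem n p hp).1 (hmem n p hp).2.1 (hmem n p hp).2.2.1
  calc excCoin γ A B Y l L q r
      = ∑ n ∈ F, ∑ t ∈ U.powerset.erase ∅,
          if t ⊆ coinSet γ A B Y l L q r n then ∏ p ∈ t, fExc p else 0 := by
        rw [excCoin]
        exact sum_congr rfl fun n _ => by rw [prod_ratio_cube, prod_sub_one_eq (hsub n)]
    _ = ∑ t ∈ U.powerset.erase ∅,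
          ((F.filter (fun n => t ⊆ coinSet γ A B Y l L q r n)).card : ℝ) * ∏ p ∈ t, fExc p := by
        rw [sum_comm]
        exact sum_congr rfl fun t _ => by rw [← sum_filter, sum_const, nsmul_eq_mul]
    _ ≤ _ := by
        refine sum_le_sum fun t ht => ?_
        set Fn := F.filter (fun n => t ⊆ coinSet γ A B Y l L q r n) with hFn
        rcases Fn.eq_empty_or_nonempty with he | ⟨n₀, hn₀⟩
        · rw [he, card_empty, Nat.cast_zero, zero_mul]
          split
          · exact prod_nonneg fun p hp =>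
              (fExc_bounds (hUp p (mem_powerset.1 (mem_of_mem_erase ht) hp))).1
          · exact le_rfl
        have hcn₀ := (mem_filter.1 hn₀).2
        have hp : ∀ p ∈ t, p.Prime := fun p hp => (hmem n₀ p (hcn₀ hp)).1
        set d := ∏ p ∈ t, p with hd
        have hne : t.Nonempty := nonempty_iff_ne_empty.2 (ne_of_mem_erase ht)
        obtain ⟨p₁, hp₁⟩ := hne
        have hd0 : 0 < d := prod_pos fun p hp' => (hp p hp').pos
        have hdbig : 4 * X < (d : ℝ) := by
          have h1 : Y < d := lt_of_lt_of_le (hmem n₀ p₁ (hcn₀ hp₁)).2.1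
            (Nat.le_of_dvd hd0 (dvd_prod_of_mem _ hp₁))
          exact lt_of_lt_of_le ((zGap_gt hX).trans_le (yBig_spec X)) (by exact_mod_cast h1.le)
        have hd1 : 1 < d := lt_of_lt_of_le (hp p₁ hp₁).one_lt (Nat.le_of_dvd hd0 (dvd_prod_of_mem _ hp₁))
        have hco : Nat.Coprime d (B l * B L) := Nat.Coprime.prod_left fun p hp' => by
          obtain ⟨hpp, -, -, -, hb1, hb2⟩ := hmem n₀ p (hcn₀ hp')
          exact Nat.Coprime.mul_right ((Nat.Prime.coprime_iff_not_dvd hpp).2 hb1)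
            ((Nat.Prime.coprime_iff_not_dvd hpp).2 hb2)
        have hdvd : ∀ n ∈ Fn, (d : ℤ) ∣ coinForm A B l L q r n := fun n hn => by
          rw [Int.natCast_dvd]
          exact Finset.prod_primes_dvd _ (fun p hp' => (hp p hp').prime) fun p hp' =>
            Int.natCast_dvd.1 (hmem n p ((mem_filter.1 hn).2 hp')).2.2.2.1
        have hcard : Fn.card ≤ 1 := by
          refine card_le_one.2 fun a ha b hb => ?_
          by_contra hab
          have h1 : (d : ℤ) ∣ (B l : ℤ) * B L * (a - b) := by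
            have := dvd_sub (hdvd a ha) (hdvd b hb)
            rwa [show coinForm A B l L q r a - coinForm A B l L q r b = (B l : ℤ) * B L * (a - b) by
              rw [coinForm, coinForm]; ring] at this
          have h2 : (d : ℤ) ∣ a - b := by
            refine IsCoprime.dvd_of_dvd_mul_left ?_ h1
            exact_mod_cast Nat.isCoprime_iff_coprime.2 hco
          have ha' := Finset.mem_Icc.1 (mem_filter.1 (mem_filter.1 ha).1).1
          have hb' := Finset.mem_Icc.1 (mem_filter.1 (mem_filter.1 hb).1).1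
          have a1 := (Int.ceil_le.1 ha'.1)
          have a2 := (Int.le_floor.1 ha'.2)
          have b1 := (Int.ceil_le.1 hb'.1)
          have b2 := (Int.le_floor.1 hb'.2)
          have h3 : |((a - b : ℤ) : ℝ)| < (d : ℝ) := by
            push_cast; rw [abs_lt]; constructor <;> linarith
          have h4 : |a - b| < (d : ℤ) := by exact_mod_cast h3
          exact hab (sub_eq_zero.1 (Int.eq_zero_of_abs_lt_dvd h2 h4))
        have hct : CoinTuple γ A B t l L q r :=
          ⟨fun p hp' => (hmem n₀ p (hcn₀ hp')).2.2.1, hco, n₀, (mem_filter.1 (mem_filter.1 hn₀).1).1,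
            (mem_filter.1 (mem_filter.1 hn₀).1).2, hdvd n₀ hn₀, fun h1 => absurd h1 hd1.ne'⟩
        rw [if_pos hct]
        refine mul_le_of_le_one_left (prod_nonneg fun p hp' => (fExc_bounds (hp p hp')).1) ?_
        exact_mod_cast hcard

theorem coinAt_mono {d d' l L q r : ℕ} (h : CoinAt γ A B d l L q r) (hd : d' ∣ d) (hd' : 1 < d') :
    CoinAt γ A B d' l L q r := by
  obtain ⟨hco, n, hn, h0, hdv, -⟩ := h
  exact ⟨hco.coprime_dvd_left hd, n, hn, h0, (Int.natCast_dvd_natCast.2 hd).trans hdv,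
    fun h1 => absurd h1 hd'.ne'⟩

end Vale.Agent.P028.Tame
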