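import Vale.Agent.P028.Tame.ExpandCoin

/-! The coinciding primes of medium size, summed over all pairs and gaps. -/

namespace Vale.Agent.P028.Tame

open Finset Real
open scoped Classical

/-- The excess weights of all sets of primes up to `2 ^ (6 * j)`. -/
theorem excess_all_le : ∃ C : ℝ, 0 ≤ C ∧ ∀ (j : ℕ) (U : Finset ℕ),
    (∀ p ∈ U, p.Prime ∧ p ≤ 2 ^ (6 * j)) →
      ∑ t ∈ U.powerset.erase ∅, ∏ p ∈ t, fExc p ≤ C * (1 + 6 * (j : ℝ)) ^ 24 := by
  obtain ⟨C, hC, hr⟩ := range_ratio_le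
  refine ⟨C ^ 3, by positivity, fun j U hU => ?_⟩
  rw [sum_erase_eq_sub (empty_mem_powerset U), prod_empty, ← prod_one_add, ← prod_ratio_cube, prod_pow]
  have h1 := hr 0 (2 ^ (6 * j)) U (Nat.zero_le _) fun p hp => ⟨(hU p hp).1, (hU p hp).1.pos, (hU p hp).2⟩
  have h0 : 0 ≤ ∏ p ∈ U, ((p : ℝ) / (p - 1)) :=
    prod_nonneg fun p hp => zero_le_one.trans (ratio_ge_one (hU p hp).1)
  simp only [Nat.cast_zero, zero_add, Real.log_one, add_zero, div_one] at h1
  push_cast at h1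
  rw [Real.log_pow] at h1
  push_cast at h1
  have hl : 1 + 6 * (j : ℝ) * log 2 ≤ 1 + 6 * (j : ℝ) := by
    have := Real.log_two_lt_d9
    have : (0 : ℝ) ≤ j := Nat.cast_nonneg _
    nlinarith
  have hl0 : 0 ≤ 1 + 6 * (j : ℝ) * log 2 := by
    have := Real.log_pos (one_lt_two (α := ℝ)); positivity
  have h2 : ∏ p ∈ U, ((p : ℝ) / (p - 1)) ≤ C * (1 + 6 * (j : ℝ)) ^ 8 :=
    h1.trans (mul_le_mul_of_nonneg_left (pow_le_pow_left₀ hl0 hl 8) (by linarith))
  calc (∏ p ∈ U, ((p : ℝ) / (p - 1))) ^ 3 - 1 ≤ (C * (1 + 6 * (j : ℝ)) ^ 8) ^ 3 := by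
        linarith [pow_le_pow_left₀ h0 h2 3]
    _ = _ := by ring

/-- The excess weights of all sets of primes, with a small saving at each prime. -/
theorem excess_saving_le : ∃ C : ℝ, 0 ≤ C ∧ ∀ U : Finset ℕ, (∀ p ∈ U, p.Prime) →
    ∑ t ∈ U.powerset.erase ∅, ∏ p ∈ t, (fExc p * (p : ℝ) ^ (-(1 / 200) : ℝ)) ≤ C := by
  obtain ⟨Ct, hCt, htail⟩ := sum_rpow_tail (show (0 : ℝ) < 1 / 200 by norm_num)
  refine ⟨Real.exp (14 * Ct), (Real.exp_pos _).le, fun U hU => ?_⟩
  refine (sum_subprod_le fun p hp => mul_nonneg (fExc_bounds (hU p hp)).1 (by positivity)).trans ?_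
  have h1 : ∑ p ∈ U, fExc p * (p : ℝ) ^ (-(1 / 200) : ℝ) ≤ 14 * Ct := by
    calc ∑ p ∈ U, fExc p * (p : ℝ) ^ (-(1 / 200) : ℝ)
        ≤ ∑ p ∈ U, 14 * (p : ℝ) ^ (-(1 + 1 / 200) : ℝ) := by
          refine sum_le_sum fun p hp => ?_
          refine (mul_le_mul_of_nonneg_right (fExc_bounds (hU p hp)).2 (by positivity)).trans_eq ?_
          rw [show -(1 + 1 / 200 : ℝ) = -1 + -(1 / 200) by ring,
            rpow_add (by exact_mod_cast (hU p hp).pos), rpow_neg_one]
          ring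
      _ ≤ 14 * (Ct * (1 : ℝ) ^ (-(1 / 200 / 2) : ℝ)) := by
          rw [← mul_sum]
          refine mul_le_mul_of_nonneg_left (htail 1 U le_rfl fun p hp => ?_) (by norm_num)
          exact_mod_cast (hU p hp).one_lt
      _ = _ := by rw [one_rpow, mul_one]
  linarith [Real.exp_le_exp.2 h1]

/-- A series in `j` that stays bounded. -/
theorem sum_poly_geom : ∃ C : ℝ, 0 ≤ C ∧ ∀ J : Finset ℕ,
    ∑ j ∈ J, ((2 : ℝ) ^ j)⁻¹ * (1 + 6 * (j : ℝ)) ^ 24 ≤ C := by
  have hs : Summable fun j : ℕ => ((j : ℝ) ^ 24 + 1) * (1 / 2 : ℝ) ^ j := by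
    simp only [add_mul, one_mul]
    exact (summable_pow_mul_geometric_of_norm_lt_one 24 (by norm_num)).add summable_geometric_two
  refine ⟨14 ^ 24 * ∑' j : ℕ, ((j : ℝ) ^ 24 + 1) * (1 / 2 : ℝ) ^ j, mul_nonneg (by norm_num)
    (tsum_nonneg fun j => by positivity), fun J => ?_⟩
  refine le_trans ?_ (mul_le_mul_of_nonneg_left (hs.sum_le_tsum J fun j _ => by positivity) (by norm_num))
  rw [mul_sum]
  refine sum_le_sum fun j _ => ?_
  have hj : (0 : ℝ) ≤ j := Nat.cast_nonneg j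
  have h1 : (1 + 6 * (j : ℝ)) ^ 24 ≤ 14 ^ 24 * ((j : ℝ) ^ 24 + 1) := by
    rcases le_total (j : ℝ) 1 with h | h
    · calc (1 + 6 * (j : ℝ)) ^ 24 ≤ 14 ^ 24 * 1 := by
            rw [mul_one]; exact pow_le_pow_left₀ (by positivity) (by linarith) 24
        _ ≤ _ := mul_le_mul_of_nonneg_left (by linarith [pow_nonneg hj 24]) (by norm_num)
    · calc (1 + 6 * (j : ℝ)) ^ 24 ≤ (14 * (j : ℝ)) ^ 24 := pow_le_pow_left₀ (by positivity) (by linarith) 24
        _ ≤ _ := by rw [mul_pow]; exact mul_le_mul_of_nonneg_left (by linarith) (by norm_num)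
  rw [one_div, inv_pow]
  refine (mul_le_mul_of_nonneg_left h1 (by positivity)).trans_eq ?_
  ring

/-- The gain of one modulus beyond the threshold of a gap. -/
theorem gain_split_le {X : ℝ} {d : ℕ} (hX : 0 < X) (hd : zGap X ^ (100 : ℕ) ≤ (d : ℝ)) :
    (min 1 X / d) ^ (1 / 100 : ℝ) ≤ zGap X ^ (-(1 / 2) : ℝ) * (d : ℝ) ^ (-(1 / 200) : ℝ) := by
  have hZ := four_le_zGap hX
  have hd0 : (0 : ℝ) < d := lt_of_lt_of_le (by positivity) hd
  refine (rpow_le_rpow (div_nonneg (le_min zero_le_one hX.le) hd0.le)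
    (div_le_div_of_nonneg_right (min_le_left _ _) hd0.le) (by norm_num)).trans ?_
  rw [one_div (d : ℝ), inv_rpow hd0.le, ← rpow_neg hd0.le,
    show (-(1 / 100) : ℝ) = -(1 / 200) + -(1 / 200) by norm_num, rpow_add hd0]
  refine mul_le_mul_of_nonneg_right ?_ (by positivity)
  refine (rpow_le_rpow_of_nonpos (by positivity) hd (by norm_num)).trans_eq ?_
  rw [← rpow_natCast, ← rpow_mul (by linarith)]; norm_num

/-- The event of the chosen divisor of a large set of coinciding primes. -/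
def SubEvent (γ : ℝ) (A : ℕ → ℤ) (B : ℕ → ℕ) (lv : ℕ → ℕ) (K : ℕ) (X : ℝ) (j d v w : ℕ) : Prop :=
  ((2 ^ (200 * j) : ℕ) : ℝ) < (d : ℝ) ∧ zGap X ^ (100 : ℕ) ≤ (d : ℝ) ∧ CoinEvent γ A B lv K X d v w

/-- The excess of coinciding primes at one gap. -/
theorem excCoin_point (hcoin : CoinPairsStmt) {σ C₀ : ℝ} (hσ : 0 ≤ σ) (hσ1 : σ < 1) (hC₀ : 0 ≤ C₀)
    {K : ℕ} (hK : 206 ≤ K) : ∃ C : ℝ, 0 ≤ C ∧
      ∀ (γ : ℝ) (A : ℕ → ℤ) (B : ℕ → ℕ), IsCls γ A B → ∀ (lv : ℕ → ℕ) (S : Finset ℕ),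
        (∀ q ∈ S, TameQ σ C₀ lv q) → ∀ X : ℝ, 0 < X →
          ∑ v ∈ S, ∑ w ∈ S, pW lv X v w *
              (if Gate lv K X v w then excCoin γ A B (yBig X) (lv v) (lv w) v w else 0) ≤
            C * zGap X ^ (-(1 / 2) : ℝ) * (X ^ 2) ^ (1 - thT) * (∑ q ∈ S, mass (lv q) q) ^ (2 * thT) := by
  obtain ⟨Cc, hCc, hcp⟩ := hcoin σ C₀ hσ hσ1 hC₀ K
  obtain ⟨Ca, hCa, hall⟩ := excess_all_le
  obtain ⟨Cs, hCs, hsav⟩ := excess_saving_le
  obtain ⟨Cg, hCg, hgeo⟩ := sum_poly_geom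
  refine ⟨Cc * (Cs + Ca * Cg), by positivity, fun γ A B h lv S hS X hX => ?_⟩
  set M := ∑ q ∈ S, mass (lv q) q
  set Bb := zGap X ^ (-(1 / 2) : ℝ) * ((X ^ 2) ^ (1 - thT) * M ^ (2 * thT)) with hBb
  have hBb0 : 0 ≤ Bb := by
    have := four_le_zGap hX
    have : 0 ≤ M := sum_nonneg fun q _ => mass_nonneg _ _
    positivity
  set Y := yBig X with hYdef
  set top := S.sup (fun q => uBig (lv q)) with htop
  set U := (range (top + 1)).filter (fun p => p.Prime ∧ Y < p) with hU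
  have hUp : ∀ p ∈ U, p.Prime := fun p hp => (mem_filter.1 hp).2.1
  have hYge : ∀ t ∈ U.powerset.erase ∅, (Y : ℝ) ≤ ((∏ p ∈ t, p : ℕ) : ℝ) := by
    intro t ht
    obtain ⟨p, hp⟩ := nonempty_iff_ne_empty.2 (ne_of_mem_erase ht)
    have ht' := mem_powerset.1 (mem_of_mem_erase ht)
    have h1 : p ≤ ∏ p ∈ t, p := Nat.le_of_dvd (prod_pos fun p hp' => (hUp p (ht' hp')).pos) (dvd_prod_of_mem _ hp)
    exact_mod_cast (mem_filter.1 (ht' hp)).2.2.le.trans h1
  have hev : ∀ d : ℕ, zGap X ^ (100 : ℕ) ≤ (d : ℝ) →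
      evSum lv S S X (CoinEvent γ A B lv K X d) ≤ Cc * Bb * (d : ℝ) ^ (-(1 / 200) : ℝ) := by
    intro d hd
    have hd1 : 1 < d := by
      have h4 := four_le_zGap hX
      have : (1 : ℝ) < d := lt_of_lt_of_le (one_lt_pow₀ (by linarith) (by norm_num)) hd
      exact_mod_cast this
    refine (hcp γ A B h lv S hS X d hX (by omega) (Or.inr hd1) fun _ => ?_).trans ?_
    · rw [zGap] at hd; exact hd
    have hM : 0 ≤ Cc * ((X ^ 2) ^ (1 - thT) * M ^ (2 * thT)) := by
      have : 0 ≤ M := sum_nonneg fun q _ => mass_nonneg _ _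
      positivity
    calc Cc * (min 1 X / d) ^ (1 / 100 : ℝ) * (X ^ 2) ^ (1 - thT) * M ^ (2 * thT)
        = Cc * ((X ^ 2) ^ (1 - thT) * M ^ (2 * thT)) * (min 1 X / d) ^ (1 / 100 : ℝ) := by ring
      _ ≤ Cc * ((X ^ 2) ^ (1 - thT) * M ^ (2 * thT)) *
            (zGap X ^ (-(1 / 2) : ℝ) * (d : ℝ) ^ (-(1 / 200) : ℝ)) :=
          mul_le_mul_of_nonneg_left (gain_split_le hX hd) hM
      _ = _ := by rw [hBb]; ring
  set J := S.image (fun q => Nat.log 2 (lv q + 8)) with hJ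
  set Uj : ℕ → Finset ℕ := fun j => U.filter (fun p => p ≤ 2 ^ (6 * j)) with hUj
  set sub : Finset ℕ → ℕ → ℕ := fun t j =>
    if hs : ∃ t' ⊆ t, ((2 ^ (200 * j) : ℕ) : ℝ) < ((∏ p ∈ t', p : ℕ) : ℝ) ∧
      ((∏ p ∈ t', p : ℕ) : ℝ) ≤ ((2 ^ (206 * j) : ℕ) : ℝ) then ∏ p ∈ hs.choose, p else 0 with hsub
  have hpt : ∀ v ∈ S, ∀ w ∈ S, pW lv X v w *
      (if Gate lv K X v w then excCoin γ A B Y (lv v) (lv w) v w else 0) ≤
        pW lv X v w * (∑ t ∈ U.powerset.erase ∅,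
          if CoinEvent γ A B lv K X (∏ p ∈ t, p) v w then ∏ p ∈ t, fExc p else 0) +
        pW lv X v w * (∑ z ∈ J.sigma (fun j => (Uj j).powerset.erase ∅),
          if SubEvent γ A B lv K X z.1 (sub z.2 z.1) v w then ∏ p ∈ z.2, fExc p else 0) := by
    intro v hv w hw
    by_cases hd : dgap (lv v) (lv w) v w ≤ X
    swap
    · simp [pW, hd]
    rw [← mul_add]
    refine mul_le_mul_of_nonneg_left ?_ (pW_nonneg _ _ _ _)
    have hf : ∀ t ∈ U.powerset.erase ∅, 0 ≤ ∏ p ∈ t, fExc p := fun t ht => prod_nonneg fun p hp =>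
      (fExc_bounds (hUp p (mem_powerset.1 (mem_of_mem_erase ht) hp))).1
    have hn1 : 0 ≤ ∑ t ∈ U.powerset.erase ∅,
        (if CoinEvent γ A B lv K X (∏ p ∈ t, p) v w then ∏ p ∈ t, fExc p else 0) :=
      sum_nonneg fun t ht => by split; exacts [hf t ht, le_rfl]
    have hn2 : 0 ≤ ∑ z ∈ J.sigma (fun j => (Uj j).powerset.erase ∅),
          (if SubEvent γ A B lv K X z.1 (sub z.2 z.1) v w then ∏ p ∈ z.2, fExc p else 0) :=
      sum_nonneg fun z hz => by
        split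
        · obtain ⟨-, hz2⟩ := mem_sigma.1 hz
          exact hf z.2 (mem_erase.2 ⟨ne_of_mem_erase hz2,
            mem_powerset.2 ((mem_powerset.1 (mem_of_mem_erase hz2)).trans (filter_subset _ _))⟩)
        · exact le_rfl
    split
    swap
    · linarith
    next hg =>
    obtain ⟨hle, hwin, hgate⟩ := hg
    refine (excCoin_le hX hd U hUp (fun p hp hpY hpu => mem_filter.2
      ⟨mem_range.2 (Nat.lt_succ_of_le (hpu.trans (le_sup (f := fun q => uBig (lv q)) hw))), hp, hpY⟩)).trans ?_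
    set j := Nat.log 2 (lv w + 8) with hjdef
    have hj2 : 2 ^ j ≤ lv w + 8 := Nat.pow_log_le_self 2 (by omega)
    have hj3 : lv w + 8 < 2 ^ (j + 1) := Nat.lt_pow_succ_log_self (by norm_num) _
    have hj1 : 3 ≤ j := Nat.le_log_of_pow_le (by norm_num) (by omega)
    have hjJ : j ∈ J := mem_image.2 ⟨w, hw, rfl⟩
    have hbase : ∀ t ∈ U.powerset.erase ∅,
        (if CoinTuple γ A B t (lv v) (lv w) v w then ∏ p ∈ t, fExc p else 0) ≤
          (if CoinEvent γ A B lv K X (∏ p ∈ t, p) v w then ∏ p ∈ t, fExc p else 0) +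
          (if t ∈ (Uj j).powerset.erase ∅ ∧ SubEvent γ A B lv K X j (sub t j) v w then ∏ p ∈ t, fExc p else 0) := by
      intro t ht
      have hf' := hf t ht
      by_cases hct : CoinTuple γ A B t (lv v) (lv w) v w
      swap
      · rw [if_neg hct]
        exact add_nonneg (by split; exacts [hf', le_rfl]) (by split; exacts [hf', le_rfl])
      rw [if_pos hct]
      set d := ∏ p ∈ t, p with hd'
      by_cases hsm : (d : ℝ) ≤ ((lv w : ℝ) + 8) ^ K
      · rw [if_pos (show CoinEvent γ A B lv K X d v w from ⟨hle, hwin, hgate, hsm, hct.2⟩)]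
        exact le_add_of_nonneg_right (by split; exacts [hf', le_rfl])
      have ht' := mem_powerset.1 (mem_of_mem_erase ht)
      have hH : ∀ p ∈ t, p ≤ 2 ^ (6 * j) := fun p hp => by
        refine (hct.1 p hp).trans ?_
        rw [uBig, show 6 * j = (2 * j) * 3 by ring, pow_mul]
        exact Nat.pow_le_pow_left (hj3.le.trans (Nat.pow_le_pow_right (by norm_num) (by omega))) 3
      have hlt : ((2 ^ (200 * j) : ℕ) : ℝ) < ((∏ p ∈ t, p : ℕ) : ℝ) := by
        refine lt_of_le_of_lt ?_ (not_le.1 hsm)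
        calc ((2 ^ (200 * j) : ℕ) : ℝ) ≤ (((lv w + 8) ^ K : ℕ) : ℝ) := by
              refine Nat.cast_le.2 ?_
              rw [mul_comm 200 j, pow_mul]
              exact (Nat.pow_le_pow_left hj2 200).trans (Nat.pow_le_pow_right (by omega) (by omega))
          _ = _ := by push_cast; ring
      have hs : ∃ t' ⊆ t, ((2 ^ (200 * j) : ℕ) : ℝ) < ((∏ p ∈ t', p : ℕ) : ℝ) ∧
          ((∏ p ∈ t', p : ℕ) : ℝ) ≤ ((2 ^ (206 * j) : ℕ) : ℝ) := by
        obtain ⟨t', ht1, ht2, ht3⟩ := exists_subprod (T := ((2 ^ (200 * j) : ℕ) : ℝ))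
          (by exact_mod_cast Nat.one_le_two_pow) t hH hlt
        refine ⟨t', ht1, ht2, ht3.trans_eq ?_⟩
        rw [← Nat.cast_mul, ← pow_add, ← Nat.add_mul]
      obtain ⟨hsubset, hbig, hsmall⟩ := hs.choose_spec
      have hse : sub t j = ∏ p ∈ hs.choose, p := by simp only [sub, dif_pos hs]
      set t' := hs.choose
      have hne : t' ≠ ∅ := fun he => by
        rw [he, prod_empty, Nat.cast_one] at hbig
        exact absurd hbig (not_lt.2 (by exact_mod_cast Nat.one_le_two_pow))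
      have hY' : zGap X ^ (100 : ℕ) ≤ ((∏ p ∈ t', p : ℕ) : ℝ) :=
        (yBig_spec X).trans (hYge t' (mem_erase.2 ⟨hne, mem_powerset.2 (hsubset.trans ht')⟩))
      have hd1 : 1 < ∏ p ∈ t', p := by
        have : ((1 : ℕ) : ℝ) < ((∏ p ∈ t', p : ℕ) : ℝ) :=
          lt_of_le_of_lt (Nat.cast_le.2 Nat.one_le_two_pow) hbig
        exact_mod_cast this
      have hce : CoinEvent γ A B lv K X (sub t j) v w := by
        refine ⟨hle, hwin, hgate, ?_, ?_⟩
        · rw [hse]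
          refine hsmall.trans ?_
          calc ((2 ^ (206 * j) : ℕ) : ℝ) ≤ (((lv w + 8) ^ K : ℕ) : ℝ) := by
                refine Nat.cast_le.2 ?_
                rw [mul_comm 206 j, pow_mul]
                exact (Nat.pow_le_pow_left hj2 206).trans (Nat.pow_le_pow_right (by omega) hK)
            _ = _ := by push_cast; ring
        · rw [hse]
          exact coinAt_mono hct.2 (prod_dvd_prod_of_subset _ _ _ hsubset) hd1
      have hin : t ∈ (Uj j).powerset.erase ∅ := mem_erase.2 ⟨ne_of_mem_erase ht,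
        mem_powerset.2 fun p hp => mem_filter.2 ⟨ht' hp, hH p hp⟩⟩
      rw [if_pos (show t ∈ (Uj j).powerset.erase ∅ ∧ SubEvent γ A B lv K X j (sub t j) v w from
        ⟨hin, hse ▸ hbig, hse ▸ hY', hce⟩)]
      exact le_add_of_nonneg_left (by split; exacts [hf', le_rfl])
    refine (sum_le_sum hbase).trans ?_
    rw [sum_add_distrib]
    refine add_le_add le_rfl ?_
    simp only [ite_and] at hn2 ⊢
    rw [← sum_filter]
    rw [sum_sigma]
    refine le_trans ?_ (single_le_sum (f := fun j => ∑ t ∈ (Uj j).powerset.erase ∅,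
      if SubEvent γ A B lv K X j (sub t j) v w then ∏ p ∈ t, fExc p else 0)
      (fun i _ => sum_nonneg fun t ht => ?_) hjJ)
    · refine le_of_eq (sum_congr ?_ fun t _ => rfl)
      ext t
      simp only [mem_filter]
      exact ⟨fun h => h.2, fun h => ⟨mem_erase.2 ⟨ne_of_mem_erase h,
        mem_powerset.2 ((mem_powerset.1 (mem_of_mem_erase h)).trans (filter_subset _ _))⟩, h⟩⟩
    · have := hf t (mem_erase.2 ⟨ne_of_mem_erase ht,
        mem_powerset.2 ((mem_powerset.1 (mem_of_mem_erase ht)).trans (filter_subset _ _))⟩)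
      split <;> first | exact this | exact le_rfl
  refine (sum_le_sum fun v hv => sum_le_sum fun w hw => hpt v hv w hw).trans ?_
  simp only [sum_add_distrib]
  rw [sum_pW_events, sum_pW_events lv S S X (J.sigma (fun j => (Uj j).powerset.erase ∅))
    (fun z => ∏ p ∈ z.2, fExc p)
    (fun z v w => SubEvent γ A B lv K X z.1 (sub z.2 z.1) v w)]
  have h1 : ∑ t ∈ U.powerset.erase ∅, (∏ p ∈ t, fExc p) *
      evSum lv S S X (fun v w => CoinEvent γ A B lv K X (∏ p ∈ t, p) v w) ≤ Cc * Cs * Bb := by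
    calc _ ≤ ∑ t ∈ U.powerset.erase ∅, Cc * Bb * ∏ p ∈ t, (fExc p * (p : ℝ) ^ (-(1 / 200) : ℝ)) := by
          refine sum_le_sum fun t ht => ?_
          have hp : ∀ p ∈ t, p.Prime := fun p hp => hUp p (mem_powerset.1 (mem_of_mem_erase ht) hp)
          refine (mul_le_mul_of_nonneg_left (hev _ ((yBig_spec X).trans (hYge t ht)))
            (prod_nonneg fun p hp' => (fExc_bounds (hp p hp')).1)).trans_eq ?_
          rw [prod_mul_distrib, Nat.cast_prod, finsetProd_rpow _ _ (fun p _ => Nat.cast_nonneg p)]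
          ring
      _ ≤ _ := by
          rw [← mul_sum]
          refine (mul_le_mul_of_nonneg_left (hsav U hUp) (by positivity)).trans_eq ?_
          ring
  have h2 : ∑ z ∈ J.sigma (fun j => (Uj j).powerset.erase ∅), (∏ p ∈ z.2, fExc p) *
      evSum lv S S X (fun v w => SubEvent γ A B lv K X z.1 (sub z.2 z.1) v w) ≤
      Cc * (Ca * Cg) * Bb := by
    rw [sum_sigma]
    calc _ ≤ ∑ j ∈ J, ∑ t ∈ (Uj j).powerset.erase ∅, Cc * Bb * (((2 : ℝ) ^ j)⁻¹ * ∏ p ∈ t, fExc p) := by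
          refine sum_le_sum fun j _ => sum_le_sum fun t ht => ?_
          have hnn : 0 ≤ ∏ p ∈ t, fExc p := prod_nonneg fun p hp =>
            (fExc_bounds (hUp p (filter_subset _ _ (mem_powerset.1 (mem_of_mem_erase ht) hp)))).1
          rw [mul_comm ((2 : ℝ) ^ j)⁻¹, ← mul_assoc, mul_comm (Cc * Bb), mul_assoc]
          refine mul_le_mul_of_nonneg_left ?_ hnn
          by_cases hc : ((2 ^ (200 * j) : ℕ) : ℝ) < (sub t j : ℝ) ∧ zGap X ^ (100 : ℕ) ≤ (sub t j : ℝ)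
          · refine (evSum_mono fun v _ w _ _ h => h.2.2).trans ((hev _ hc.2).trans ?_)
            refine mul_le_mul_of_nonneg_left ?_ (by positivity)
            refine (rpow_le_rpow_of_nonpos (by positivity) hc.1.le (by norm_num)).trans_eq ?_
            push_cast
            rw [← rpow_natCast, ← rpow_mul zero_le_two, ← rpow_natCast (2 : ℝ) j, ← rpow_neg zero_le_two]
            push_cast; ring_nf
          · refine le_trans (le_of_eq ?_) (by positivity)
            exact sum_eq_zero fun v _ => sum_eq_zero fun w _ => if_neg fun h => hc ⟨h.2.1, h.2.2.1⟩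
      _ = Cc * Bb * ∑ j ∈ J, ((2 : ℝ) ^ j)⁻¹ * ∑ t ∈ (Uj j).powerset.erase ∅, ∏ p ∈ t, fExc p := by
          simp only [mul_sum]
      _ ≤ Cc * Bb * ∑ j ∈ J, Ca * (((2 : ℝ) ^ j)⁻¹ * (1 + 6 * (j : ℝ)) ^ 24) := by
          refine mul_le_mul_of_nonneg_left (sum_le_sum fun j _ => ?_) (by positivity)
          rw [mul_left_comm Ca]
          exact mul_le_mul_of_nonneg_left
            (hall j (Uj j) fun p hp => ⟨hUp p (filter_subset _ _ hp), (mem_filter.1 hp).2⟩) (by positivity)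
      _ ≤ _ := by
          rw [← mul_sum]
          refine (mul_le_mul_of_nonneg_left (mul_le_mul_of_nonneg_left (hgeo J) hCa) (by positivity)).trans_eq ?_
          ring
  refine (add_le_add h1 h2).trans_eq ?_
  rw [hBb]; ring

end Vale.Agent.P028.Tame
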