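import Vale.Agent.P028.Tame.ExpandTools

/-! The events of large and of many prime divisors, from pairs with a prescribed divisor. -/

namespace Vale.Agent.P028.Tame

open Finset Real
open scoped Classical

/-- All primes of `t` divide `m`. -/
def DivAll (t : Finset ℕ) (m : ℕ) : Prop := ∀ p ∈ t, p ∣ m

theorem mass_pair_rpow {M : ℝ} (hM : 0 ≤ M) : (M * M) ^ thT = M ^ (2 * thT) := by
  rw [two_mul, rpow_add' hM (by norm_num [thT]), mul_rpow hM hM]

/-- Sum of weighted pairs over a family of divisors made of primes. -/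
theorem div_family_le (hdiv : DivPairsStmt) : ∃ C c : ℝ, 0 ≤ C ∧ 1 ≤ c ∧
    ∀ (lv : ℕ → ℕ) (S : Finset ℕ), (∀ q ∈ S, 0 < q) → ∀ (X : ℝ), 0 ≤ X →
    ∀ (T : Finset (Finset ℕ)) (g : ℕ → ℝ), (∀ t ∈ T, ∀ p ∈ t, p.Prime ∧ 0 ≤ g p) →
      ∑ t ∈ T, (∏ p ∈ t, g p) * evSum lv S S X (fun v w => DivAll t (red v w)) ≤
        C * (X ^ 2) ^ (1 - thT) * (∑ q ∈ S, mass (lv q) q) ^ (2 * thT) *
          ∑ t ∈ T, ∏ p ∈ t, (g p * (c * (p : ℝ) ^ (-(1 / 5) : ℝ))) := by
  obtain ⟨C, c, hC, hc, hd⟩ := hdiv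
  refine ⟨C, c, hC, hc, fun lv S hS X hX T g hT => ?_⟩
  rw [mul_sum]
  refine sum_le_sum fun t ht => ?_
  have hp : ∀ p ∈ t, p.Prime := fun p hp => (hT t ht p hp).1
  set d := ∏ p ∈ t, p with hdd
  have hd0 : 0 < d := prod_pos fun p hp' => (hp p hp').pos
  have hpf : d.primeFactors = t := Nat.primeFactors_prod hp
  have hle : evSum lv S S X (fun v w => DivAll t (red v w)) ≤
      evSum lv S S X (fun v w => d ∣ red v w) :=
    evSum_mono fun v _ w _ _ h => Finset.prod_primes_dvd _ (fun p hp' => (hp p hp').prime) h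
  have h2 := hd lv S S hS hS X d hX hd0
  rw [hpf, mass_pair_rpow (sum_nonneg fun q _ => mass_nonneg _ _)] at h2
  refine (mul_le_mul_of_nonneg_left (hle.trans h2) (prod_nonneg fun p hp' => (hT t ht p hp').2)).trans_eq ?_
  have e : c ^ t.card * (d : ℝ) ^ (-(1 / 5) : ℝ) = ∏ p ∈ t, (c * (p : ℝ) ^ (-(1 / 5) : ℝ)) := by
    rw [prod_mul_distrib, prod_const, hdd, Nat.cast_prod, finsetProd_rpow _ _ (fun p _ => Nat.cast_nonneg p)]
  rw [prod_mul_distrib, ← e]
  ring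

theorem ytail_ge_one {X : ℝ} (hX : 1 ≤ X) : 1 ≤ ytail X :=
  one_le_pow₀ (by linarith [log_nonneg hX])

/-- The saving of the exponential moment. -/
theorem ev_scalar {a : ℝ} (ha : 0 ≤ a) : ∃ C : ℝ, 0 ≤ C ∧ ∀ X : ℝ, 2 ≤ X →
    Real.exp (-(ytail X / 2)) * Real.exp (a * ytail X ^ (9 / 10 : ℝ)) ≤ C * zGap X ^ (-(2 : ℝ)) := by
  set B₀ := a * (4 * a + 1) ^ 9 + 5 with hB₀
  refine ⟨25 * Real.exp B₀, by positivity, fun X hX => ?_⟩
  have hy1 : 1 ≤ ytail X := ytail_ge_one (by linarith)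
  have hu : (0 : ℝ) ≤ log X := log_nonneg (by linarith)
  have h5 : (1 + log X) ^ 2 ≤ ytail X := pow_le_pow_right₀ (by linarith) (by norm_num)
  generalize ytail X = y at hy1 h5 ⊢
  have h1 : a * y ^ (9 / 10 : ℝ) ≤ y / 4 + a * (4 * a + 1) ^ 9 := by
    rcases le_total y ((4 * a + 1) ^ (10 : ℕ)) with h | h
    · have h2 : y ^ (9 / 10 : ℝ) ≤ (4 * a + 1) ^ 9 := by
        refine (rpow_le_rpow (by linarith) h (by norm_num)).trans_eq ?_
        rw [← rpow_natCast, ← rpow_mul (by linarith), ← rpow_natCast]; norm_num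
      nlinarith
    · have h2 : (4 * a + 1) ≤ y ^ (1 / 10 : ℝ) := by
        have := rpow_le_rpow (by positivity) h (show (0 : ℝ) ≤ 1 / 10 by norm_num)
        rw [← rpow_natCast, ← rpow_mul (by linarith)] at this
        norm_num at this
        exact this
      have h3 : y ^ (9 / 10 : ℝ) * y ^ (1 / 10 : ℝ) = y := by
        rw [← rpow_add (by linarith)]; norm_num
      have h4 := mul_le_mul_of_nonneg_left h2 (show 0 ≤ y ^ (9 / 10 : ℝ) by positivity)
      rw [h3] at h4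
      have : 0 ≤ a * (4 * a + 1) ^ 9 := by positivity
      have : 0 ≤ y ^ (9 / 10 : ℝ) := by positivity
      linarith
  have hnum : -(y / 2) + a * y ^ (9 / 10 : ℝ) ≤ B₀ + -(2 * log X) := by
    rw [hB₀]; nlinarith [sq_nonneg (1 + log X - 4)]
  rw [← Real.exp_add]
  refine (Real.exp_le_exp.2 hnum).trans ?_
  have hX0 : (0 : ℝ) < X := by linarith
  have hZ := four_le_zGap hX0
  have e : Real.exp (-(2 * log X)) = (X ^ 2)⁻¹ := by
    rw [Real.exp_neg, show 2 * log X = log (X ^ 2) by rw [Real.log_pow]; push_cast; ring,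
      Real.exp_log (by positivity)]
  have hle : (X ^ 2)⁻¹ ≤ 25 * zGap X ^ (-(2 : ℝ)) := by
    rw [rpow_neg (by linarith), rpow_two, ← div_eq_mul_inv, inv_eq_one_div,
      div_le_div_iff₀ (by positivity) (by positivity), one_mul]
    have : zGap X ≤ 5 * X := by
      have : 1 / X ≤ 1 := by rw [div_le_one hX0]; linarith
      rw [zGap]; linarith
    calc zGap X ^ 2 ≤ (5 * X) ^ 2 := pow_le_pow_left₀ (by linarith) this 2
      _ = _ := by ring
  rw [Real.exp_add, e]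
  refine (mul_le_mul_of_nonneg_left hle (Real.exp_nonneg _)).trans_eq ?_
  ring

/-- The bound of the tilted weight at one prime. -/
theorem tilt_bounds {y : ℝ} {p : ℕ} (hy : 0 ≤ y) (hp : y < (p : ℝ)) :
    0 ≤ Real.exp (y * (p : ℝ)⁻¹) - 1 ∧ Real.exp (y * (p : ℝ)⁻¹) - 1 ≤ 3 * y * (p : ℝ)⁻¹ := by
  have h0 : 0 ≤ y * (p : ℝ)⁻¹ := by positivity
  have h1 : y * (p : ℝ)⁻¹ ≤ 1 := by
    rw [← div_eq_mul_inv, div_le_one (by linarith)]; exact hp.le
  have he : Real.exp (y * (p : ℝ)⁻¹) ≤ 3 :=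
    (Real.exp_le_exp.2 h1).trans (by linarith [Real.exp_one_lt_d9])
  refine ⟨by linarith [Real.one_le_exp h0], (exp_sub_one_le _).trans ?_⟩
  calc y * (p : ℝ)⁻¹ * Real.exp (y * (p : ℝ)⁻¹) ≤ y * (p : ℝ)⁻¹ * 3 := mul_le_mul_of_nonneg_left he h0
    _ = _ := by ring

/-- Exponential moment of the divisor sum of one side. -/
theorem ev_moment (lv : ℕ → ℕ) (S U : Finset ℕ) (X y : ℝ) (hy : 0 ≤ y) (hU : evPrimes X = U) :
    evSum lv S S X (fun v w => Ev X (red v w)) ≤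
      Real.exp (-(y / 2)) * ∑ t ∈ U.powerset, (∏ p ∈ t, (Real.exp (y * (p : ℝ)⁻¹) - 1)) *
        evSum lv S S X (fun v w => DivAll t (red v w)) := by
  rw [← sum_pW_events lv S S X U.powerset (fun t => ∏ p ∈ t, (Real.exp (y * (p : ℝ)⁻¹) - 1))
    (fun t v w => DivAll t (red v w)), evSum_eq]
  simp only [mul_sum (a := Real.exp (-(y / 2)))]
  refine sum_le_sum fun v _ => sum_le_sum fun w _ => ?_
  have hset : U.powerset.filter (fun t => DivAll t (red v w)) =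
      (U.filter (fun p => p ∣ red v w)).powerset := by
    ext t
    rw [mem_filter, mem_powerset, mem_powerset]
    exact ⟨fun h x hx => mem_filter.2 ⟨h.1 hx, h.2 x hx⟩,
      fun h => ⟨fun x hx => (mem_filter.1 (h hx)).1, fun x hx => (mem_filter.1 (h hx)).2⟩⟩
  rw [← sum_filter, hset, ← prod_one_add]
  simp only [add_sub_cancel]
  rw [← Real.exp_sum, ← mul_sum]
  have hpw := pW_nonneg lv X v w
  split
  · next hev =>
    rw [Ev, hU] at hev
    have hge : 1 ≤ Real.exp (-(y / 2)) *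
        Real.exp (y * ∑ p ∈ U.filter (fun p => p ∣ red v w), (p : ℝ)⁻¹) := by
      rw [← Real.exp_add, Real.one_le_exp_iff]
      have := mul_le_mul_of_nonneg_left hev.le hy
      linarith
    calc pW lv X v w = pW lv X v w * 1 := (mul_one _).symm
      _ ≤ pW lv X v w * (Real.exp (-(y / 2)) *
            Real.exp (y * ∑ p ∈ U.filter (fun p => p ∣ red v w), (p : ℝ)⁻¹)) :=
          mul_le_mul_of_nonneg_left hge hpw
      _ = _ := by ring
  · exact mul_nonneg (Real.exp_nonneg _) (mul_nonneg hpw (Real.exp_nonneg _))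

/-- The total weight of the tilted divisors. -/
theorem ev_sum_le {c Ct y : ℝ} (hc : 1 ≤ c) (hy : 1 ≤ y) (U : Finset ℕ)
    (hU : ∀ p ∈ U, y < (p : ℝ))
    (htail : ∑ p ∈ U, (p : ℝ) ^ (-(1 + 1 / 5) : ℝ) ≤ Ct * y ^ (-(1 / 5 / 2) : ℝ)) :
    ∑ t ∈ U.powerset, ∏ p ∈ t, ((Real.exp (y * (p : ℝ)⁻¹) - 1) * (c * (p : ℝ) ^ (-(1 / 5) : ℝ))) ≤
      Real.exp (3 * c * Ct * y ^ (9 / 10 : ℝ)) := by
  have hb := fun p hp => tilt_bounds (p := p) (by linarith : 0 ≤ y) (hU p hp)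
  rw [← prod_one_add]
  refine (prod_le_prod (fun p hp => ?_) fun p _ => ?_).trans ((Real.exp_sum U
    (fun p => (Real.exp (y * (p : ℝ)⁻¹) - 1) * (c * (p : ℝ) ^ (-(1 / 5) : ℝ)))).symm.trans_le
      (Real.exp_le_exp.2 ?_))
  · exact add_nonneg zero_le_one (mul_nonneg (hb p hp).1 (by positivity))
  · linarith [Real.add_one_le_exp ((Real.exp (y * (p : ℝ)⁻¹) - 1) * (c * (p : ℝ) ^ (-(1 / 5) : ℝ)))]
  calc ∑ p ∈ U, (Real.exp (y * (p : ℝ)⁻¹) - 1) * (c * (p : ℝ) ^ (-(1 / 5) : ℝ))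
      ≤ ∑ p ∈ U, 3 * c * y * (p : ℝ) ^ (-(1 + 1 / 5) : ℝ) := by
        refine sum_le_sum fun p hp => ?_
        have hp0 : (0 : ℝ) < p := lt_trans (by linarith) (hU p hp)
        refine (mul_le_mul_of_nonneg_right (hb p hp).2 (by positivity)).trans_eq ?_
        rw [show -(1 + 1 / 5 : ℝ) = -1 + -(1 / 5) by ring, rpow_add hp0, rpow_neg_one]
        ring
    _ ≤ 3 * c * y * (Ct * y ^ (-(1 / 5 / 2) : ℝ)) := by
        rw [← mul_sum]
        exact mul_le_mul_of_nonneg_left htail (by positivity)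
    _ = 3 * c * Ct * (y ^ (1 : ℝ) * y ^ (-(1 / 5 / 2) : ℝ)) := by rw [rpow_one]; ring
    _ = _ := by rw [← rpow_add (by linarith)]; norm_num

/-- Pairs with unusually many medium prime divisors are very rare. -/
theorem ev_point (hdiv : DivPairsStmt) : ∃ C : ℝ, 0 ≤ C ∧
    ∀ (lv : ℕ → ℕ) (S : Finset ℕ), (∀ q ∈ S, 0 < q) → ∀ (X : ℝ), 0 < X →
      evSum lv S S X (fun v w => Ev X (red v w)) ≤
        C * zGap X ^ (-(2 : ℝ)) * (X ^ 2) ^ (1 - thT) * (∑ q ∈ S, mass (lv q) q) ^ (2 * thT) := by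
  obtain ⟨C, c, hC, hc, hfam⟩ := div_family_le hdiv
  obtain ⟨Ct, hCt, htail⟩ := sum_rpow_tail (show (0 : ℝ) < 1 / 5 by norm_num)
  obtain ⟨Ce, hCe, hsc⟩ := ev_scalar (show 0 ≤ 3 * c * Ct by positivity)
  refine ⟨C * Ce, by positivity, fun lv S hS X hX => ?_⟩
  set M := ∑ q ∈ S, mass (lv q) q
  have hM0 : 0 ≤ M := sum_nonneg fun q _ => mass_nonneg _ _
  have hZ := four_le_zGap hX
  rcases lt_or_ge X 2 with hX2 | hX2
  · refine le_trans (le_of_eq ?_) (by positivity)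
    refine sum_eq_zero fun v _ => sum_eq_zero fun w _ => if_neg fun h => ?_
    have hempty : evPrimes X = ∅ := by
      refine eq_empty_of_forall_notMem fun p hp => ?_
      obtain ⟨h1, h2, -⟩ := mem_filter.1 hp
      have h3 := mem_range.1 h1
      have : ⌊X⌋₊ < 2 := (Nat.floor_lt hX.le).2 (by exact_mod_cast hX2)
      have := h2.two_le
      omega
    have h4 : Ev X (red v w) := h.2
    simp only [Ev, hempty, filter_empty, sum_empty] at h4
    linarith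
  have hy1 : 1 ≤ ytail X := ytail_ge_one (by linarith)
  have hUp : ∀ p ∈ evPrimes X, p.Prime ∧ ytail X < (p : ℝ) := fun p hp => (mem_filter.1 hp).2
  refine (ev_moment lv S (evPrimes X) X (ytail X) (by linarith) rfl).trans ?_
  refine (mul_le_mul_of_nonneg_left (hfam lv S hS X hX.le _ _ fun t ht p hp =>
    ⟨(hUp p (mem_powerset.1 ht hp)).1,
      (tilt_bounds (by linarith) (hUp p (mem_powerset.1 ht hp)).2).1⟩) (Real.exp_nonneg _)).trans ?_
  have hsum := ev_sum_le hc hy1 (evPrimes X) (fun p hp => (hUp p hp).2)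
    (htail _ _ hy1 fun p hp => (hUp p hp).2)
  refine (mul_le_mul_of_nonneg_left (mul_le_mul_of_nonneg_left hsum (by positivity)) (Real.exp_nonneg _)).trans ?_
  have := mul_le_mul_of_nonneg_left (hsc X hX2)
    (show 0 ≤ C * (X ^ 2) ^ (1 - thT) * M ^ (2 * thT) by positivity)
  refine le_trans (le_of_eq ?_) (this.trans_eq ?_) <;> ring

theorem yBig_ge {X : ℝ} (hX : 0 < X) : zGap X ^ (100 : ℕ) ≤ (yBig X : ℝ) ∧ (1 : ℝ) ≤ yBig X := by
  have h : zGap X ^ (100 : ℕ) ≤ (yBig X : ℝ) := by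
    simp only [zGap, yBig]
    exact Nat.le_ceil _
  refine ⟨h, le_trans (one_le_pow₀ ?_) h⟩
  linarith [four_le_zGap hX]

/-- The very large prime divisors of one side. -/
theorem exc_point (hdiv : DivPairsStmt) : ∃ C : ℝ, 0 ≤ C ∧
    ∀ (lv : ℕ → ℕ) (S : Finset ℕ), (∀ q ∈ S, 0 < q) → ∀ (X : ℝ), 0 < X →
      ∑ v ∈ S, ∑ w ∈ S, pW lv X v w * exc (yBig X) (red v w) ≤
        C * zGap X ^ (-(2 : ℝ)) * (X ^ 2) ^ (1 - thT) * (∑ q ∈ S, mass (lv q) q) ^ (2 * thT) := by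
  obtain ⟨C, c, hC, hc, hfam⟩ := div_family_le hdiv
  obtain ⟨Ct, hCt, htail⟩ := sum_rpow_tail (show (0 : ℝ) < 1 / 5 by norm_num)
  set a := 14 * c * Ct with ha
  have ha0 : 0 ≤ a := by positivity
  refine ⟨C * (a * Real.exp a), by positivity, fun lv S hS X hX => ?_⟩
  set M := ∑ q ∈ S, mass (lv q) q
  have hM0 : 0 ≤ M := sum_nonneg fun q _ => mass_nonneg _ _
  set Y := yBig X
  obtain ⟨hY, hY1⟩ := yBig_ge hX
  set U := ((S ×ˢ S).biUnion (fun z => (red z.1 z.2).primeFactors)).filter (fun p => Y < p) with hU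
  have hUp : ∀ p ∈ U, p.Prime ∧ (Y : ℝ) < p := fun p hp => by
    obtain ⟨h1, h2⟩ := mem_filter.1 hp
    obtain ⟨z, -, hz⟩ := mem_biUnion.1 h1
    exact ⟨Nat.prime_of_mem_primeFactors hz, by exact_mod_cast h2⟩
  have hexp : ∀ v ∈ S, ∀ w ∈ S, exc Y (red v w) =
      ∑ t ∈ U.powerset.erase ∅, if DivAll t (red v w) then ∏ p ∈ t, fExc p else 0 := by
    intro v hv w hw
    rw [exc, prod_ratio_cube, prod_sub_one_eq (U := U) (fun p hp => ?_) fExc]
    · refine sum_congr rfl fun t ht => ?_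
      have ht' := mem_powerset.1 (mem_of_mem_erase ht)
      refine if_congr ⟨fun h p hp => Nat.dvd_of_mem_primeFactors (mem_filter.1 (h hp)).1,
        fun h p hp => mem_filter.2 ⟨Nat.mem_primeFactors.2 ⟨(hUp p (ht' hp)).1, h p hp,
          (red_pos (hS v hv)).ne'⟩, (mem_filter.1 (ht' hp)).2⟩⟩ rfl rfl
    · obtain ⟨h1, h2⟩ := mem_filter.1 hp
      exact mem_filter.2 ⟨mem_biUnion.2 ⟨(v, w), mk_mem_product hv hw, h1⟩, h2⟩
  rw [sum_congr rfl fun v hv => sum_congr rfl fun w hw => by rw [hexp v hv w hw],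
    sum_pW_events lv S S X (U.powerset.erase ∅) (fun t => ∏ p ∈ t, fExc p)
      (fun t v w => DivAll t (red v w))]
  refine (hfam lv S hS X hX.le _ fExc fun t ht p hp => ?_).trans ?_
  · have hp' := (hUp p (mem_powerset.1 (mem_of_mem_erase ht) hp)).1
    exact ⟨hp', (fExc_bounds hp').1⟩
  set x := ∑ p ∈ U, fExc p * (c * (p : ℝ) ^ (-(1 / 5) : ℝ)) with hx
  have hnn : ∀ p ∈ U, 0 ≤ fExc p * (c * (p : ℝ) ^ (-(1 / 5) : ℝ)) := fun p hp =>
    mul_nonneg (fExc_bounds (hUp p hp).1).1 (by positivity)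
  have hxb : x ≤ a * (Y : ℝ) ^ (-(1 / 10) : ℝ) := by
    calc x ≤ ∑ p ∈ U, 14 * c * (p : ℝ) ^ (-(1 + 1 / 5) : ℝ) := by
          refine sum_le_sum fun p hp => ?_
          have hp0 : (0 : ℝ) < p := by exact_mod_cast (hUp p hp).1.pos
          refine (mul_le_mul_of_nonneg_right (fExc_bounds (hUp p hp).1).2 (by positivity)).trans_eq ?_
          rw [show -(1 + 1 / 5 : ℝ) = -1 + -(1 / 5) by ring, rpow_add hp0, rpow_neg_one]
          ring
      _ ≤ 14 * c * (Ct * (Y : ℝ) ^ (-(1 / 5 / 2) : ℝ)) := by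
          rw [← mul_sum]
          exact mul_le_mul_of_nonneg_left (htail _ U hY1 fun p hp => (hUp p hp).2) (by positivity)
      _ = _ := by rw [ha]; norm_num; ring
  have hx0 : 0 ≤ x := sum_nonneg hnn
  have hY2 : (Y : ℝ) ^ (-(1 / 10) : ℝ) ≤ zGap X ^ (-(2 : ℝ)) := by
    have hZ := four_le_zGap hX
    refine (rpow_le_rpow_of_nonpos (by positivity) hY (by norm_num)).trans ?_
    rw [← rpow_natCast, ← rpow_mul (by linarith)]
    exact rpow_le_rpow_of_exponent_le (by linarith) (by norm_num)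
  have hxa : x ≤ a := hxb.trans (mul_le_of_le_one_right ha0
    (rpow_le_one_of_one_le_of_nonpos hY1 (by norm_num)))
  have hsum : ∑ t ∈ U.powerset.erase ∅, ∏ p ∈ t, (fExc p * (c * (p : ℝ) ^ (-(1 / 5) : ℝ))) ≤
      a * Real.exp a * zGap X ^ (-(2 : ℝ)) := by
    refine ((sum_subprod_le hnn).trans (exp_sub_one_le x)).trans ?_
    calc x * Real.exp x ≤ a * zGap X ^ (-(2 : ℝ)) * Real.exp a :=
          mul_le_mul (hxb.trans (mul_le_mul_of_nonneg_left hY2 ha0)) (Real.exp_le_exp.2 hxa)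
            (Real.exp_nonneg _) (mul_nonneg ha0 (rpow_nonneg (by linarith [four_le_zGap hX]) _))
      _ = _ := by ring
  refine (mul_le_mul_of_nonneg_left hsum (by positivity)).trans_eq ?_
  ring

/-- Both events of one side, summed over the dyadic gaps. -/
theorem div_events_le (hdiv : DivPairsStmt) (N : ℕ) : ∃ C : ℝ, 0 ≤ C ∧
    ∀ (lv : ℕ → ℕ) (S : Finset ℕ), (∀ q ∈ S, 0 < q) → ∀ I : Finset ℤ,
      ∑ i ∈ I, ∑ v ∈ S, ∑ w ∈ S, pW lv ((2 : ℝ) ^ i) v w * (lX ((2 : ℝ) ^ i) ^ N * (1 + 1 / (2 : ℝ) ^ i) *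
        ((if Ev ((2 : ℝ) ^ i) (red v w) then 1 else 0) + (if Ev ((2 : ℝ) ^ i) (red w v) then 1 else 0) +
          exc (yBig ((2 : ℝ) ^ i)) (red v w) + exc (yBig ((2 : ℝ) ^ i)) (red w v))) ≤
        C * (∑ q ∈ S, mass (lv q) q) ^ (2 * thT) := by
  obtain ⟨C₁, hC₁, h1⟩ := ev_point hdiv
  obtain ⟨C₂, hC₂, h2⟩ := exc_point hdiv
  obtain ⟨CN, hCN, hN⟩ := poly_lX_le N (show (0 : ℝ) < 1 / 2 by norm_num)
  obtain ⟨Cz, hCz, hz⟩ := sum_zGap_le (show (0 : ℝ) < 1 / 2 by norm_num)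
  refine ⟨4 * CN * (C₁ + C₂) * Cz, by positivity, fun lv S hS I => ?_⟩
  set M := ∑ q ∈ S, mass (lv q) q
  have hM0 : 0 ≤ M := sum_nonneg fun q _ => mass_nonneg _ _
  have hterm : ∀ i ∈ I, ∑ v ∈ S, ∑ w ∈ S, pW lv ((2 : ℝ) ^ i) v w * (lX ((2 : ℝ) ^ i) ^ N *
      (1 + 1 / (2 : ℝ) ^ i) *
        ((if Ev ((2 : ℝ) ^ i) (red v w) then 1 else 0) + (if Ev ((2 : ℝ) ^ i) (red w v) then 1 else 0) +
          exc (yBig ((2 : ℝ) ^ i)) (red v w) + exc (yBig ((2 : ℝ) ^ i)) (red w v))) ≤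
      4 * CN * (C₁ + C₂) * M ^ (2 * thT) * zGap ((2 : ℝ) ^ i) ^ (-(1 / 2) : ℝ) := by
    intro i _
    set X := (2 : ℝ) ^ i with hXdef
    have hX : 0 < X := zpow_pos two_pos i
    have hZ := four_le_zGap hX
    have hsw : ∀ F : ℕ → ℝ, ∑ v ∈ S, ∑ w ∈ S, pW lv X v w * F (red w v) =
        ∑ v ∈ S, ∑ w ∈ S, pW lv X v w * F (red v w) := by
      intro F
      rw [sum_comm]
      refine sum_congr rfl fun v _ => sum_congr rfl fun w _ => ?_
      rw [pW, pW, dgap_comm, mul_comm (mass (lv w) w)]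
    have he : ∑ v ∈ S, ∑ w ∈ S, pW lv X v w * (if Ev X (red v w) then 1 else 0) =
        evSum lv S S X (fun v w => Ev X (red v w)) := by
      rw [evSum_eq]
      exact sum_congr rfl fun v _ => sum_congr rfl fun w _ => by split <;> simp
    have hsplit : ∑ v ∈ S, ∑ w ∈ S, pW lv X v w * (lX X ^ N * (1 + 1 / X) *
        ((if Ev X (red v w) then 1 else 0) + (if Ev X (red w v) then 1 else 0) +
          exc (yBig X) (red v w) + exc (yBig X) (red w v))) =
        lX X ^ N * (1 + 1 / X) * (2 * evSum lv S S X (fun v w => Ev X (red v w)) +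
          2 * ∑ v ∈ S, ∑ w ∈ S, pW lv X v w * exc (yBig X) (red v w)) := by
      simp only [mul_add, add_mul, sum_add_distrib, mul_left_comm (pW lv X _ _), ← mul_sum]
      rw [hsw (fun m => if Ev X m then 1 else 0), hsw (exc (yBig X)), he]
      ring
    rw [hsplit]
    have hl0 : 0 ≤ lX X ^ N * (1 + 1 / X) := by
      have : 0 ≤ log (2 + X + 1 / X) := log_nonneg (by linarith [show 0 < 1 / X by positivity])
      rw [lX]; positivity
    have hz2 : 0 ≤ zGap X ^ (-(2 : ℝ)) * (M ^ (2 * thT)) := by positivity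
    calc lX X ^ N * (1 + 1 / X) * (2 * evSum lv S S X (fun v w => Ev X (red v w)) +
          2 * ∑ v ∈ S, ∑ w ∈ S, pW lv X v w * exc (yBig X) (red v w))
        ≤ lX X ^ N * (1 + 1 / X) *
          (2 * (C₁ * zGap X ^ (-(2 : ℝ)) * (X ^ 2) ^ (1 - thT) * M ^ (2 * thT)) +
           2 * (C₂ * zGap X ^ (-(2 : ℝ)) * (X ^ 2) ^ (1 - thT) * M ^ (2 * thT))) := by
          gcongr
          · exact h1 lv S hS X hX
          · exact h2 lv S hS X hX
      _ = 2 * (C₁ + C₂) * (zGap X ^ (-(2 : ℝ)) * M ^ (2 * thT)) *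
            (lX X ^ N * ((1 + 1 / X) * (X ^ 2) ^ (1 - thT))) := by ring
      _ ≤ 2 * (C₁ + C₂) * (zGap X ^ (-(2 : ℝ)) * M ^ (2 * thT)) *
            (CN * zGap X ^ (1 / 2 : ℝ) * (2 * zGap X)) := by
          refine mul_le_mul_of_nonneg_left ?_ (by positivity)
          exact mul_le_mul (hN X hX) (coef_le hX) (by positivity) (by positivity)
      _ = 4 * CN * (C₁ + C₂) * M ^ (2 * thT) *
            (zGap X ^ (-(2 : ℝ)) * zGap X ^ (1 / 2 : ℝ) * zGap X ^ (1 : ℝ)) := by rw [rpow_one]; ring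
      _ = _ := by
          rw [← rpow_add (by linarith), ← rpow_add (by linarith)]; norm_num
  refine (sum_le_sum hterm).trans ?_
  rw [← mul_sum]
  refine (mul_le_mul_of_nonneg_left (hz I) (by positivity)).trans_eq ?_
  ring

end Vale.Agent.P028.Tame
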