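import Vale.Agent.P028.Tame.ExpandCoinSum
import Vale.Agent.P028.Tame.ExpandDiv
import Vale.Agent.P028.Tame.CoinPairs

/-! The coincidence events summed over the dyadic gaps. -/

namespace Vale.Agent.P028.Tame

open Finset Real
open scoped Classical

theorem lX_nonneg {X : ℝ} (hX : 0 < X) : 1 ≤ lX X := by
  have : 0 ≤ log (2 + X + 1 / X) := log_nonneg (by linarith [show 0 < 1 / X by positivity])
  rw [lX]; linarith

/-- The coincidences on progressions, over all gaps. -/
theorem coin_events_le (hcoin : CoinPairsStmt) {σ C₀ : ℝ} (hσ : 0 ≤ σ) (hσ1 : σ < 1) (hC₀ : 0 ≤ C₀)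
    {K : ℕ} (hK : 206 ≤ K) (N : ℕ) : ∃ C : ℝ, 0 ≤ C ∧
      ∀ (γ : ℝ) (A : ℕ → ℤ) (B : ℕ → ℕ), IsCls γ A B → ∀ (lv : ℕ → ℕ) (S : Finset ℕ),
        (∀ q ∈ S, TameQ σ C₀ lv q) → ∀ I : Finset ℤ,
          ∑ i ∈ I, ∑ v ∈ S, ∑ w ∈ S, pW lv ((2 : ℝ) ^ i) v w *
            (if Gate lv K ((2 : ℝ) ^ i) v w then lX ((2 : ℝ) ^ i) ^ N / (2 : ℝ) ^ i *
              (excCoin γ A B (yBig ((2 : ℝ) ^ i)) (lv v) (lv w) v w +
                if (2 : ℝ) ^ i ≤ 1 / 8 ∧ CoinAt γ A B 1 (lv v) (lv w) v w then 1 else 0) else 0) ≤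
            C * (∑ q ∈ S, mass (lv q) q) ^ (2 * thT) := by
  obtain ⟨Ce, hCe, hexc⟩ := excCoin_point hcoin hσ hσ1 hC₀ hK
  obtain ⟨Cc, hCc, hcp⟩ := hcoin σ C₀ hσ hσ1 hC₀ K
  obtain ⟨CN, hCN, hN⟩ := poly_lX_le N (show (0 : ℝ) < 1 / 250 by norm_num)
  obtain ⟨Cz, hCz, hz⟩ := sum_zGap_le (show (0 : ℝ) < 1 / 250 by norm_num)
  refine ⟨CN * (Ce + 2 * Cc) * Cz, by positivity, fun γ A B h lv S hS I => ?_⟩
  set M := ∑ q ∈ S, mass (lv q) q
  have hM0 : 0 ≤ M := sum_nonneg fun q _ => mass_nonneg _ _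
  have hterm : ∀ i ∈ I, ∑ v ∈ S, ∑ w ∈ S, pW lv ((2 : ℝ) ^ i) v w *
      (if Gate lv K ((2 : ℝ) ^ i) v w then lX ((2 : ℝ) ^ i) ^ N / (2 : ℝ) ^ i *
        (excCoin γ A B (yBig ((2 : ℝ) ^ i)) (lv v) (lv w) v w +
          if (2 : ℝ) ^ i ≤ 1 / 8 ∧ CoinAt γ A B 1 (lv v) (lv w) v w then 1 else 0) else 0) ≤
      CN * (Ce + 2 * Cc) * M ^ (2 * thT) * zGap ((2 : ℝ) ^ i) ^ (-(1 / 250) : ℝ) := by
    intro i _
    set X := (2 : ℝ) ^ i with hXdef
    have hX : 0 < X := zpow_pos two_pos i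
    have hZ := four_le_zGap hX
    have hl := lX_nonneg hX
    have hsplit : ∀ v ∈ S, ∀ w ∈ S, pW lv X v w *
        (if Gate lv K X v w then lX X ^ N / X *
          (excCoin γ A B (yBig X) (lv v) (lv w) v w +
            if X ≤ 1 / 8 ∧ CoinAt γ A B 1 (lv v) (lv w) v w then 1 else 0) else 0) =
        lX X ^ N * (1 / X) * (pW lv X v w *
          (if Gate lv K X v w then excCoin γ A B (yBig X) (lv v) (lv w) v w else 0)) +
        lX X ^ N * (1 / X) * (if Gate lv K X v w ∧ X ≤ 1 / 8 ∧ CoinAt γ A B 1 (lv v) (lv w) v w then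
          pW lv X v w else 0) := by
      intro v _ w _
      by_cases hg : Gate lv K X v w <;> by_cases hc : X ≤ 1 / 8 ∧ CoinAt γ A B 1 (lv v) (lv w) v w
      all_goals simp only [hg, hc, and_self, and_false, false_and, if_true, if_false]
      all_goals ring
    rw [sum_congr rfl fun v hv => sum_congr rfl fun w hw => hsplit v hv w hw]
    simp only [sum_add_distrib, ← mul_sum]
    have h1 := hexc γ A B h lv S hS X hX
    have hz250 : ∀ r : ℝ, r ≤ -(1 / 250) → zGap X ^ r ≤ zGap X ^ (-(1 / 250) : ℝ) :=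
      fun r hr => rpow_le_rpow_of_exponent_le (by linarith) hr
    have hb1 : lX X ^ N * (1 / X) * ∑ v ∈ S, ∑ w ∈ S, pW lv X v w *
          (if Gate lv K X v w then excCoin γ A B (yBig X) (lv v) (lv w) v w else 0) ≤
        CN * Ce * M ^ (2 * thT) * zGap X ^ (-(1 / 250) : ℝ) := by
      calc _ ≤ lX X ^ N * (1 / X) * (Ce * zGap X ^ (-(1 / 2) : ℝ) * (X ^ 2) ^ (1 - thT) * M ^ (2 * thT)) :=
            mul_le_mul_of_nonneg_left h1 (by positivity)
        _ = Ce * M ^ (2 * thT) * (lX X ^ N * (zGap X ^ (-(1 / 2) : ℝ) * (1 / X * (X ^ 2) ^ (1 - thT)))) := by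
            ring
        _ ≤ Ce * M ^ (2 * thT) * (CN * zGap X ^ (1 / 250 : ℝ) *
              (zGap X ^ (-(1 / 2) : ℝ) * zGap X ^ (1 / 500 : ℝ))) := by
            gcongr
            · exact hN X hX
            · exact coef_inv_le hX
        _ ≤ _ := by
            rw [← rpow_add (by linarith), mul_assoc CN, ← rpow_add (by linarith)]
            have := hz250 (1 / 250 + (-(1 / 2) + 1 / 500)) (by norm_num)
            calc _ ≤ Ce * M ^ (2 * thT) * (CN * zGap X ^ (-(1 / 250) : ℝ)) := by gcongr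
              _ = _ := by ring
    have hb2 : lX X ^ N * (1 / X) * ∑ v ∈ S, ∑ w ∈ S,
        (if Gate lv K X v w ∧ X ≤ 1 / 8 ∧ CoinAt γ A B 1 (lv v) (lv w) v w then pW lv X v w else 0) ≤
        CN * (2 * Cc) * M ^ (2 * thT) * zGap X ^ (-(1 / 250) : ℝ) := by
      by_cases h8 : X ≤ 1 / 8
      swap
      · simp only [h8, false_and, and_false, if_false, sum_const_zero, mul_zero]
        positivity
      have hev : ∑ v ∈ S, ∑ w ∈ S,
          (if Gate lv K X v w ∧ X ≤ 1 / 8 ∧ CoinAt γ A B 1 (lv v) (lv w) v w then pW lv X v w else 0) ≤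
            Cc * (min 1 X / ((1 : ℕ) : ℝ)) ^ (1 / 100 : ℝ) * (X ^ 2) ^ (1 - thT) * M ^ (2 * thT) := by
        refine le_trans ?_ (hcp γ A B h lv S hS X 1 hX one_pos (Or.inl h8) fun h => absurd h (lt_irrefl _))
        rw [evSum_eq]
        refine sum_le_sum fun v _ => sum_le_sum fun w _ => ?_
        by_cases hc : Gate lv K X v w ∧ X ≤ 1 / 8 ∧ CoinAt γ A B 1 (lv v) (lv w) v w
        · rw [if_pos hc, if_pos]
          refine ⟨hc.1.1, hc.1.2.1, hc.1.2.2, ?_, hc.2.2⟩
          push_cast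
          exact one_le_pow₀ (by linarith [(Nat.cast_nonneg (lv w) : (0 : ℝ) ≤ _)])
        · rw [if_neg hc]; split
          · exact pW_nonneg _ _ _ _
          · exact le_rfl
      rw [Nat.cast_one, div_one, min_eq_right (by linarith)] at hev
      have hX2 : X ≤ 2 / zGap X := by
        rw [le_div_iff₀ (by linarith), zGap, mul_add, mul_add, mul_one_div_cancel hX.ne']
        nlinarith
      calc _ ≤ lX X ^ N * (1 / X) * (Cc * X ^ (1 / 100 : ℝ) * (X ^ 2) ^ (1 - thT) * M ^ (2 * thT)) :=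
            mul_le_mul_of_nonneg_left hev (by positivity)
        _ = Cc * M ^ (2 * thT) * (lX X ^ N * ((1 / X * (X ^ 2) ^ (1 - thT)) * X ^ (1 / 100 : ℝ))) := by ring
        _ ≤ Cc * M ^ (2 * thT) * (CN * zGap X ^ (1 / 250 : ℝ) * (2 / zGap X) ^ (1 / 125 : ℝ)) := by
            rw [inv_mul_sq_eq hX, ← rpow_add hX]
            gcongr
            · exact hN X hX
            · refine le_trans (le_of_eq ?_) (rpow_le_rpow hX.le hX2 (by norm_num))
              norm_num
        _ ≤ Cc * M ^ (2 * thT) * (CN * zGap X ^ (1 / 250 : ℝ) * (2 * zGap X ^ (-(1 / 125) : ℝ))) := by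
            gcongr
            rw [div_rpow zero_le_two (by linarith), rpow_neg (by linarith), div_eq_mul_inv]
            exact mul_le_mul_of_nonneg_right (rpow_le_self_of_one_le one_le_two (by norm_num)) (by positivity)
        _ = CN * (2 * Cc) * M ^ (2 * thT) * (zGap X ^ (1 / 250 : ℝ) * zGap X ^ (-(1 / 125) : ℝ)) := by ring
        _ = _ := by rw [← rpow_add (by linarith)]; norm_num
    calc _ ≤ CN * Ce * M ^ (2 * thT) * zGap X ^ (-(1 / 250) : ℝ) +
          CN * (2 * Cc) * M ^ (2 * thT) * zGap X ^ (-(1 / 250) : ℝ) := add_le_add hb1 hb2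
      _ = _ := by ring
  refine (sum_le_sum hterm).trans ?_
  rw [← mul_sum]
  refine (mul_le_mul_of_nonneg_left (hz I) (by positivity)).trans_eq ?_
  ring

/-- The divisor forced by two different classes. -/
theorem kdiv_sq_ge {γ : ℝ} {A : ℕ → ℤ} {B : ℕ → ℕ} (h : IsCls γ A B) {l L : ℕ} (hlL : l ≤ L)
    (hd : ¬ SameCls A B l L) :
    (2 : ℝ) ^ l / 4 ≤ kdiv B l L ∧ √(B L : ℝ) / 2 ≤ (kdiv B l L : ℝ) := by
  obtain ⟨-, h2, -, -⟩ := cls_diff h hlL hd
  have h1 : (2 : ℝ) ^ l ≤ 4 * (kdiv B l L : ℝ) := by exact_mod_cast h2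
  refine ⟨by linarith, ?_⟩
  obtain ⟨hBl, hBl2, -⟩ := h l
  have hg : 0 < Nat.gcd (B l) (B L) := Nat.gcd_pos_of_pos_left _ hBl
  have he : B L ≤ kdiv B l L * 2 ^ l := by
    calc B L = kdiv B l L * Nat.gcd (B l) (B L) := (Nat.div_mul_cancel (Nat.gcd_dvd_right _ _)).symm
      _ ≤ _ := Nat.mul_le_mul_left _ ((Nat.gcd_le_left _ hBl).trans hBl2)
  have heR : (B L : ℝ) ≤ (kdiv B l L : ℝ) * (2 : ℝ) ^ l := by exact_mod_cast he
  have hk : 0 ≤ (kdiv B l L : ℝ) := Nat.cast_nonneg _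
  rw [div_le_iff₀ two_pos, Real.sqrt_le_left (by positivity)]
  nlinarith

/-- The pairs of different classes with the forced divisor, over all gaps. -/
theorem k_events_le (hdiv : DivPairsStmt) (N : ℕ) : ∃ C : ℝ, 0 ≤ C ∧
    ∀ (γ : ℝ) (A : ℕ → ℤ) (B : ℕ → ℕ), IsCls γ A B → ∀ (lv : ℕ → ℕ) (S : Finset ℕ), (∀ q ∈ S, 0 < q) →
      ∀ I : Finset ℤ, ∑ i ∈ I, ∑ v ∈ S, ∑ w ∈ S, pW lv ((2 : ℝ) ^ i) v w *
        (if lv v ≤ lv w ∧ KEv A B (lv v) (lv w) (red v w) then
          (lX ((2 : ℝ) ^ i) + lv v) ^ N / (2 : ℝ) ^ i else 0) ≤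
        C * (∑ q ∈ S, mass (lv q) q) ^ (2 * thT) := by
  obtain ⟨C, c, hC, hc, hd⟩ := hdiv
  obtain ⟨Cω, hω⟩ := omegaPow c (1 / 30) hc (by norm_num)
  obtain ⟨Cs, hCs, hcls⟩ := sum_cls_rpow_le (show (0 : ℝ) < 1 / 24 by norm_num)
  obtain ⟨CN, hCN, hN⟩ := poly_lX_le N (show (0 : ℝ) < 1 / 1000 by norm_num)
  obtain ⟨Cp, hCp, hpoly⟩ := poly_mul_two_pow_le N (show (0 : ℝ) < 1 / 96 by norm_num)
  obtain ⟨Cz, hCz, hz⟩ := sum_zGap_le (show (0 : ℝ) < 1 / 1000 by norm_num)
  have hCω : 0 ≤ Cω := by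
    have := hω 1 le_rfl
    simp at this; linarith
  set ρ := (2 : ℝ) ^ (-(1 / 96) : ℝ) with hρ
  have hρ1 : ρ < 1 := rpow_lt_one_of_one_lt_of_neg one_lt_two (by norm_num)
  have hρ0 : 0 ≤ ρ := by positivity
  set Cl := 4 * C * Cω * Cs * Cp * (1 / (1 - ρ)) with hCl
  have hCl0 : 0 ≤ Cl := by
    have : 0 ≤ 1 / (1 - ρ) := div_nonneg zero_le_one (by linarith)
    positivity
  refine ⟨6 * Cl * CN * Cz, by positivity, fun γ A B h lv S hS I => ?_⟩
  set M := ∑ q ∈ S, mass (lv q) q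
  have hM0 : 0 ≤ M := sum_nonneg fun q _ => mass_nonneg _ _
  have hterm : ∀ i ∈ I, ∑ v ∈ S, ∑ w ∈ S, pW lv ((2 : ℝ) ^ i) v w *
      (if lv v ≤ lv w ∧ KEv A B (lv v) (lv w) (red v w) then
        (lX ((2 : ℝ) ^ i) + lv v) ^ N / (2 : ℝ) ^ i else 0) ≤
      6 * Cl * CN * M ^ (2 * thT) * zGap ((2 : ℝ) ^ i) ^ (-(1 / 1000) : ℝ) := by
    intro i _
    set X := (2 : ℝ) ^ i with hXdef
    have hX : 0 < X := zpow_pos two_pos i
    have hZ := four_le_zGap hX
    have hl1 := lX_nonneg hX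
    set ev : ℕ → ℝ := fun l => evSum lv (S.filter (fun v => lv v = l)) S X
      (fun v w => lv v ≤ lv w ∧ KEv A B (lv v) (lv w) (red v w)) with hev
    have hper : ∀ l ∈ S.image lv, (lX X + (l : ℝ)) ^ N / X * ev l ≤
        4 * C * Cω * Cs * Cp * M ^ (2 * thT) *
          (6 * lX X ^ N * zGap X ^ (-(1 / 500) : ℝ)) * ρ ^ l := by
      intro l _
      rcases lt_or_ge X (rad l) with hsmallX | hbigX
      · refine le_trans (le_of_eq ?_) (by positivity)
        rw [mul_eq_zero]; right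
        refine sum_eq_zero fun v hv => sum_eq_zero fun w hw => if_neg fun h' => ?_
        have hvl := (mem_filter.1 hv).2
        have h1 : rad (lv v) ≤ dgap (lv v) (lv w) v w := by
          refine le_trans ?_ (le_max_left _ _)
          exact le_mul_of_one_le_left (rad_pos _).le (by exact_mod_cast red_pos (hS w hw))
        rw [hvl] at h1
        have h2 := h'.1
        rw [hvl] at h2
        linarith
      set Sl := S.filter (fun v => lv v = l) with hSl
      set SW := S.filter (fun w => l ≤ lv w ∧ ¬ SameCls A B l (lv w)) with hSW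
      have hle : ev l ≤ evSum lv Sl SW X (fun v w => kdiv B l (lv w) ∣ red v w) := by
        refine sum_le_sum fun v hv => ?_
        rw [hSW, sum_filter]
        refine sum_le_sum fun w _ => ?_
        have hvl := (mem_filter.1 hv).2
        by_cases hc' : dgap (lv v) (lv w) v w ≤ X ∧ (lv v ≤ lv w ∧ KEv A B (lv v) (lv w) (red v w))
        · obtain ⟨h1, h2, h3, h4⟩ := hc'
          rw [if_pos ⟨h1, h2, h3, h4⟩, if_pos (show l ≤ lv w ∧ ¬ SameCls A B l (lv w) by
            rw [← hvl]; exact ⟨h2, h3⟩), if_pos ⟨h1, hvl ▸ h4⟩]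
        · rw [if_neg hc']
          split_ifs <;> first | exact le_rfl | exact mul_nonneg (mass_nonneg _ _) (mass_nonneg _ _)
      have hcl : evSum lv Sl SW X (fun v w => kdiv B l (lv w) ∣ red v w) ≤
          4 * C * Cω * Cs * ((2 : ℝ) ^ l) ^ (-(1 / 12) : ℝ) * ((X ^ 2) ^ (1 - thT) * M ^ (2 * thT)) := by
        rw [evSum_fiber lv Sl SW X _ (fun w => (A (lv w), B (lv w)))]
        have hg : ∀ z ∈ SW.image (fun w => (A (lv w), B (lv w))),
            evSum lv Sl (SW.filter (fun w => (A (lv w), B (lv w)) = z)) X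
              (fun v w => kdiv B l (lv w) ∣ red v w) ≤
            4 * C * Cω * ((2 : ℝ) ^ l) ^ (-(1 / 12) : ℝ) * ((X ^ 2) ^ (1 - thT) * M ^ (2 * thT)) *
              (z.2 : ℝ) ^ (-(1 / 24) : ℝ) := by
          intro z hz
          obtain ⟨w₀, hw₀, rfl⟩ := mem_image.1 hz
          obtain ⟨hw₀S, hw₀l, hw₀d⟩ := mem_filter.1 hw₀
          obtain ⟨hk1, hk2⟩ := kdiv_sq_ge h hw₀l hw₀d
          set k := kdiv B l (lv w₀) with hk
          have hk0 : (0 : ℝ) < k := lt_of_lt_of_le (by positivity) hk1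
          have hk0' : 0 < k := by exact_mod_cast hk0
          set G := SW.filter (fun w => (A (lv w), B (lv w)) = (A (lv w₀), B (lv w₀)))
          have hmono : evSum lv Sl G X (fun v w => kdiv B l (lv w) ∣ red v w) ≤
              evSum lv Sl G X (fun v w => k ∣ red v w) := by
            refine evSum_mono fun v _ w hw _ hh => ?_
            have he : B (lv w) = B (lv w₀) := congrArg Prod.snd (mem_filter.1 hw).2
            rw [hk, kdiv, ← he]
            exact hh
          refine hmono.trans ((hd lv Sl G (fun v hv => hS v (filter_subset _ _ hv))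
            (fun w hw => hS w (filter_subset _ _ (filter_subset _ _ hw))) X k hX.le hk0').trans ?_)
          have hMM : ((∑ v ∈ Sl, mass (lv v) v) * ∑ w ∈ G, mass (lv w) w) ^ thT ≤ M ^ (2 * thT) := by
            rw [← mass_pair_rpow hM0]
            refine rpow_le_rpow (mul_nonneg (sum_nonneg fun q _ => mass_nonneg _ _)
              (sum_nonneg fun q _ => mass_nonneg _ _)) ?_ (by norm_num [thT])
            exact mul_le_mul (sum_le_sum_of_subset_of_nonneg (filter_subset _ _) fun q _ _ => mass_nonneg _ _)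
              (sum_le_sum_of_subset_of_nonneg ((filter_subset _ _).trans (filter_subset _ _))
                fun q _ _ => mass_nonneg _ _) (sum_nonneg fun q _ => mass_nonneg _ _) hM0
          have hB0 : (1 : ℝ) ≤ B (lv w₀) := (cls_real h _).1
          have hpow : c ^ k.primeFactors.card * (k : ℝ) ^ (-(1 / 5) : ℝ) ≤
              4 * Cω * ((2 : ℝ) ^ l) ^ (-(1 / 12) : ℝ) * (B (lv w₀) : ℝ) ^ (-(1 / 24) : ℝ) := by
            calc c ^ k.primeFactors.card * (k : ℝ) ^ (-(1 / 5) : ℝ)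
                ≤ Cω * (k : ℝ) ^ (1 / 30 : ℝ) * (k : ℝ) ^ (-(1 / 5) : ℝ) :=
                  mul_le_mul_of_nonneg_right (hω k hk0') (by positivity)
              _ = Cω * ((k : ℝ) ^ (-(1 / 12) : ℝ) * (k : ℝ) ^ (-(1 / 12) : ℝ)) := by
                  rw [mul_assoc, ← rpow_add hk0, ← rpow_add hk0]; norm_num
              _ ≤ Cω * (((2 : ℝ) ^ l / 4) ^ (-(1 / 12) : ℝ) * (√(B (lv w₀) : ℝ) / 2) ^ (-(1 / 12) : ℝ)) := by
                  refine mul_le_mul_of_nonneg_left (mul_le_mul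
                    (rpow_le_rpow_of_nonpos (by positivity) hk1 (by norm_num))
                    (rpow_le_rpow_of_nonpos (by positivity) hk2 (by norm_num)) (by positivity) (by positivity)) hCω
              _ = Cω * ((4 : ℝ) ^ (1 / 12 : ℝ) * (2 : ℝ) ^ (1 / 12 : ℝ)) * ((2 : ℝ) ^ l) ^ (-(1 / 12) : ℝ) *
                    (B (lv w₀) : ℝ) ^ (-(1 / 24) : ℝ) := by
                  rw [div_rpow (by positivity) (by norm_num), div_rpow (by positivity) (by norm_num),
                    sqrt_eq_rpow, ← rpow_mul (by linarith), rpow_neg (show (0 : ℝ) ≤ 4 by norm_num),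
                    rpow_neg (show (0 : ℝ) ≤ 2 by norm_num)]
                  norm_num
                  ring
              _ ≤ _ := by
                  have e : (4 : ℝ) ^ (1 / 12 : ℝ) * (2 : ℝ) ^ (1 / 12 : ℝ) ≤ 4 := by
                    rw [← mul_rpow (by norm_num) (by norm_num)]
                    exact (rpow_le_rpow_of_exponent_le (by norm_num) (show (1 / 12 : ℝ) ≤ 2 / 3 by norm_num)).trans_eq
                      (by rw [show (4 : ℝ) * 2 = (2 : ℝ) ^ ((3 : ℕ) : ℝ) by rw [rpow_natCast]; norm_num,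
                        ← rpow_mul zero_le_two]; norm_num)
                  calc _ ≤ Cω * 4 * ((2 : ℝ) ^ l) ^ (-(1 / 12) : ℝ) * (B (lv w₀) : ℝ) ^ (-(1 / 24) : ℝ) := by
                        gcongr
                    _ = _ := by ring
          calc C * c ^ k.primeFactors.card * (k : ℝ) ^ (-(1 / 5) : ℝ) * (X ^ 2) ^ (1 - thT) *
                ((∑ v ∈ Sl, mass (lv v) v) * ∑ w ∈ G, mass (lv w) w) ^ thT
              ≤ C * (4 * Cω * ((2 : ℝ) ^ l) ^ (-(1 / 12) : ℝ) * (B (lv w₀) : ℝ) ^ (-(1 / 24) : ℝ)) *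
                  ((X ^ 2) ^ (1 - thT) * M ^ (2 * thT)) := by
                rw [mul_assoc C, mul_assoc]
                exact mul_le_mul (mul_le_mul_of_nonneg_left hpow hC)
                  (mul_le_mul_of_nonneg_left hMM (by positivity))
                  (mul_nonneg (by positivity) (rpow_nonneg (mul_nonneg (sum_nonneg fun q _ => mass_nonneg _ _)
                    (sum_nonneg fun q _ => mass_nonneg _ _)) _)) (by positivity)
            _ = _ := by ring
        refine (sum_le_sum hg).trans ?_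
        rw [← mul_sum, show SW.image (fun w => (A (lv w), B (lv w))) =
          (SW.image lv).image (fun L => (A L, B L)) by rw [image_image]; rfl]
        refine (mul_le_mul_of_nonneg_left (hcls γ A B h (SW.image lv)) (by positivity)).trans_eq ?_
        ring
      have hl0 : (0 : ℝ) ≤ l := Nat.cast_nonneg l
      have hdec : ((2 : ℝ) ^ l) ^ (-(1 / 12) : ℝ) * (1 + (l : ℝ)) ^ N * X ^ (-(1 / 500) : ℝ) ≤
          Cp * (6 * zGap X ^ (-(1 / 500) : ℝ)) * ρ ^ l := by
        have e1 : ((2 : ℝ) ^ l) ^ (-(1 / 12) : ℝ) = ((2 : ℝ) ^ l) ^ (-(1 / 16) : ℝ) *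
            (2 : ℝ) ^ (-(1 / 96 * (l : ℝ))) * ρ ^ l := by
          rw [hρ, ← rpow_natCast ((2 : ℝ) ^ (-(1 / 96) : ℝ)), ← rpow_natCast (2 : ℝ) l, ← rpow_mul zero_le_two,
            ← rpow_mul zero_le_two, ← rpow_mul zero_le_two, ← rpow_add two_pos, ← rpow_add two_pos]
          ring_nf
        have e2 : ((2 : ℝ) ^ l) ^ (-(1 / 16) : ℝ) * X ^ (-(1 / 500) : ℝ) ≤ 6 * zGap X ^ (-(1 / 500) : ℝ) := by
          have h6 : (6 : ℝ) ^ (1 / 500 : ℝ) ≤ 6 := rpow_le_self_of_one_le (by norm_num) (by norm_num)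
          have hone : ((2 : ℝ) ^ l) ^ (-(1 / 16) : ℝ) ≤ 1 :=
            rpow_le_one_of_one_le_of_nonpos (one_le_pow₀ one_le_two) (by norm_num)
          rcases le_total 1 X with hX1 | hX1
          · refine (mul_le_of_le_one_left (by positivity) hone).trans ?_
            have h1 : zGap X ≤ 6 * X := by
              have : 1 / X ≤ 1 := by rw [div_le_one hX]; linarith
              rw [zGap]; linarith
            have h2 := rpow_le_rpow_of_nonpos (by linarith) h1 (show (-(1 / 500) : ℝ) ≤ 0 by norm_num)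
            rw [mul_rpow (by norm_num) hX.le, rpow_neg (by norm_num : (0 : ℝ) ≤ 6),
              inv_mul_le_iff₀ (by positivity)] at h2
            exact h2.trans (mul_le_mul_of_nonneg_right h6 (by positivity))
          · have h2l : ((2 : ℝ) ^ l) ^ (-(1 / 16) : ℝ) ≤ X ^ (1 / 32 : ℝ) := by
              rw [rad, inv_le_comm₀ (by positivity) hX, four_pow_eq] at hbigX
              rw [rpow_neg (by positivity), inv_le_comm₀ (by positivity) (by positivity), ← inv_rpow hX.le]
              refine (rpow_le_rpow (by positivity) hbigX (by norm_num)).trans_eq ?_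
              rw [mul_rpow (by positivity) (by positivity), ← rpow_add (by positivity)]
              norm_num
            calc ((2 : ℝ) ^ l) ^ (-(1 / 16) : ℝ) * X ^ (-(1 / 500) : ℝ)
                ≤ X ^ (1 / 32 : ℝ) * X ^ (-(1 / 500) : ℝ) := mul_le_mul_of_nonneg_right h2l (by positivity)
              _ ≤ X ^ (1 / 500 : ℝ) := by
                  rw [← rpow_add hX]; exact rpow_le_rpow_of_exponent_ge hX hX1 (by norm_num)
              _ ≤ (6 / zGap X) ^ (1 / 500 : ℝ) := by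
                  refine rpow_le_rpow hX.le ?_ (by norm_num)
                  rw [le_div_iff₀ (by linarith), zGap, mul_add, mul_add, mul_one_div_cancel hX.ne']
                  nlinarith
              _ ≤ _ := by
                  rw [div_rpow (by norm_num) (by linarith), rpow_neg (by linarith), ← div_eq_mul_inv]
                  gcongr
        rw [e1]
        have := hpoly l hl0
        calc _ = (((2 : ℝ) ^ l) ^ (-(1 / 16) : ℝ) * X ^ (-(1 / 500) : ℝ)) *
              ((1 + (l : ℝ)) ^ N * (2 : ℝ) ^ (-(1 / 96 * (l : ℝ)))) * ρ ^ l := by ring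
          _ ≤ 6 * zGap X ^ (-(1 / 500) : ℝ) * Cp * ρ ^ l := by gcongr
          _ = _ := by ring
      have hlX : (lX X + (l : ℝ)) ^ N ≤ lX X ^ N * (1 + (l : ℝ)) ^ N := by
        rw [← mul_pow]
        refine pow_le_pow_left₀ (by linarith) ?_ N
        nlinarith
      have hev0 : 0 ≤ ev l := sum_nonneg fun v _ => sum_nonneg fun w _ => by
        split
        · exact mul_nonneg (mass_nonneg _ _) (mass_nonneg _ _)
        · exact le_rfl
      calc (lX X + (l : ℝ)) ^ N / X * ev l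
          ≤ lX X ^ N * (1 + (l : ℝ)) ^ N * (1 / X) *
              (4 * C * Cω * Cs * ((2 : ℝ) ^ l) ^ (-(1 / 12) : ℝ) * ((X ^ 2) ^ (1 - thT) * M ^ (2 * thT))) := by
            rw [← mul_one_div]
            exact mul_le_mul (mul_le_mul_of_nonneg_right hlX (by positivity)) (hle.trans hcl) hev0
              (by positivity)
        _ = 4 * C * Cω * Cs * M ^ (2 * thT) * lX X ^ N *
              (((2 : ℝ) ^ l) ^ (-(1 / 12) : ℝ) * (1 + (l : ℝ)) ^ N * (1 / X * (X ^ 2) ^ (1 - thT))) := by ring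
        _ ≤ 4 * C * Cω * Cs * M ^ (2 * thT) * lX X ^ N * (Cp * (6 * zGap X ^ (-(1 / 500) : ℝ)) * ρ ^ l) := by
            rw [inv_mul_sq_eq hX]
            exact mul_le_mul_of_nonneg_left hdec (by positivity)
        _ = _ := by ring
    have hsplit : ∑ v ∈ S, ∑ w ∈ S, pW lv X v w *
        (if lv v ≤ lv w ∧ KEv A B (lv v) (lv w) (red v w) then (lX X + lv v) ^ N / X else 0) =
        ∑ l ∈ S.image lv, (lX X + (l : ℝ)) ^ N / X * ev l := by
      rw [← sum_fiberwise_of_maps_to (t := S.image lv) (g := lv) (fun v hv => mem_image_of_mem _ hv)]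
      refine sum_congr rfl fun l _ => ?_
      simp only [ev, evSum_eq, mul_sum]
      refine sum_congr rfl fun v hv => sum_congr rfl fun w _ => ?_
      rw [← (mem_filter.1 hv).2]
      split <;> ring
    rw [hsplit]
    refine (sum_le_sum hper).trans ?_
    rw [← mul_sum]
    have hgeo : ∑ l ∈ S.image lv, ρ ^ l ≤ 1 / (1 - ρ) := by
      refine (sum_le_sum_of_subset_of_nonneg (t := range ((S.image lv).sup id + 1))
        (fun i hi => mem_range.2 (Nat.lt_succ_of_le (le_sup (f := id) hi))) fun i _ _ => pow_nonneg hρ0 _).trans ?_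
      rw [range_eq_Ico]
      exact (geom_sum_Ico_le_of_lt_one hρ0 hρ1).trans_eq (by rw [pow_zero])
    calc _ ≤ 4 * C * Cω * Cs * Cp * M ^ (2 * thT) * (6 * lX X ^ N * zGap X ^ (-(1 / 500) : ℝ)) *
          (1 / (1 - ρ)) := mul_le_mul_of_nonneg_left hgeo (by positivity)
      _ = 6 * Cl * M ^ (2 * thT) * (lX X ^ N * zGap X ^ (-(1 / 500) : ℝ)) := by rw [hCl]; ring
      _ ≤ 6 * Cl * M ^ (2 * thT) * (CN * zGap X ^ (1 / 1000 : ℝ) * zGap X ^ (-(1 / 500) : ℝ)) := by
          gcongr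
          exact hN X hX
      _ = _ := by
          rw [mul_assoc CN, ← rpow_add (by linarith)]; norm_num; ring
  refine (sum_le_sum hterm).trans ?_
  rw [← mul_sum]
  refine (mul_le_mul_of_nonneg_left (hz I) (by positivity)).trans_eq ?_
  ring

end Vale.Agent.P028.Tame
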