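import Vale.Agent.P028.Tame.Stmts

/-! Expansions of the events of a pair into divisibility events, and scalar bounds in the gap. -/

namespace Vale.Agent.P028.Tame

open Finset Real
open scoped Classical

/-- The size of a gap in both directions. -/
noncomputable def zGap (X : ℝ) : ℝ := 4 + X + 1 / X

theorem four_le_zGap {X : ℝ} (hX : 0 < X) : 4 ≤ zGap X := by
  have : 0 < 1 / X := by positivity
  rw [zGap]; linarith

theorem poly_lX_le (N : ℕ) {s : ℝ} (hs : 0 < s) :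
    ∃ C : ℝ, 0 ≤ C ∧ ∀ X : ℝ, 0 < X → lX X ^ N ≤ C * zGap X ^ s := by
  set c := s / ((N : ℝ) + 1) with hc
  have hc0 : 0 < c := by positivity
  refine ⟨(1 + 1 / c) ^ N, by positivity, fun X hX => ?_⟩
  have hZ := four_le_zGap hX
  have hXi : 0 < 1 / X := by positivity
  have h1 : lX X ≤ (1 + 1 / c) * zGap X ^ c := by
    have h2 : log (2 + X + 1 / X) ≤ log (zGap X) := log_le_log (by positivity) (by rw [zGap]; linarith)
    have h3 := log_le_rpow_div (show (0 : ℝ) ≤ zGap X by linarith) hc0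
    have h4 : 1 ≤ zGap X ^ c := one_le_rpow (by linarith) hc0.le
    rw [lX, add_mul, one_mul, one_div_mul_eq_div]
    linarith
  have h0 : 0 ≤ lX X := by
    have := log_nonneg (show (1 : ℝ) ≤ 2 + X + 1 / X by linarith)
    rw [lX]; linarith
  refine (pow_le_pow_left₀ h0 h1 N).trans ?_
  rw [mul_pow, ← rpow_natCast (zGap X ^ c) N, ← rpow_mul (by linarith)]
  refine mul_le_mul_of_nonneg_left (rpow_le_rpow_of_exponent_le (by linarith) ?_) (by positivity)
  rw [hc, div_mul_eq_mul_div, div_le_iff₀ (by positivity)]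
  nlinarith

theorem inv_mul_sq_eq {X : ℝ} (hX : 0 < X) : 1 / X * (X ^ 2) ^ (1 - thT) = X ^ (-(1 / 500) : ℝ) := by
  rw [← rpow_natCast X 2, ← rpow_mul hX.le, one_div, ← rpow_neg_one, ← rpow_add hX]
  norm_num [thT]

theorem coef_inv_le {X : ℝ} (hX : 0 < X) : 1 / X * (X ^ 2) ^ (1 - thT) ≤ zGap X ^ (1 / 500 : ℝ) := by
  rw [inv_mul_sq_eq hX, rpow_neg hX.le, ← inv_rpow hX.le, inv_eq_one_div X]
  exact rpow_le_rpow (by positivity) (by rw [zGap]; linarith) (by norm_num)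

theorem coef_le {X : ℝ} (hX : 0 < X) : (1 + 1 / X) * (X ^ 2) ^ (1 - thT) ≤ 2 * zGap X := by
  have hZ := four_le_zGap hX
  have hXi : 0 < 1 / X := by positivity
  rw [add_mul, one_mul]
  have h1 : (X ^ 2) ^ (1 - thT) ≤ zGap X := by
    rw [← rpow_natCast X 2, ← rpow_mul hX.le]
    refine (rpow_le_rpow hX.le (show X ≤ zGap X by rw [zGap]; linarith) (by norm_num [thT])).trans ?_
    exact (rpow_le_rpow_of_exponent_le (by linarith) (by norm_num [thT])).trans_eq (rpow_one _)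
  have h2 : 1 / X * (X ^ 2) ^ (1 - thT) ≤ zGap X :=
    (coef_inv_le hX).trans ((rpow_le_rpow_of_exponent_le (by linarith) (by norm_num)).trans_eq (rpow_one _))
  linarith

theorem two_pow_natAbs_le (i : ℤ) : (2 : ℝ) ^ i.natAbs ≤ zGap ((2 : ℝ) ^ i) := by
  have h1 : (0 : ℝ) < (2 : ℝ) ^ i := zpow_pos two_pos i
  rcases Int.natAbs_eq i with h | h
  · rw [zGap, ← zpow_natCast, ← h]
    have : 0 < 1 / (2 : ℝ) ^ i := by positivity
    linarith
  · rw [zGap, ← zpow_natCast, show (i.natAbs : ℤ) = -i by omega, zpow_neg, one_div]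
    linarith

/-- A decaying function of the gap is summable over the dyadic gaps. -/
theorem sum_zGap_le {s : ℝ} (hs : 0 < s) :
    ∃ C : ℝ, 0 ≤ C ∧ ∀ I : Finset ℤ, ∑ i ∈ I, zGap ((2 : ℝ) ^ i) ^ (-s) ≤ C := by
  set r := (2 : ℝ) ^ (-s) with hr
  have hr1 : r < 1 := rpow_lt_one_of_one_lt_of_neg one_lt_two (by linarith)
  have hr0 : 0 ≤ r := by positivity
  refine ⟨2 * (1 / (1 - r)), mul_nonneg zero_le_two (div_nonneg zero_le_one (by linarith)), fun I => ?_⟩
  have h1 : ∀ i ∈ I, zGap ((2 : ℝ) ^ i) ^ (-s) ≤ r ^ i.natAbs := fun i _ => by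
    rw [hr, ← rpow_natCast ((2 : ℝ) ^ (-s)), ← rpow_mul zero_le_two, mul_comm, rpow_mul zero_le_two,
      rpow_natCast]
    exact rpow_le_rpow_of_nonpos (by positivity) (two_pow_natAbs_le i) (by linarith)
  refine (sum_le_sum h1).trans ?_
  rw [← sum_fiberwise_of_maps_to (t := I.image Int.natAbs) (g := Int.natAbs)
    (fun i hi => mem_image_of_mem _ hi)]
  have h2 : ∀ n ∈ I.image Int.natAbs, ∑ i ∈ I.filter (fun i => i.natAbs = n), r ^ i.natAbs ≤ 2 * r ^ n := by
    intro n _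
    rw [sum_congr rfl (g := fun _ => r ^ n) (fun i hi => by rw [(mem_filter.1 hi).2]), sum_const,
      nsmul_eq_mul]
    refine mul_le_mul_of_nonneg_right ?_ (pow_nonneg hr0 _)
    have : (I.filter (fun i => i.natAbs = n)).card ≤ ({(n : ℤ), -(n : ℤ)} : Finset ℤ).card :=
      card_le_card fun i hi => by
        have := (mem_filter.1 hi).2
        simp only [mem_insert, mem_singleton]
        omega
    exact_mod_cast this.trans card_le_two
  refine (sum_le_sum h2).trans ?_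
  rw [← mul_sum]
  refine mul_le_mul_of_nonneg_left ?_ zero_le_two
  refine (sum_le_sum_of_subset_of_nonneg (t := range ((I.image Int.natAbs).sup id + 1))
    (fun i hi => mem_range.2 (Nat.lt_succ_of_le (le_sup (f := id) hi))) fun i _ _ => pow_nonneg hr0 _).trans ?_
  rw [range_eq_Ico]
  exact (geom_sum_Ico_le_of_lt_one hr0 hr1).trans_eq (by rw [pow_zero])

/-- Tail of a convergent power series of integers. -/
theorem sum_rpow_tail {s : ℝ} (hs : 0 < s) :
    ∃ C : ℝ, 0 ≤ C ∧ ∀ (y : ℝ) (U : Finset ℕ), 1 ≤ y → (∀ p ∈ U, y < (p : ℝ)) →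
      ∑ p ∈ U, (p : ℝ) ^ (-(1 + s)) ≤ C * y ^ (-(s / 2)) := by
  have hsum : Summable fun n : ℕ => (n : ℝ) ^ (-(1 + s / 2)) := Real.summable_nat_rpow.2 (by linarith)
  refine ⟨∑' n : ℕ, (n : ℝ) ^ (-(1 + s / 2)), tsum_nonneg fun n => rpow_nonneg (Nat.cast_nonneg n) _,
    fun y U hy hU => ?_⟩
  calc ∑ p ∈ U, (p : ℝ) ^ (-(1 + s)) ≤ ∑ p ∈ U, (p : ℝ) ^ (-(1 + s / 2)) * y ^ (-(s / 2)) := by
        refine sum_le_sum fun p hp => ?_
        have hp0 : (0 : ℝ) < p := lt_of_lt_of_le (by linarith) (hU p hp).le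
        rw [show -(1 + s) = -(1 + s / 2) + -(s / 2) by ring, rpow_add hp0]
        exact mul_le_mul_of_nonneg_left (rpow_le_rpow_of_nonpos (by linarith) (hU p hp).le (by linarith))
          (by positivity)
    _ ≤ _ := by
        rw [← sum_mul]
        exact mul_le_mul_of_nonneg_right
          (hsum.sum_le_tsum U fun n _ => rpow_nonneg (Nat.cast_nonneg n) _) (by positivity)

theorem exp_sub_one_le (x : ℝ) : Real.exp x - 1 ≤ x * Real.exp x := by
  have hm := mul_le_mul_of_nonneg_left (Real.add_one_le_exp (-x)) (Real.exp_nonneg x)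
  rw [← Real.exp_add, add_neg_cancel, Real.exp_zero] at hm
  linarith

/-- The excess of the cubed ratio at one prime. -/
noncomputable def fExc (p : ℕ) : ℝ := ((p : ℝ) / (p - 1)) ^ 3 - 1

theorem fExc_bounds {p : ℕ} (hp : p.Prime) : 0 ≤ fExc p ∧ fExc p ≤ 14 * (p : ℝ)⁻¹ := by
  have h2 : (2 : ℝ) ≤ p := by exact_mod_cast hp.two_le
  have h1 := ratio_ge_one hp
  set r := (p : ℝ) / (p - 1) with hr
  have hr2 : r ≤ 2 := by rw [hr, div_le_iff₀ (by linarith)]; linarith
  have hrp : r - 1 ≤ 2 * (p : ℝ)⁻¹ := by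
    rw [hr, div_sub_one (by linarith), ← div_eq_mul_inv, sub_sub_cancel,
      div_le_div_iff₀ (by linarith) (by linarith)]
    linarith
  have e : fExc p = (r - 1) * (r ^ 2 + r + 1) := by rw [fExc]; ring
  rw [e]
  refine ⟨mul_nonneg (by linarith) (by positivity), ?_⟩
  calc (r - 1) * (r ^ 2 + r + 1) ≤ 2 * (p : ℝ)⁻¹ * 7 :=
        mul_le_mul hrp (by nlinarith) (by positivity) (by positivity)
    _ = _ := by ring

theorem prod_ratio_cube (U : Finset ℕ) :
    ∏ p ∈ U, ((p : ℝ) / (p - 1)) ^ 3 = ∏ p ∈ U, (1 + fExc p) :=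
  prod_congr rfl fun p _ => by rw [fExc]; ring

/-- A product minus one through its nonempty subproducts in a larger universe. -/
theorem prod_sub_one_eq {T U : Finset ℕ} (hTU : T ⊆ U) (f : ℕ → ℝ) :
    ∏ p ∈ T, (1 + f p) - 1 = ∑ t ∈ U.powerset.erase ∅, if t ⊆ T then ∏ p ∈ t, f p else 0 := by
  rw [prod_one_add, ← sum_filter]
  have he : (U.powerset.erase ∅).filter (fun t => t ⊆ T) = T.powerset.erase ∅ := by
    ext t
    simp only [mem_filter, mem_erase, mem_powerset]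
    exact ⟨fun h => ⟨h.1.1, h.2⟩, fun h => ⟨⟨h.1, h.2.trans hTU⟩, h.2⟩⟩
  rw [he, sum_erase_eq_sub (empty_mem_powerset T), prod_empty]

/-- The total of nonempty subproducts. -/
theorem sum_subprod_le {U : Finset ℕ} {f : ℕ → ℝ} (hf : ∀ p ∈ U, 0 ≤ f p) :
    ∑ t ∈ U.powerset.erase ∅, ∏ p ∈ t, f p ≤ Real.exp (∑ p ∈ U, f p) - 1 := by
  rw [sum_erase_eq_sub (empty_mem_powerset U), prod_empty, ← prod_one_add, Real.exp_sum]
  refine sub_le_sub_right (prod_le_prod (fun p hp => by linarith [hf p hp]) fun p _ => ?_) _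
  linarith [Real.add_one_le_exp (f p)]

/-- Sub-products reach every height up to the whole product. -/
theorem exists_subprod {H : ℕ} {T : ℝ} (hT : 1 ≤ T) : ∀ s : Finset ℕ, (∀ p ∈ s, p ≤ H) →
    T < ((∏ p ∈ s, p : ℕ) : ℝ) → ∃ t ⊆ s, T < ((∏ p ∈ t, p : ℕ) : ℝ) ∧ ((∏ p ∈ t, p : ℕ) : ℝ) ≤ T * H := by
  intro s
  induction s using Finset.induction_on with
  | empty => intro _ h; simp at h; linarith
  | insert a s ha ih =>
    intro hH h
    by_cases hs : T < ((∏ p ∈ s, p : ℕ) : ℝ)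
    · obtain ⟨t, ht, h1, h2⟩ := ih (fun p hp => hH p (mem_insert_of_mem hp)) hs
      exact ⟨t, ht.trans (subset_insert _ _), h1, h2⟩
    · refine ⟨insert a s, subset_rfl, h, ?_⟩
      rw [prod_insert ha, Nat.cast_mul, mul_comm T]
      exact mul_le_mul (by exact_mod_cast hH a (mem_insert_self _ _)) (not_lt.1 hs)
        (Nat.cast_nonneg _) (Nat.cast_nonneg _)

/-- The weight of a pair with gap at most `D`. -/
noncomputable def pW (lv : ℕ → ℕ) (D : ℝ) (v w : ℕ) : ℝ :=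
  if dgap (lv v) (lv w) v w ≤ D then mass (lv v) v * mass (lv w) w else 0

theorem pW_nonneg (lv : ℕ → ℕ) (D : ℝ) (v w : ℕ) : 0 ≤ pW lv D v w := by
  rw [pW]; split
  · exact mul_nonneg (mass_nonneg _ _) (mass_nonneg _ _)
  · exact le_rfl

theorem evSum_eq (lv : ℕ → ℕ) (SV SW : Finset ℕ) (D : ℝ) (E : ℕ → ℕ → Prop) :
    evSum lv SV SW D E = ∑ v ∈ SV, ∑ w ∈ SW, if E v w then pW lv D v w else 0 := by
  refine sum_congr rfl fun v _ => sum_congr rfl fun w _ => ?_
  by_cases hE : E v w <;> simp [pW, hE]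

theorem evSum_mono {lv : ℕ → ℕ} {SV SW : Finset ℕ} {D : ℝ} {E E' : ℕ → ℕ → Prop}
    (h : ∀ v ∈ SV, ∀ w ∈ SW, dgap (lv v) (lv w) v w ≤ D → E v w → E' v w) :
    evSum lv SV SW D E ≤ evSum lv SV SW D E' := by
  refine sum_le_sum fun v hv => sum_le_sum fun w hw => ?_
  by_cases hc : dgap (lv v) (lv w) v w ≤ D ∧ E v w
  · rw [if_pos hc, if_pos ⟨hc.1, h v hv w hw hc.1 hc.2⟩]
  · rw [if_neg hc]; split
    · exact mul_nonneg (mass_nonneg _ _) (mass_nonneg _ _)
    · exact le_rfl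

theorem dgap_comm (l L q r : ℕ) : dgap l L q r = dgap L l r q := max_comm _ _

theorem evSum_swap (lv : ℕ → ℕ) (SV SW : Finset ℕ) (D : ℝ) (E : ℕ → ℕ → Prop) :
    evSum lv SV SW D E = evSum lv SW SV D (fun w v => E v w) := by
  rw [evSum, evSum, sum_comm]
  refine sum_congr rfl fun w _ => sum_congr rfl fun v _ => ?_
  rw [dgap_comm (lv v) (lv w), mul_comm (mass (lv v) v)]

/-- A combination of events against the weights of the pairs. -/
theorem sum_pW_events {ι : Type*} (lv : ℕ → ℕ) (SV SW : Finset ℕ) (D : ℝ) (T : Finset ι) (c : ι → ℝ)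
    (E : ι → ℕ → ℕ → Prop) :
    ∑ v ∈ SV, ∑ w ∈ SW, pW lv D v w * (∑ t ∈ T, if E t v w then c t else 0) =
      ∑ t ∈ T, c t * evSum lv SV SW D (E t) := by
  simp only [evSum_eq, mul_sum]
  rw [sum_comm (s := T)]
  refine sum_congr rfl fun v _ => ?_
  rw [sum_comm (s := T)]
  refine sum_congr rfl fun w _ => sum_congr rfl fun t _ => ?_
  split <;> ring

end Vale.Agent.P028.Tame
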