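import Vale.Agent.P028.Tame.Stmts
import Vale.Agent.P028.LineBound

/-! The pairs on the exact line of a new approximation, all levels at once. -/

namespace Vale.Agent.P028.Tame

open Finset Real
open scoped Classical

theorem exp_rpow_le_two_pow {σ : ℝ} (hσ : 0 ≤ σ) (hσ1 : σ < 1) (c : ℝ) (hc : 0 ≤ c) :
    ∃ C : ℝ, 0 ≤ C ∧ ∀ l : ℕ, 1 ≤ l → exp (c * (l : ℝ) ^ σ) ≤ C * (2 : ℝ) ^ l := by
  set x₀ : ℝ := (c / log 2) ^ (1 - σ)⁻¹
  have hlog : 0 < log 2 := log_pos one_lt_two
  have hx₀ : 0 ≤ x₀ := rpow_nonneg (div_nonneg hc hlog.le) _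
  refine ⟨exp (c * x₀ ^ σ), (exp_pos _).le, fun l hl => ?_⟩
  have hl0 : (0 : ℝ) < l := by exact_mod_cast hl
  rw [← rpow_natCast (2 : ℝ) l, rpow_def_of_pos two_pos, ← exp_add, exp_le_exp]
  rcases le_total (l : ℝ) x₀ with h | h
  · have h1 : c * (l : ℝ) ^ σ ≤ c * x₀ ^ σ :=
      mul_le_mul_of_nonneg_left (rpow_le_rpow hl0.le h hσ) hc
    nlinarith
  · have h1 : c / log 2 ≤ (l : ℝ) ^ (1 - σ) := by
      refine le_trans (le_of_eq ?_) (rpow_le_rpow hx₀ h (by linarith))
      rw [← rpow_mul (div_nonneg hc hlog.le), inv_mul_cancel₀ (by linarith), rpow_one]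
    have h2 : c * (l : ℝ) ^ σ ≤ log 2 * l := by
      rw [div_le_iff₀ hlog] at h1
      calc c * (l : ℝ) ^ σ ≤ (l : ℝ) ^ (1 - σ) * log 2 * (l : ℝ) ^ σ :=
            mul_le_mul_of_nonneg_right h1 (rpow_nonneg hl0.le _)
        _ = log 2 * ((l : ℝ) ^ (1 - σ) * (l : ℝ) ^ σ) := by ring
        _ = log 2 * l := by rw [← rpow_add hl0, sub_add_cancel, rpow_one]
    have : 0 ≤ c * x₀ ^ σ := by positivity
    linarith

/-- The partners of one denominator at one level. -/
theorem line_level {v : ℕ} (L B : ℕ) (hB : 0 < B) (W : Finset ℕ) :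
    ∑ w ∈ W, mass L w * gLine B L (red v w) (red w v) ≤ (B : ℝ)⁻¹ * (1 + 2 * L) := by
  set W' := W.filter (fun w => red w v = 1 ∧ red v w ∈ lineSet B L)
  have hz : ∑ w ∈ W, mass L w * gLine B L (red v w) (red w v) =
      ∑ w ∈ W', mass L w * ((4 : ℝ) ^ L / red v w) := by
    rw [sum_filter]
    refine sum_congr rfl fun w _ => ?_
    simp only [gLine]
    split <;> simp
  have hform : ∀ w ∈ W', w * red v w = v := fun w hw => by
    have h1 := (mem_filter.1 hw).2.1
    have hg := red_mul_gcd w v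
    rw [h1, mul_one] at hg
    have h2 := red_mul_gcd v w
    rw [Nat.gcd_comm v w, hg] at h2
    exact h2
  rw [hz]
  refine le_trans ?_ (sum_inv_lineSet (B := B) (L := L) hB)
  calc ∑ w ∈ W', mass L w * ((4 : ℝ) ^ L / red v w) ≤ ∑ w ∈ W', (red v w : ℝ)⁻¹ := by
        refine sum_le_sum fun w _ => ?_
        refine (mul_le_mul_of_nonneg_right (mul_le_of_le_one_right (rad_pos L).le (phiR_le_one w))
          (by positivity)).trans_eq ?_
        rw [rad]; field_simp
    _ = ∑ a ∈ W'.image (fun w => red v w), (a : ℝ)⁻¹ := by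
        refine (sum_image (f := fun a : ℕ => (a : ℝ)⁻¹) fun x hx y hy hxy => ?_).symm
        have e1 := hform x hx
        have e2 := hform y hy
        have hxy' : red v x = red v y := hxy
        rw [← hxy'] at e2
        have : 2 ≤ red v x := (mem_Icc.1 (mem_filter.1 (mem_filter.1 hx).2.2).1).1
        exact Nat.eq_of_mul_eq_mul_right (by omega) (e1.trans e2.symm)
    _ ≤ _ := sum_le_sum_of_subset_of_nonneg
        (image_subset_iff.2 fun w hw => (mem_filter.1 hw).2.2) fun _ _ _ => by positivity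

theorem linePairs : LinePairsStmt := by
  intro σ C₀ hσ hσ1 hC₀ N
  obtain ⟨Ce, hCe, hexp⟩ := exp_rpow_le_two_pow hσ hσ1 (((N + 2 : ℕ) : ℝ) * C₀) (by positivity)
  refine ⟨4 * 11 ^ (N + 2) * Ce, by positivity, fun γ A B hcls lv S hS => ?_⟩
  rw [mul_sum]
  refine sum_le_sum fun v hv => ?_
  obtain ⟨hv0, hl, hlog, -⟩ := hS v hv
  set l := lv v
  set G : ℕ → ℕ → ℝ := fun L w =>
    if l ≤ L ∧ ¬ SameCls A B l L then
      ((L : ℝ) + 8) ^ N * (mass L w * gLine (B L) L (red v w) (red w v)) else 0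
  set Lm := ⌊3 * exp (C₀ * (l : ℝ) ^ σ)⌋₊
  set E := exp (C₀ * (l : ℝ) ^ σ) with hE
  have hE1 : 1 ≤ E := one_le_exp (by positivity)
  have hzero : ∀ w ∈ S, G (lv w) w ≠ 0 → lv w ∈ range (Lm + 1) := by
    intro w hw hne
    obtain ⟨hw0, -, -, h4⟩ := hS w hw
    have hgl : gLine (B (lv w)) (lv w) (red v w) (red w v) ≠ 0 := by
      intro h0
      simp only [G, h0, mul_zero, ite_self] at hne
      exact hne rfl
    have hwv : w ≤ v := by
      have hb : red w v = 1 := by
        by_contra hb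
        exact hgl (if_neg fun hh => hb hh.1)
      have hg := red_mul_gcd w v
      rw [hb, mul_one] at hg
      exact hg ▸ Nat.gcd_le_right _ hv0
    have hv1 : (1 : ℝ) ≤ v := by exact_mod_cast hv0
    have hwv' : (w : ℝ) ≤ v := by exact_mod_cast hwv
    have h4v : (4 : ℝ) ^ lv w ≤ 4 * ((v : ℝ) + 16) ^ 2 := h4.trans (by gcongr; linarith)
    have h5 := log_le_log (by positivity) h4v
    rw [log_pow, log_mul (by norm_num) (by positivity), log_pow] at h5
    have hv16 : log ((v : ℝ) + 16) ≤ E := by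
      have hpos : 0 < log ((v : ℝ) + 16) := log_pos (by linarith)
      rw [hE, ← exp_log hpos]
      exact exp_le_exp.2 hlog
    have hl4 : (1 : ℝ) ≤ log 4 := by
      rw [show (4 : ℝ) = 2 ^ 2 by norm_num, log_pow]
      have := Real.log_two_gt_d9
      push_cast; linarith
    refine mem_range.2 (Nat.lt_succ_of_le (Nat.le_floor ?_))
    push_cast at h5
    nlinarith [(Nat.cast_nonneg (lv w) : (0 : ℝ) ≤ lv w)]
  have hsum : ∑ w ∈ S, G (lv w) w ≤ 4 * 11 ^ (N + 2) * Ce := by
    rw [← sum_filter_ne_zero]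
    rw [← sum_fiberwise_of_maps_to (t := range (Lm + 1)) (g := lv)
      (fun w hw => hzero w (mem_filter.1 hw).1 (mem_filter.1 hw).2)]
    have hfl : (Lm : ℝ) ≤ 3 * E := Nat.floor_le (by positivity)
    have hlev : ∀ L ∈ range (Lm + 1),
        ∑ w ∈ (S.filter (fun w => G (lv w) w ≠ 0)).filter (fun w => lv w = L), G (lv w) w ≤
          (11 * E) ^ (N + 1) * (2 * ((2 : ℝ) ^ l)⁻¹) := by
      intro L hL
      rw [sum_congr rfl fun w hw => by rw [(mem_filter.1 hw).2]]
      have hLm : (L : ℝ) ≤ 3 * E :=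
        le_trans (by exact_mod_cast Nat.lt_succ_iff.1 (mem_range.1 hL)) hfl
      by_cases hc : l ≤ L ∧ ¬ SameCls A B l L
      · simp only [G, if_pos hc, ← mul_sum]
        obtain ⟨-, -, hB, -⟩ := cls_diff hcls hc.1 hc.2
        have hBpos : 0 < B L := (hcls L).1
        have hBinv : ((B L : ℕ) : ℝ)⁻¹ ≤ 2 * ((2 : ℝ) ^ l)⁻¹ := by
          have : (2 : ℝ) ^ l ≤ 2 * (B L : ℕ) := by exact_mod_cast hB
          rw [← div_eq_mul_inv, inv_le_iff_one_le_mul₀ (by exact_mod_cast hBpos), div_mul_eq_mul_div,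
            one_le_div (by positivity)]
          exact this
        calc ((L : ℝ) + 8) ^ N *
              ∑ w ∈ (S.filter (fun w => G (lv w) w ≠ 0)).filter (fun w => lv w = L),
                mass L w * gLine (B L) L (red v w) (red w v)
            ≤ (11 * E) ^ N * (((B L : ℕ) : ℝ)⁻¹ * (1 + 2 * L)) := by
              refine mul_le_mul (pow_le_pow_left₀ (by positivity) (by linarith) N)
                (line_level L (B L) hBpos _) (sum_nonneg fun w _ => mul_nonneg (mass_nonneg _ _) ?_)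
                (by positivity)
              unfold gLine; split <;> positivity
          _ ≤ (11 * E) ^ N * (2 * ((2 : ℝ) ^ l)⁻¹ * (11 * E)) := by gcongr; linarith
          _ = _ := by ring
      · simp only [G, if_neg hc, sum_const_zero]
        positivity
    refine (sum_le_sum hlev).trans ?_
    rw [sum_const, card_range, nsmul_eq_mul]
    calc ((Lm + 1 : ℕ) : ℝ) * ((11 * E) ^ (N + 1) * (2 * ((2 : ℝ) ^ l)⁻¹))
        ≤ (2 * (11 * E)) * ((11 * E) ^ (N + 1) * (2 * ((2 : ℝ) ^ l)⁻¹)) := by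
          gcongr; push_cast; linarith
      _ = 4 * 11 ^ (N + 2) * (E ^ (N + 2) * ((2 : ℝ) ^ l)⁻¹) := by ring
      _ ≤ 4 * 11 ^ (N + 2) * Ce := by
          refine mul_le_mul_of_nonneg_left ?_ (by positivity)
          rw [← div_eq_mul_inv, div_le_iff₀ (by positivity), hE, ← exp_nat_mul, ← mul_assoc]
          exact hexp l hl
  calc _ = mass l v * ∑ w ∈ S, G (lv w) w := by
        rw [mul_sum]
        refine sum_congr rfl fun w _ => ?_
        simp only [G, mul_ite, mul_zero]
        exact if_congr Iff.rfl (by ring) rfl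
    _ ≤ mass l v * (4 * 11 ^ (N + 2) * Ce) := mul_le_mul_of_nonneg_left hsum (mass_nonneg _ _)
    _ = _ := by ring

end Vale.Agent.P028.Tame
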