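import Vale.Agent.P028.Tame.Stmts
import Vale.Agent.P028.NearBound

/-! Pairs of two levels with a very small gap off the line, for every ratio of the levels. -/

namespace Vale.Agent.P028.Tame

open Finset Real
open scoped Classical

/-- `near_II` with a wider range of levels and a larger threshold. -/
theorem near_wide : ∃ C : ℝ, 0 ≤ C ∧ ∀ (γ : ℝ) (A : ℕ → ℤ) (B : ℕ → ℕ), IsCls γ A B →
    ∀ (V W : Finset ℕ), (∀ v ∈ V, 0 < v) → (∀ w ∈ W, 0 < w) →
      ∀ (M : ℝ), 1 ≤ M → ∀ (l L : ℕ) (D : ℝ), l ≤ L → (19999 / 20000 : ℝ) * L ≤ l → 0 < D → D ≤ 1 →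
        ((2 : ℝ) ^ L)⁻¹ ≤ 3 * D → D ≤ (2 : ℝ) ^ (-((49999 / 50000 : ℝ) * L)) →
        ∑ v ∈ V, mass l v ≤ M → ∑ w ∈ W, mass L w ≤ M →
        pairW l L V W (gNear γ A B D l L) / D ≤
          C * (2 : ℝ) ^ (-((L : ℝ) / 100000)) * (1 + 4 * (L : ℝ)) ^ 3 * M ^ 2 := by
  obtain ⟨p₀, C₁, cτ, hC₁, hcτ, hII⟩ := levelII (θ := 11 / 20) (κ := 1 / 5) divisorSum (by norm_num)
    (by norm_num) (by norm_num) (by norm_num)
  obtain ⟨K, hK, hcount⟩ := gNear_count
  obtain ⟨K₂, Cs, hK₂, hbigF⟩ := near_big_card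
  obtain ⟨Cp, hCp, hP₀⟩ := exists_P₀ p₀ hcτ
  obtain ⟨Ce, hCe, hE⟩ := exp_sqrt_le (|Cs| * (1 + 80 * Cp))
    (show (0 : ℝ) < 1 / 20000 by norm_num)
  refine ⟨C₁ * (17 * K) + 34 * K₂ * Ce, by positivity,
    fun γ A B hcls V W hV hW M hM l L D hl hlν hD hD1 hD3 hDII hmV hmW => ?_⟩
  set g := gNear γ A B D l L with hgdef
  have hmV0 : 0 ≤ ∑ v ∈ V, mass l v := sum_nonneg fun v _ => mass_nonneg l v
  have hlog3 : (1 + Real.log (max 1 D) + 2 * ((l : ℝ) + L)) ^ 3 ≤ (1 + 4 * (L : ℝ)) ^ 3 := by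
    rw [max_eq_left hD1, Real.log_one]
    have : (l : ℝ) ≤ L := by exact_mod_cast hl
    exact pow_le_pow_left₀ (by positivity) (by linarith) 3
  have hl0 : 0 ≤ (1 + 4 * (L : ℝ)) ^ 3 := by positivity
  have hl1 : (1 : ℝ) ≤ (1 + 4 * (L : ℝ)) ^ 3 := one_le_pow₀ (by simp)
  by_cases hQ : 1 ≤ D * (4 : ℝ) ^ L
  swap
  · refine le_trans (le_of_eq ?_) (by positivity)
    rw [show pairW l L V W g = 0 from sum_eq_zero fun v hv => sum_eq_zero fun w hw => ?_, zero_div]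
    by_contra hne
    have h1 := (gNear_supp (right_ne_zero_of_mul hne)).1
    have : (1 : ℝ) ≤ red v w := by exact_mod_cast red_pos (hV v hv)
    exact hQ (by linarith)
  obtain ⟨P₀, hp₀P, hPsize, hsmall⟩ := hP₀ L
  set P := smallPrimes P₀ with hPdef
  set T : ℝ := (2 : ℝ) ^ ((L : ℝ) / 50) with hT
  have hT1 : 1 ≤ T := one_le_rpow one_le_two (by positivity)
  obtain ⟨F, hFcard, hF⟩ := hbigF γ A B hcls l L P₀ P D T hl hD hD3 hQ
    (fun p hp => ⟨smallPrimes_prime hp, smallPrimes_le hp⟩) hT1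
  set gG : ℕ → ℕ → ℝ := fun a b =>
    if (primePart P a : ℝ) ≤ T ∧ (primePart P b : ℝ) ≤ T then g a b else 0 with hgG
  set gB : ℕ → ℕ → ℝ := fun a b =>
    if (primePart P a : ℝ) ≤ T ∧ (primePart P b : ℝ) ≤ T then 0 else g a b with hgB
  have hsplit : pairW l L V W g = pairW l L V W gG + pairW l L V W gB := by
    simp only [pairW, ← sum_add_distrib, ← mul_add]
    refine sum_congr rfl fun v _ => sum_congr rfl fun w _ => ?_
    simp only [hgG, hgB]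
    split <;> simp
  have hgG1 : ∀ a b, 0 ≤ gG a b ∧ gG a b ≤ 1 := fun a b => by
    simp only [hgG]; split
    · exact gNear_bounds γ A B D l L a b
    · norm_num
  have hgB1 : ∀ a b, 0 ≤ gB a b ∧ gB a b ≤ 1 := fun a b => by
    simp only [hgB]; split
    · norm_num
    · exact gNear_bounds γ A B D l L a b
  have hgGle : ∀ a b, gG a b ≤ g a b := fun a b => by
    simp only [hgG]; split
    · exact le_rfl
    · exact (gNear_bounds γ A B D l L a b).1
  -- the good part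
  have hgood : pairW l L V W gG / D ≤
      C₁ * (17 * K) * (2 : ℝ) ^ (-((L : ℝ) / 100000)) * (1 + 4 * (L : ℝ)) ^ 3 * M ^ 2 := by
    have hQS : D * (4 : ℝ) ^ L * (D * (4 : ℝ) ^ l) ≤ (2 : ℝ) ^ (4 * L) := by
      calc D * (4 : ℝ) ^ L * (D * (4 : ℝ) ^ l) ≤ 1 * (4 : ℝ) ^ L * (1 * (4 : ℝ) ^ L) :=
            mul_le_mul (mul_le_mul_of_nonneg_right hD1 (by positivity))
              ((four_pow_mono hD.le hl).trans (mul_le_mul_of_nonneg_right hD1 (by positivity)))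
              (by positivity) (by positivity)
        _ = _ := by rw [one_mul, ← mul_pow, pow_mul]; norm_num
    have h := hII P₀ (4 * L) hp₀P hsmall P (fun p hp => smallPrimes_prime hp) V W hV hW
      (fun x _ p hp hpP => big_of_notMem_smallPrimes (Nat.prime_of_mem_primeFactors hp) hpP)
      l L D T (17 * K * D) hD (by linarith) (by positivity) hQS gG hgG1
      (fun a b h => by
        have h' : g a b ≠ 0 := fun h0 => h (le_antisymm ((hgGle a b).trans_eq h0) (hgG1 a b).1)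
        exact ⟨(gNear_supp h').1, (gNear_supp h').2.1⟩)
      (fun a b h => by by_contra hc; exact h (by simp only [hgG]; rw [if_neg hc]))
      (fun a => le_antisymm ((hgGle a 0).trans (le_of_eq (if_neg fun hh => lt_irrefl 0 hh.2.2.1))) (hgG1 a 0).1)
      (fun X r hX => by
        refine (sum_le_sum fun t _ => hgGle (X * t) r).trans ((hcount γ A B hcls l L D X r hD hD3 hl hX).trans ?_)
        rw [mul_comm K, mul_assoc]
        refine mul_le_mul_of_nonneg_left ?_ (by positivity)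
        have hX1 : (1 : ℝ) ≤ X := by exact_mod_cast hX
        have hgX : (Nat.gcd X (B L) : ℝ) ≤ X := by exact_mod_cast Nat.gcd_le_left (B L) hX
        have h1 : (Nat.gcd X (B L) : ℝ) * min ((B L : ℝ))⁻¹ D ≤ X * D :=
          mul_le_mul hgX (min_le_right _ _) (by positivity) (by linarith)
        have h2 : (X : ℝ) * (5 * ((2 : ℝ) ^ L)⁻¹) ≤ X * (15 * D) :=
          mul_le_mul_of_nonneg_left (by linarith) (by linarith)
        have h3 : D ≤ X * D := le_mul_of_one_le_left hD.le hX1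
        calc K * (D + (Nat.gcd X (B L) : ℝ) * min ((B L : ℝ))⁻¹ D + X * (5 * ((2 : ℝ) ^ L)⁻¹))
            ≤ K * (X * (17 * D)) := mul_le_mul_of_nonneg_left (by linarith) (by linarith)
          _ = _ := by ring)
    refine (div_le_div_of_nonneg_right h hD.le).trans ?_
    have hmass := mul_rpow_le_sq (θ := 11 / 20) hmV0
      (sum_nonneg fun w _ => mass_nonneg L w) hmV hmW hM (by norm_num) (by norm_num)
    have hkey : T ^ 4 * D ^ (2 - 2 * (11 / 20 : ℝ)) * (17 * K * D) ^ (1 / 5 : ℝ) / D ≤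
        17 * K * (2 : ℝ) ^ (-((L : ℝ) / 100000)) := by
      rw [mul_rpow (by linarith) hD.le, hT, ← rpow_natCast, ← rpow_mul zero_le_two,
        show ∀ x y z w : ℝ, x * y * (z * w) / D = z * (x * (y * w / D)) from fun x y z w => by ring,
        ← rpow_add hD, ← rpow_sub_one hD.ne']
      refine mul_le_mul ((rpow_le_rpow_of_exponent_le (by linarith) (by norm_num : (1 / 5 : ℝ) ≤ 1)).trans_eq
        (rpow_one _)) ?_ (by positivity) (by linarith)
      refine (mul_le_mul_of_nonneg_left (rpow_le_rpow hD.le hDII (by norm_num)) (by positivity)).trans ?_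
      rw [← rpow_mul zero_le_two, ← rpow_add two_pos]
      refine rpow_le_rpow_of_exponent_le one_le_two ?_
      norm_num
      linarith [(Nat.cast_nonneg L : (0 : ℝ) ≤ L)]
    calc C₁ * T ^ 4 * D ^ (2 - 2 * (11 / 20 : ℝ)) * (1 + Real.log (max 1 D) + 2 * (l + L)) ^ 3 *
          (17 * K * D) ^ (1 / 5 : ℝ) * ((∑ v ∈ V, mass l v) * ∑ w ∈ W, mass L w) ^ (11 / 20 : ℝ) / D
        = C₁ * (T ^ 4 * D ^ (2 - 2 * (11 / 20 : ℝ)) * (17 * K * D) ^ (1 / 5 : ℝ) / D) *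
            (1 + Real.log (max 1 D) + 2 * (l + L)) ^ 3 *
            ((∑ v ∈ V, mass l v) * ∑ w ∈ W, mass L w) ^ (11 / 20 : ℝ) := by ring
      _ ≤ C₁ * (17 * K * (2 : ℝ) ^ (-((L : ℝ) / 100000))) * (1 + 4 * (L : ℝ)) ^ 3 * M ^ 2 := by
          refine mul_le_mul (mul_le_mul (mul_le_mul_of_nonneg_left hkey hC₁) hlog3 ?_ (by positivity)) hmass
            (rpow_nonneg (mul_nonneg hmV0 (sum_nonneg fun w _ => mass_nonneg L w)) _) (by positivity)
          exact pow_nonneg (by have := Real.log_nonneg (le_max_left 1 D); positivity) _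
      _ = _ := by ring
  -- the big part
  have hbad : pairW l L V W gB / D ≤
      34 * K₂ * Ce * (2 : ℝ) ^ (-((L : ℝ) / 100000)) * (1 + 4 * (L : ℝ)) ^ 3 * M ^ 2 := by
    have h := pairW_le_card l L hV hW F hgB1 (fun v hv w hw hne => by
      simp only [hgB] at hne
      split at hne
      · exact absurd rfl hne
      · next hc =>
        refine hF _ _ (red_pos (hV v hv)) hne ?_
        by_contra h0
        rw [not_or, not_lt, not_lt] at h0
        exact hc h0)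
    have hexp : Real.exp (Cs * (1 + 80 * (P₀ : ℝ) ^ (1 / 80 : ℝ))) ≤ Ce * (2 : ℝ) ^ (1 / 20000 * (L : ℝ)) := by
      refine le_trans (Real.exp_le_exp.2 ?_) (hE L (Nat.cast_nonneg L))
      have hs1 : 1 ≤ √(1 + (L : ℝ)) := Real.one_le_sqrt.2 (by simp)
      calc Cs * (1 + 80 * (P₀ : ℝ) ^ (1 / 80 : ℝ)) ≤ |Cs| * (1 + 80 * (P₀ : ℝ) ^ (1 / 80 : ℝ)) :=
            mul_le_mul_of_nonneg_right (le_abs_self _) (by positivity)
        _ ≤ |Cs| * ((1 + 80 * Cp) * √(1 + (L : ℝ))) :=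
            mul_le_mul_of_nonneg_left (by rw [add_mul, one_mul]; linarith) (abs_nonneg _)
        _ = _ := by ring
    refine (div_le_div_of_nonneg_right (h.trans (mul_le_mul hFcard (sqrt_mass_le hM hmV hmW) (by positivity)
      (by positivity))) hD.le).trans ?_
    have hexpo : D ^ 2 * ((4 : ℝ) ^ L * (4 : ℝ) ^ L) * (((2 : ℝ) ^ l)⁻¹ * ((2 : ℝ) ^ L)⁻¹) *
        T ^ (-(1 / 80 : ℝ)) * (2 : ℝ) ^ (1 / 20000 * (L : ℝ)) ≤ (2 : ℝ) ^ (-((L : ℝ) / 100000)) := by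
      have hD2 : D ^ 2 ≤ ((2 : ℝ) ^ (-((49999 / 50000 : ℝ) * L))) ^ 2 := pow_le_pow_left₀ hD.le hDII 2
      refine (mul_le_mul_of_nonneg_right (mul_le_mul_of_nonneg_right (mul_le_mul_of_nonneg_right
        (mul_le_mul_of_nonneg_right hD2 (by positivity)) (by positivity)) (by positivity)) (by positivity)).trans ?_
      rw [hT, show (4 : ℝ) = 2 * 2 by norm_num, mul_pow, ← rpow_natCast 2 L, ← rpow_natCast 2 l,
        ← rpow_natCast ((2 : ℝ) ^ (-((49999 / 50000 : ℝ) * L))) 2, ← rpow_mul zero_le_two,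
        ← rpow_neg zero_le_two, ← rpow_neg zero_le_two, ← rpow_mul zero_le_two, ← rpow_add two_pos,
        ← rpow_add two_pos, ← rpow_add two_pos, ← rpow_add two_pos, ← rpow_add two_pos, ← rpow_add two_pos,
        ← rpow_add two_pos]
      refine rpow_le_rpow_of_exponent_le one_le_two ?_
      push_cast
      linarith
    calc 2 * (D * (4 : ℝ) ^ L * (T ^ (-(1 / 80 : ℝ)) * Real.exp (Cs * (1 + 80 * (P₀ : ℝ) ^ (1 / 80 : ℝ)))) *
          (17 * K₂ * (D * (4 : ℝ) ^ L) * D)) * (((2 : ℝ) ^ l)⁻¹ * ((2 : ℝ) ^ L)⁻¹ * M ^ 2) / D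
        = 34 * K₂ * (D ^ 2 * ((4 : ℝ) ^ L * (4 : ℝ) ^ L) * (((2 : ℝ) ^ l)⁻¹ * ((2 : ℝ) ^ L)⁻¹) *
            T ^ (-(1 / 80 : ℝ)) * Real.exp (Cs * (1 + 80 * (P₀ : ℝ) ^ (1 / 80 : ℝ)))) * M ^ 2 := by
          field_simp
          ring
      _ ≤ 34 * K₂ * (D ^ 2 * ((4 : ℝ) ^ L * (4 : ℝ) ^ L) * (((2 : ℝ) ^ l)⁻¹ * ((2 : ℝ) ^ L)⁻¹) *
            T ^ (-(1 / 80 : ℝ)) * (Ce * (2 : ℝ) ^ (1 / 20000 * (L : ℝ)))) * M ^ 2 := by gcongr
      _ = 34 * K₂ * Ce * (D ^ 2 * ((4 : ℝ) ^ L * (4 : ℝ) ^ L) * (((2 : ℝ) ^ l)⁻¹ * ((2 : ℝ) ^ L)⁻¹) *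
            T ^ (-(1 / 80 : ℝ)) * (2 : ℝ) ^ (1 / 20000 * (L : ℝ))) * 1 * M ^ 2 := by ring
      _ ≤ _ := by gcongr
  rw [hsplit, add_div, add_mul, add_mul, add_mul]
  exact add_le_add hgood hbad

/-- Few reduced pairs: the count of the rows alone. -/
theorem near_far : ∃ C : ℝ, 0 ≤ C ∧ ∀ (γ : ℝ) (A : ℕ → ℤ) (B : ℕ → ℕ), IsCls γ A B →
    ∀ (V W : Finset ℕ), (∀ v ∈ V, 0 < v) → (∀ w ∈ W, 0 < w) →
      ∀ (M : ℝ), 1 ≤ M → ∀ (l L : ℕ) (D : ℝ), l ≤ L → (l : ℝ) ≤ (19999 / 20000 : ℝ) * L → 0 < D →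
        ((2 : ℝ) ^ L)⁻¹ ≤ 3 * D → D ≤ (2 : ℝ) ^ (-((49999 / 50000 : ℝ) * L)) →
        ∑ v ∈ V, mass l v ≤ M → ∑ w ∈ W, mass L w ≤ M →
        pairW l L V W (gNear γ A B D l L) / D ≤ C * (2 : ℝ) ^ (-((L : ℝ) / 100000)) * M ^ 2 := by
  obtain ⟨K, hK, hnear⟩ := near_count
  refine ⟨17 * K, by linarith,
    fun γ A B hcls V W hV hW M hM l L D hl hlν hD hD3 hDII hmV hmW => ?_⟩
  have hK0 : 0 ≤ K := by linarith
  by_cases hQ : 1 ≤ D * (4 : ℝ) ^ L
  swap
  · refine le_trans (le_of_eq ?_) (by positivity)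
    rw [show pairW l L V W (gNear γ A B D l L) = 0 from
      sum_eq_zero fun v hv => sum_eq_zero fun w hw => ?_, zero_div]
    by_contra hne
    have h1 := (gNear_supp (right_ne_zero_of_mul hne)).1
    have : (1 : ℝ) ≤ red v w := by exact_mod_cast red_pos (hV v hv)
    exact hQ (by linarith)
  set Q := D * (4 : ℝ) ^ L with hQdef
  set U := Icc 1 ⌊Q⌋₊
  set rows := Icc 1 ⌊D * (4 : ℝ) ^ l⌋₊
  have hrowQ : ∀ b ∈ rows, (b : ℝ) ≤ Q := fun b hb =>
    (Nat.cast_le.2 (mem_Icc.1 hb).2).trans ((Nat.floor_le (by positivity)).trans (four_pow_mono hD.le hl))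
  have hrow : ∀ b ∈ rows,
      ((U.filter (fun a => NearOff γ A B L D a b)).card : ℝ) ≤ 17 * K * Q * D := by
    intro b hb
    have h := (hnear γ A B hcls L D 1 b hD hD3 hQ one_pos (hrowQ b hb)).1
    simp only [one_mul, Nat.cast_one, div_one, Nat.gcd_one_left] at h
    refine h.trans ?_
    rw [← hQdef]
    refine (mul_le_mul_of_nonneg_left (?_ : _ ≤ 17 * D) (by positivity)).trans_eq (by ring)
    linarith [min_le_right ((B L : ℝ))⁻¹ D]
  set F := (rows.biUnion (fun b => (U.filter (fun a => NearOff γ A B L D a b)).image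
    (fun a => (b, a)))).image Prod.swap
  have hF : (F.card : ℝ) ≤ D * (4 : ℝ) ^ l * (17 * K * Q * D) := by
    refine (Nat.cast_le.2 card_image_le).trans ((card_rel_le hrow).trans ?_)
    refine mul_le_mul_of_nonneg_right ?_ (by positivity)
    rw [Nat.card_Icc, Nat.add_sub_cancel]
    exact Nat.floor_le (by positivity)
  have h := pairW_le_card l L hV hW F (gNear_bounds γ A B D l L) (fun v hv w hw hne => by
    obtain ⟨h1, h2, hb, hn⟩ := gNear_supp hne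
    refine mem_image.2 ⟨(red w v, red v w), mem_biUnion.2 ⟨red w v, mem_Icc.2 ⟨hb, Nat.le_floor h2⟩,
      mem_image.2 ⟨red v w, mem_filter.2 ⟨mem_Icc.2 ⟨red_pos (hV v hv), Nat.le_floor h1⟩, hn⟩, rfl⟩⟩,
      rfl⟩)
  refine (div_le_div_of_nonneg_right (h.trans (mul_le_mul hF (sqrt_mass_le hM hmV hmW) (by positivity)
    (by positivity))) hD.le).trans ?_
  have hexpo : D ^ 2 * ((4 : ℝ) ^ l * (4 : ℝ) ^ L) * (((2 : ℝ) ^ l)⁻¹ * ((2 : ℝ) ^ L)⁻¹) ≤
      (2 : ℝ) ^ (-((L : ℝ) / 100000)) := by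
    refine (mul_le_mul_of_nonneg_right (mul_le_mul_of_nonneg_right (pow_le_pow_left₀ hD.le hDII 2)
      (by positivity)) (by positivity)).trans ?_
    rw [show (4 : ℝ) = 2 * 2 by norm_num, mul_pow, mul_pow, ← rpow_natCast 2 L, ← rpow_natCast 2 l,
      ← rpow_natCast ((2 : ℝ) ^ (-((49999 / 50000 : ℝ) * L))) 2, ← rpow_mul zero_le_two,
      ← rpow_neg zero_le_two, ← rpow_neg zero_le_two, ← rpow_add two_pos,
      ← rpow_add two_pos, ← rpow_add two_pos, ← rpow_add two_pos, ← rpow_add two_pos, ← rpow_add two_pos]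
    refine rpow_le_rpow_of_exponent_le one_le_two ?_
    push_cast
    linarith
  calc D * (4 : ℝ) ^ l * (17 * K * Q * D) * (((2 : ℝ) ^ l)⁻¹ * ((2 : ℝ) ^ L)⁻¹ * M ^ 2) / D
      = 17 * K * (D ^ 2 * ((4 : ℝ) ^ l * (4 : ℝ) ^ L) * (((2 : ℝ) ^ l)⁻¹ * ((2 : ℝ) ^ L)⁻¹)) *
          M ^ 2 := by
        rw [hQdef]; field_simp
    _ ≤ _ := by gcongr

theorem nearSmall : NearSmallStmt := by
  intro N
  obtain ⟨C₁, hC₁, hI⟩ := near_I
  obtain ⟨C₂, hC₂, hII⟩ := near_wide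
  obtain ⟨C₅, hC₅, hFar⟩ := near_far
  obtain ⟨C₃, hC₃, h3⟩ := pow_mul_two_rpow_le (N + 4) (show (0 : ℝ) < 1 / 200000000000 by norm_num)
  obtain ⟨C₄, hC₄, h4⟩ := pow_mul_two_rpow_le (N + 4) (show (0 : ℝ) < 1 / 100000 by norm_num)
  refine ⟨10 * (N + 7), 9 ^ N * (C₁ * (250 + C₃) + (C₂ + C₅) * C₄), by omega, by positivity,
    fun γ A B hcls V W hV hW M hM l L D hL hl hD hD1 hD3 hDK hmV hmW => ?_⟩
  have hL1 : (1 : ℝ) ≤ L := by exact_mod_cast hL
  have hL4 : (0 : ℝ) < (L : ℝ) ^ 4 := by positivity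
  set g := pairW l L V W (gNear γ A B D l L) / D with hg
  set P3 := (1 + 4 * (L : ℝ)) ^ 3 with hP3
  have hP31 : 1 ≤ P3 := one_le_pow₀ (by linarith)
  have hg0 : 0 ≤ g := div_nonneg (sum_nonneg fun v _ => sum_nonneg fun w _ =>
    mul_nonneg (mul_nonneg (mass_nonneg _ _) (mass_nonneg _ _)) (gNear_bounds γ A B D l L _ _).1) hD.le
  have key : (L : ℝ) ^ (N + 4) * g ≤ (C₁ * (250 + C₃) + (C₂ + C₅) * C₄) * M ^ 2 := by
    have hA : 0 ≤ C₁ * (250 + C₃) := by positivity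
    have hB : 0 ≤ C₂ * C₄ := by positivity
    have hB' : 0 ≤ C₅ * C₄ := by positivity
    rcases le_total ((2 : ℝ) ^ (-((49999 / 50000 : ℝ) * L))) D with hDL | hDL
    · have hpow : D ^ (1 / 10 : ℝ) ≤ 2 * ((L : ℝ) ^ (N + 7))⁻¹ := by
        refine (rpow_le_rpow hD.le hDK (by norm_num)).trans ?_
        rw [div_rpow (by norm_num) (by positivity), ← rpow_natCast (L : ℝ) (10 * (N + 7)),
          ← rpow_mul (by positivity), div_eq_mul_inv, ← rpow_natCast (L : ℝ) (N + 7)]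
        refine mul_le_mul ((rpow_le_rpow_of_exponent_le (by norm_num)
          (by norm_num : (1 / 10 : ℝ) ≤ 1)).trans_eq (rpow_one _)) (le_of_eq ?_) (by positivity)
          (by norm_num)
        congr 2
        push_cast; ring
      have h := hI γ A B hcls V W hV hW M hM l L D hl hD hD1 hD3 hDL hmV hmW
      have h3' : (L : ℝ) ^ (N + 4) * P3 * (2 : ℝ) ^ (-((L : ℝ) / 200000000000)) ≤ C₃ := by
        refine le_trans (le_of_eq ?_) (h3 L); rw [hP3]; ring_nf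
      have ha : (L : ℝ) ^ (N + 4) * P3 * D ^ (1 / 10 : ℝ) ≤ 250 := by
        calc (L : ℝ) ^ (N + 4) * P3 * D ^ (1 / 10 : ℝ)
            ≤ (L : ℝ) ^ (N + 4) * (5 * (L : ℝ)) ^ 3 * (2 * ((L : ℝ) ^ (N + 7))⁻¹) := by
              rw [hP3]; gcongr; linarith
          _ = 250 := by
            have : (L : ℝ) ^ (N + 7) ≠ 0 := by positivity
            field_simp
            ring
      calc (L : ℝ) ^ (N + 4) * g ≤ (L : ℝ) ^ (N + 4) * (C₁ * (D ^ (1 / 10 : ℝ) +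
            (2 : ℝ) ^ (-((L : ℝ) / 200000000000))) * P3 * M ^ 2) := by rw [hg]; gcongr
        _ = C₁ * ((L : ℝ) ^ (N + 4) * P3 * D ^ (1 / 10 : ℝ) +
              (L : ℝ) ^ (N + 4) * P3 * (2 : ℝ) ^ (-((L : ℝ) / 200000000000))) * M ^ 2 := by ring
        _ ≤ C₁ * (250 + C₃) * M ^ 2 := by gcongr
        _ ≤ _ := mul_le_mul_of_nonneg_right (by nlinarith) (sq_nonneg M)
    · have h4' : (L : ℝ) ^ (N + 4) * P3 * (2 : ℝ) ^ (-((L : ℝ) / 100000)) ≤ C₄ := by
        refine le_trans (le_of_eq ?_) (h4 L); rw [hP3]; ring_nf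
      have hb : g ≤ (C₂ + C₅) * (2 : ℝ) ^ (-((L : ℝ) / 100000)) * P3 * M ^ 2 := by
        rcases le_total ((19999 / 20000 : ℝ) * L) l with hν | hν
        · refine (hII γ A B hcls V W hV hW M hM l L D hl hν hD hD1 hD3 hDL hmV hmW).trans ?_
          rw [← hP3]
          gcongr
          linarith
        · refine (hFar γ A B hcls V W hV hW M hM l L D hl hν hD hD3 hDL hmV hmW).trans ?_
          refine mul_le_mul_of_nonneg_right ?_ (sq_nonneg M)
          refine le_mul_of_one_le_right (by positivity) hP31 |>.trans ?_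
          gcongr
          linarith
      calc (L : ℝ) ^ (N + 4) * g ≤
            (L : ℝ) ^ (N + 4) * ((C₂ + C₅) * (2 : ℝ) ^ (-((L : ℝ) / 100000)) * P3 * M ^ 2) := by gcongr
        _ = (C₂ + C₅) * ((L : ℝ) ^ (N + 4) * P3 * (2 : ℝ) ^ (-((L : ℝ) / 100000))) * M ^ 2 := by ring
        _ ≤ (C₂ + C₅) * C₄ * M ^ 2 := by gcongr
        _ ≤ _ := mul_le_mul_of_nonneg_right (by nlinarith) (sq_nonneg M)
  calc ((L : ℝ) + 8) ^ N / D * pairW l L V W (gNear γ A B D l L) = ((L : ℝ) + 8) ^ N * g := by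
        rw [hg]; ring
    _ ≤ (9 * (L : ℝ)) ^ N * g := by gcongr; linarith
    _ = 9 ^ N * ((L : ℝ) ^ (N + 4) * g) * ((L : ℝ) ^ 4)⁻¹ := by field_simp; ring
    _ ≤ 9 ^ N * ((C₁ * (250 + C₃) + (C₂ + C₅) * C₄) * M ^ 2) * ((L : ℝ) ^ 4)⁻¹ := by gcongr
    _ = _ := by ring

end Vale.Agent.P028.Tame
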