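import Vale.Agent.P028.Tame.ExpandEvents
import Vale.Agent.P028.Tame.AnatTame
import Vale.Agent.P028.Tame.DivPairs
import Vale.Agent.P028.Tame.LinePairs
import Vale.Agent.P028.Tame.NearSmall
import Vale.Agent.P028.Main

/-! The second moment without loss: proof of `MainTameStmt`. -/

namespace Vale.Agent.P028.Tame

open MeasureTheory Finset Real
open scoped Classical

theorem excCoin_nonneg (γ : ℝ) (A : ℕ → ℤ) (B : ℕ → ℕ) (Y l L q r : ℕ) :
    0 ≤ excCoin γ A B Y l L q r := by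
  refine sum_nonneg fun n _ => ?_
  rw [sub_nonneg]
  exact one_le_prod fun p hp => one_le_pow₀ (ratio_ge_one
    (Nat.prime_of_mem_primeFactors (mem_filter.1 (mem_filter.1 hp).1).1))

/-- The gate of the near event. -/
def NearGate (lv : ℕ → ℕ) (K : ℕ) (X : ℝ) (v w : ℕ) : Prop :=
  lv v ≤ lv w ∧ X ≤ 1 / 8 ∧ X < 1 / ((lv w : ℝ) + 8) ^ K ∧ ((2 : ℝ) ^ lv w)⁻¹ ≤ 3 * X

/-- The very small gaps off the line, over all levels and gaps. -/
theorem near_events_le (hnear : NearSmallStmt) (N : ℕ) : ∃ (K₁ : ℕ) (C : ℝ), 0 ≤ C ∧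
    ∀ K : ℕ, K₁ ≤ K → ∀ (γ : ℝ) (A : ℕ → ℤ) (B : ℕ → ℕ), IsCls γ A B → ∀ (lv : ℕ → ℕ) (S : Finset ℕ),
      (∀ q ∈ S, 0 < q ∧ 1 ≤ lv q) → 1 ≤ ∑ q ∈ S, mass (lv q) q → ∀ I : Finset ℤ,
        ∑ i ∈ I, ∑ v ∈ S, ∑ w ∈ S, pW lv ((2 : ℝ) ^ i) v w *
          (if NearGate lv K ((2 : ℝ) ^ i) v w then ((lv w : ℝ) + 8) ^ N / (2 : ℝ) ^ i *
            gNear γ A B ((2 : ℝ) ^ i) (lv v) (lv w) (red v w) (red w v) else 0) ≤
          C * (∑ q ∈ S, mass (lv q) q) ^ 2 := by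
  obtain ⟨K₁, C, hK₁, hC, hns⟩ := hnear N
  have hsum : Summable fun L : ℕ => ((L : ℝ) ^ 2)⁻¹ := Real.summable_nat_pow_inv.2 (by norm_num)
  have hts : 0 ≤ ∑' L : ℕ, ((L : ℝ) ^ 2)⁻¹ := tsum_nonneg fun L => by positivity
  refine ⟨K₁, C * (8 * ∑' L : ℕ, ((L : ℝ) ^ 2)⁻¹), by positivity,
    fun K hK γ A B h lv S hS hM I => ?_⟩
  set M := ∑ q ∈ S, mass (lv q) q
  set Lv := S.image lv
  set cnd : ℤ → ℕ → ℕ → Prop := fun i l L => l ≤ L ∧ ((2 : ℝ) ^ L)⁻¹ ≤ 3 * (2 : ℝ) ^ i ∧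
    (2 : ℝ) ^ i ≤ 1 ∧ (2 : ℝ) ^ i ≤ 2 / (L : ℝ) ^ K₁
  have hpoint : ∀ i ∈ I, ∀ l ∈ Lv, ∀ L ∈ Lv,
      ∑ v ∈ S.filter (fun v => lv v = l), ∑ w ∈ S.filter (fun w => lv w = L),
        pW lv ((2 : ℝ) ^ i) v w * (if NearGate lv K ((2 : ℝ) ^ i) v w then ((lv w : ℝ) + 8) ^ N / (2 : ℝ) ^ i *
            gNear γ A B ((2 : ℝ) ^ i) (lv v) (lv w) (red v w) (red w v) else 0) ≤
      if cnd i l L then C * ((L : ℝ) ^ 4)⁻¹ * M ^ 2 else 0 := by
    intro i _ l _ L hL
    obtain ⟨w₀, hw₀, hw₀L⟩ := mem_image.1 hL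
    have hL1 : 1 ≤ L := hw₀L ▸ (hS w₀ hw₀).2
    set X := (2 : ℝ) ^ i
    have hX : 0 < X := zpow_pos two_pos i
    by_cases hc : cnd i l L
    swap
    · rw [if_neg hc]
      refine le_of_eq (sum_eq_zero fun v hv => sum_eq_zero fun w hw => ?_)
      rw [if_neg, mul_zero]
      rintro ⟨h1, h2, h3, h4⟩
      rw [(mem_filter.1 hv).2, (mem_filter.1 hw).2] at h1
      rw [(mem_filter.1 hw).2] at h3 h4
      have hLR : (1 : ℝ) ≤ L := by exact_mod_cast hL1
      refine hc ⟨h1, h4, show (2 : ℝ) ^ i ≤ 1 by linarith, ?_⟩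
      have h5 : 1 / ((L : ℝ) + 8) ^ K ≤ 1 / (L : ℝ) ^ K₁ := by
        refine one_div_le_one_div_of_le (by positivity) ?_
        exact (pow_le_pow_left₀ (by linarith) (by linarith) K₁).trans (pow_le_pow_right₀ (by linarith) hK)
      have h6 : (0 : ℝ) < 1 / (L : ℝ) ^ K₁ := by positivity
      rw [show (2 : ℝ) / (L : ℝ) ^ K₁ = 2 * (1 / (L : ℝ) ^ K₁) by ring]
      linarith
    rw [if_pos hc]
    obtain ⟨hlL, h2L, hX1, hXK⟩ := hc
    have hmass : ∀ l, ∑ q ∈ S.filter (fun q => lv q = l), mass l q ≤ M := fun l => by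
      rw [sum_congr rfl (g := fun q => mass (lv q) q) (fun q hq => by rw [(mem_filter.1 hq).2])]
      exact sum_le_sum_of_subset_of_nonneg (filter_subset _ _) fun q _ _ => mass_nonneg _ _
    refine le_trans ?_ (hns γ A B h (S.filter fun v => lv v = l) (S.filter fun w => lv w = L)
      (fun v hv => (hS v (filter_subset _ _ hv)).1) (fun w hw => (hS w (filter_subset _ _ hw)).1)
      M hM l L X hL1 hlL hX hX1 h2L hXK (hmass l) (hmass L))
    rw [pairW, mul_sum]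
    refine sum_le_sum fun v hv => ?_
    rw [mul_sum]
    refine sum_le_sum fun w hw => ?_
    rw [(mem_filter.1 hv).2, (mem_filter.1 hw).2, pW, (mem_filter.1 hv).2, (mem_filter.1 hw).2]
    have hg := (gNear_bounds γ A B X l L (red v w) (red w v)).1
    have hmm : 0 ≤ mass l v * mass L w := mul_nonneg (mass_nonneg _ _) (mass_nonneg _ _)
    have hr : 0 ≤ ((L : ℝ) + 8) ^ N / X * (mass l v * mass L w * gNear γ A B X l L (red v w) (red w v)) := by
      positivity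
    split_ifs <;> (try simp only [mul_zero, zero_mul]) <;> first | exact hr | (refine le_of_eq ?_; ring)
  have hsplit : ∀ i ∈ I, ∑ v ∈ S, ∑ w ∈ S, pW lv ((2 : ℝ) ^ i) v w *
      (if NearGate lv K ((2 : ℝ) ^ i) v w then ((lv w : ℝ) + 8) ^ N / (2 : ℝ) ^ i *
          gNear γ A B ((2 : ℝ) ^ i) (lv v) (lv w) (red v w) (red w v) else 0) ≤
      ∑ l ∈ Lv, ∑ L ∈ Lv, if cnd i l L then C * ((L : ℝ) ^ 4)⁻¹ * M ^ 2 else 0 := by
    intro i hi
    rw [← sum_fiberwise_of_maps_to (t := Lv) (g := lv) (fun v hv => mem_image_of_mem _ hv)]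
    refine sum_le_sum fun l hl => ?_
    refine le_trans (le_of_eq ?_) (sum_le_sum fun L hL => hpoint i hi l hl L hL)
    rw [sum_comm (s := Lv)]
    refine sum_congr rfl fun v _ => ?_
    rw [← sum_fiberwise_of_maps_to (t := Lv) (g := lv) (fun w hw => mem_image_of_mem _ hw)]
  refine (sum_le_sum hsplit).trans ?_
  rw [sum_comm]
  simp_rw [sum_comm (s := I)]
  rw [sum_comm]
  have hcount : ∀ L ∈ Lv, ∑ l ∈ Lv, ∑ i ∈ I, (if cnd i l L then C * ((L : ℝ) ^ 4)⁻¹ * M ^ 2 else 0) ≤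
      8 * C * M ^ 2 * ((L : ℝ) ^ 2)⁻¹ := by
    intro L hL
    obtain ⟨w₀, hw₀, hw₀L⟩ := mem_image.1 hL
    have hL1 : 1 ≤ L := hw₀L ▸ (hS w₀ hw₀).2
    rw [← sum_product' (f := fun l i => if cnd i l L then C * ((L : ℝ) ^ 4)⁻¹ * M ^ 2 else 0), ← sum_filter,
      sum_const, nsmul_eq_mul]
    have hsub : ((Lv ×ˢ I).filter (fun z => cnd z.2 z.1 L)) ⊆ range (L + 1) ×ˢ Finset.Icc (-((L : ℤ) + 2)) 0 := by
      intro z hz
      obtain ⟨hlL, h2L, hX1, -⟩ := (mem_filter.1 hz).2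
      refine mem_product.2 ⟨mem_range.2 (by omega), Finset.mem_Icc.2 ⟨?_, ?_⟩⟩
      · by_contra hcon
        rw [not_le] at hcon
        have h1 : (2 : ℝ) ^ z.2 ≤ (2 : ℝ) ^ (-((L : ℤ) + 2)) := zpow_le_zpow_right₀ one_le_two hcon.le
        rw [zpow_neg, zpow_add₀ two_ne_zero, zpow_natCast, mul_inv] at h1
        norm_num at h1
        have : (0 : ℝ) < ((2 : ℝ) ^ L)⁻¹ := by positivity
        linarith
      · exact (zpow_le_one_iff_right₀ one_lt_two).1 hX1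
    have hc := card_le_card hsub
    rw [card_product, card_range, Int.card_Icc] at hc
    have hc' : ((((Lv ×ˢ I).filter (fun z => cnd z.2 z.1 L)).card : ℕ) : ℝ) ≤ 8 * (L : ℝ) ^ 2 := by
      have : ((Lv ×ˢ I).filter (fun z => cnd z.2 z.1 L)).card ≤ 8 * L ^ 2 := by
        refine hc.trans ?_
        rw [show (0 + 1 - -((L : ℤ) + 2)).toNat = L + 3 by omega]
        nlinarith
      exact_mod_cast this
    refine (mul_le_mul_of_nonneg_right hc' (by positivity)).trans_eq ?_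
    have : (L : ℝ) ≠ 0 := by exact_mod_cast (show L ≠ 0 by omega)
    field_simp
  refine (sum_le_sum hcount).trans ?_
  rw [← mul_sum]
  refine (mul_le_mul_of_nonneg_left (hsum.sum_le_tsum Lv fun L _ => by positivity) (by positivity)).trans_eq ?_
  ring

/-- The second moment is at most a constant times the squared mass. -/
theorem mainTame : MainTameStmt := by
  intro σ C₀ hσ hσ1 hC₀
  obtain ⟨N, hanat⟩ := anatTame C₀ hC₀
  obtain ⟨K₁, Cn, hCn, hnear⟩ := near_events_le nearSmall N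
  set K := max 206 K₁
  obtain ⟨Ca, hCa, hpt⟩ := hanat K (le_max_of_le_left (by norm_num))
  obtain ⟨Cd, hCd, hdivs⟩ := div_events_le divPairs N
  obtain ⟨Cc, hCc, hcoins⟩ := coin_events_le coinPairs hσ hσ1 hC₀ (K := K) (le_max_left _ _) N
  obtain ⟨Ck, hCk, hks⟩ := k_events_le divPairs N
  obtain ⟨Cl, hCl, hline⟩ := linePairs σ C₀ hσ hσ1 hC₀ N
  set Ct := 1 + Cd + Cc + Ck + Cn + Cl with hCt
  refine ⟨2 + 4 * Ca * Ct, fun γ A B h lv S hS hΨ => ?_⟩
  set Ψ := ∑ q ∈ S, mass (lv q) q with hΨdef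
  have hΨ0 : 0 ≤ Ψ := zero_le_one.trans hΨ
  have hpos : ∀ q ∈ S, 0 < q := fun q hq => (hS q hq).1
  set T : ℕ → ℕ → ℝ := fun q r => cwt γ A B (lv q) q * cwt γ A B (lv r) r *
    volume.real (arcs γ A B (lv q) q ∩ arcs γ A B (lv r) r ∩ Set.Ioc 0 1) with hT
  change ∑ q ∈ S, ∑ r ∈ S, T q r ≤ _
  set ix : ℕ → ℕ → ℤ := fun q r => Int.clog 2 (dgap (lv q) (lv r) q r) with hix
  set X : ℕ → ℕ → ℝ := fun q r => (2 : ℝ) ^ ix q r with hXdef
  have hXb : ∀ q ∈ S, ∀ r, dgap (lv q) (lv r) q r ≤ X q r ∧ X q r < 2 * dgap (lv q) (lv r) q r := by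
    intro q hq r
    have hD : 0 < dgap (lv q) (lv r) q r := (dgap_facts (r := r) (hpos q hq) _ _).2.2
    constructor
    · simpa [X, ix] using Int.self_le_zpow_clog (R := ℝ) (b := 2) (by norm_num) (dgap (lv q) (lv r) q r)
    · have h1 := Int.zpow_pred_clog_lt_self (R := ℝ) (b := 2) (by norm_num) hD
      rw [zpow_sub_one₀ (by norm_num)] at h1
      push_cast at h1
      simp only [X, ix]
      linarith
  have hXpos : ∀ q r, 0 < X q r := fun q r => zpow_pos two_pos _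
  set I := (S ×ˢ S).image (fun z => ix z.1 z.2) with hI
  set fA : ℤ → ℕ → ℕ → ℝ := fun i v w => pW lv ((2 : ℝ) ^ i) v w *
    (lX ((2 : ℝ) ^ i) ^ N * (1 + 1 / (2 : ℝ) ^ i) *
      ((if Ev ((2 : ℝ) ^ i) (red v w) then 1 else 0) + (if Ev ((2 : ℝ) ^ i) (red w v) then 1 else 0) +
        exc (yBig ((2 : ℝ) ^ i)) (red v w) + exc (yBig ((2 : ℝ) ^ i)) (red w v))) with hfA
  set fB : ℤ → ℕ → ℕ → ℝ := fun i v w => pW lv ((2 : ℝ) ^ i) v w *
    (if Gate lv K ((2 : ℝ) ^ i) v w then lX ((2 : ℝ) ^ i) ^ N / (2 : ℝ) ^ i *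
      (excCoin γ A B (yBig ((2 : ℝ) ^ i)) (lv v) (lv w) v w +
        if (2 : ℝ) ^ i ≤ 1 / 8 ∧ CoinAt γ A B 1 (lv v) (lv w) v w then 1 else 0) else 0) with hfB
  set fK : ℤ → ℕ → ℕ → ℝ := fun i v w => pW lv ((2 : ℝ) ^ i) v w *
    (if lv v ≤ lv w ∧ KEv A B (lv v) (lv w) (red v w) then
      (lX ((2 : ℝ) ^ i) + lv v) ^ N / (2 : ℝ) ^ i else 0) with hfK
  set fN : ℤ → ℕ → ℕ → ℝ := fun i v w => pW lv ((2 : ℝ) ^ i) v w *
    (if NearGate lv K ((2 : ℝ) ^ i) v w then ((lv w : ℝ) + 8) ^ N / (2 : ℝ) ^ i *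
      gNear γ A B ((2 : ℝ) ^ i) (lv v) (lv w) (red v w) (red w v) else 0) with hfN
  set fL : ℕ → ℕ → ℝ := fun v w => if lv v ≤ lv w ∧ ¬ SameCls A B (lv v) (lv w) then
    mass (lv v) v * mass (lv w) w *
      (((lv w : ℝ) + 8) ^ N * gLine (B (lv w)) (lv w) (red v w) (red w v)) else 0 with hfL
  have hl0 : ∀ i : ℤ, 0 < lX ((2 : ℝ) ^ i) := fun i => lt_of_lt_of_le one_pos (lX_nonneg (zpow_pos two_pos i))
  have hA0 : ∀ i v w, 0 ≤ fA i v w := fun i v w => by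
    have := hl0 i
    have := exc_nonneg (yBig ((2 : ℝ) ^ i)) (red v w)
    have := exc_nonneg (yBig ((2 : ℝ) ^ i)) (red w v)
    refine mul_nonneg (pW_nonneg _ _ _ _) (mul_nonneg (by positivity) ?_)
    split_ifs <;> linarith
  have hB0 : ∀ i v w, 0 ≤ fB i v w := fun i v w => by
    have := hl0 i
    have := excCoin_nonneg γ A B (yBig ((2 : ℝ) ^ i)) (lv v) (lv w) v w
    refine mul_nonneg (pW_nonneg _ _ _ _) ?_
    split_ifs <;> first | exact le_rfl | exact mul_nonneg (by positivity) (by linarith)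
  have hK0 : ∀ i v w, 0 ≤ fK i v w := fun i v w => by
    have := hl0 i
    refine mul_nonneg (pW_nonneg _ _ _ _) ?_
    split_ifs <;> first | exact le_rfl | positivity
  have hN0 : ∀ i v w, 0 ≤ fN i v w := fun i v w => by
    have := (gNear_bounds γ A B ((2 : ℝ) ^ i) (lv v) (lv w) (red v w) (red w v)).1
    refine mul_nonneg (pW_nonneg _ _ _ _) ?_
    split_ifs <;> first | exact le_rfl | positivity
  have hL0 : ∀ v w, 0 ≤ fL v w := fun v w => by
    simp only [fL]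
    split_ifs
    · exact mul_nonneg (mul_nonneg (mass_nonneg _ _) (mass_nonneg _ _))
        (mul_nonneg (by positivity) (gLine_nonneg _ _ _ _))
    · exact le_rfl
  set H : ℕ → ℕ → ℝ := fun v w => mass (lv v) v * mass (lv w) w + ∑ i ∈ I, fA i v w + ∑ i ∈ I, fB i v w +
    ∑ i ∈ I, fK i v w + ∑ i ∈ I, fN i v w + fL v w with hH
  have hH0 : ∀ v w, 0 ≤ H v w := fun v w => by
    refine add_nonneg (add_nonneg (add_nonneg (add_nonneg (add_nonneg
      (mul_nonneg (mass_nonneg _ _) (mass_nonneg _ _)) ?_) ?_) ?_) ?_) (hL0 _ _)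
    · exact sum_nonneg fun i _ => hA0 i v w
    · exact sum_nonneg fun i _ => hB0 i v w
    · exact sum_nonneg fun i _ => hK0 i v w
    · exact sum_nonneg fun i _ => hN0 i v w
  have hside : ∀ q ∈ S, ∀ r ∈ S, q ≠ r → lv q ≤ lv r → T q r ≤ 2 * Ca * H q r := by
    intro q hq r hr hne hle
    obtain ⟨hq0, hl, hlog, -⟩ := hS q hq
    obtain ⟨hr0, -, -, h4r⟩ := hS r hr
    have hlog' : log (log ((q : ℝ) + 16)) ≤ C₀ * (lv q : ℝ) := by
      refine hlog.trans (mul_le_mul_of_nonneg_left ?_ hC₀)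
      exact (rpow_le_rpow_of_exponent_le (by exact_mod_cast hl) hσ1.le).trans_eq (rpow_one _)
    obtain ⟨hX1, hX2⟩ := hXb q hq r
    have hbound := hpt γ A B h (lv q) (lv r) q r hl hle hq0 hr0 hne hlog' h4r (X q r) hX1 hX2
    refine (pair_term_le h hl hle hq0 hr0 hne hbound).trans ?_
    rw [mul_assoc 2 Ca]
    refine mul_le_mul_of_nonneg_left ?_ zero_le_two
    rw [mul_left_comm]
    refine mul_le_mul_of_nonneg_left ?_ hCa
    have hiI : ix q r ∈ I := mem_image.2 ⟨(q, r), mk_mem_product hq hr, rfl⟩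
    have hmm : 0 ≤ mass (lv q) q * mass (lv r) r := mul_nonneg (mass_nonneg _ _) (mass_nonneg _ _)
    have hpw : pW lv (X q r) q r = mass (lv q) q * mass (lv r) r := if_pos hX1
    have hsA := single_le_sum (f := fun i => fA i q r) (fun i _ => hA0 i q r) hiI
    have hsB := single_le_sum (f := fun i => fB i q r) (fun i _ => hB0 i q r) hiI
    have hsK := single_le_sum (f := fun i => fK i q r) (fun i _ => hK0 i q r) hiI
    have hsN := single_le_sum (f := fun i => fN i q r) (fun i _ => hN0 i q r) hiI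
    simp only [hfA, hfB, hfK, hfN] at hsA hsB hsK hsN
    rw [show (2 : ℝ) ^ ix q r = X q r from rfl, hpw] at hsA hsB hsK hsN
    simp only [H]
    rw [mul_add, mul_one]
    have hXp := hXpos q r
    have eB : mass (lv q) q * mass (lv r) r * (if 1 / ((lv r : ℝ) + 8) ^ K ≤ X q r then
        lX (X q r) ^ N / X q r * (excCoin γ A B (yBig (X q r)) (lv q) (lv r) q r +
          if X q r ≤ 1 / 8 ∧ CoinAt γ A B 1 (lv q) (lv r) q r then 1 else 0) else 0) ≤
        ∑ i ∈ I, fB i q r := by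
      refine le_trans (le_of_eq ?_) hsB
      by_cases hg : 1 / ((lv r : ℝ) + 8) ^ K ≤ X q r
      · rw [if_pos hg, if_pos (show Gate lv K (X q r) q r from ⟨hle, hX2, hg⟩)]
      · rw [if_neg hg, if_neg (show ¬ Gate lv K (X q r) q r from fun h => hg h.2.2)]
    have eK : mass (lv q) q * mass (lv r) r * (if KEv A B (lv q) (lv r) (red q r) then
        (lX (X q r) + lv q) ^ N / X q r else 0) ≤ ∑ i ∈ I, fK i q r := by
      refine le_trans (le_of_eq ?_) hsK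
      simp only [hle, true_and]
    have eN : mass (lv q) q * mass (lv r) r * (if X q r ≤ 1 / 8 ∧ X q r < 1 / ((lv r : ℝ) + 8) ^ K ∧
        ((2 : ℝ) ^ lv r)⁻¹ ≤ 3 * X q r then ((lv r : ℝ) + 8) ^ N / X q r *
          gNear γ A B (X q r) (lv q) (lv r) (red q r) (red r q) else 0) ≤ ∑ i ∈ I, fN i q r := by
      refine le_trans (le_of_eq ?_) hsN
      simp only [NearGate, hle, true_and]
    have eL : mass (lv q) q * mass (lv r) r * (if X q r ≤ 1 / 8 ∧ ¬ SameCls A B (lv q) (lv r) then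
        ((lv r : ℝ) + 8) ^ N * gLine (B (lv r)) (lv r) (red q r) (red r q) else 0) ≤ fL q r := by
      simp only [fL]
      by_cases hd : ¬ SameCls A B (lv q) (lv r)
      · rw [if_pos (show lv q ≤ lv r ∧ ¬ SameCls A B (lv q) (lv r) from ⟨hle, hd⟩)]
        split_ifs
        · exact le_rfl
        · rw [mul_zero]
          exact mul_nonneg hmm (mul_nonneg (by positivity) (gLine_nonneg _ _ _ _))
      · rw [if_neg fun h => hd h.2, if_neg fun h => hd h.2, mul_zero]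
    have eA : _ ≤ ∑ i ∈ I, fA i q r := hsA
    simp only [pairEv]
    generalize ∑ i ∈ I, fA i q r = sA at eA ⊢
    generalize ∑ i ∈ I, fB i q r = sB at eB ⊢
    generalize ∑ i ∈ I, fK i q r = sK at eK ⊢
    generalize ∑ i ∈ I, fN i q r = sN at eN ⊢
    simp only [mul_add] at eA eB eK eN eL ⊢
    linarith
  have hdiag : ∀ q ∈ S, T q q ≤ 2 * mass (lv q) q := by
    intro q hq
    obtain ⟨-, -, h3, -⟩ := single γ A B h (lv q) q (hS q hq).2.1 (hpos q hq)
    simp only [T, Set.inter_self]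
    refine le_trans ?_ h3
    rw [mul_assoc]
    exact mul_le_of_le_one_left (mul_nonneg (cwt_nonneg _ _) measureReal_nonneg) (cwt_le_one _ _)
  have hTle : ∀ q ∈ S, ∀ r ∈ S,
      T q r ≤ (if q = r then 2 * mass (lv q) q else 0) + 2 * Ca * (H q r + H r q) := by
    intro q hq r hr
    have hnn : 0 ≤ 2 * Ca * (H q r + H r q) := mul_nonneg (by linarith) (add_nonneg (hH0 q r) (hH0 r q))
    have hq' := mul_nonneg (show 0 ≤ 2 * Ca by linarith) (hH0 q r)
    have hr' := mul_nonneg (show 0 ≤ 2 * Ca by linarith) (hH0 r q)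
    rcases eq_or_ne q r with rfl | hne
    · rw [if_pos rfl]; linarith [hdiag q hq]
    rw [if_neg hne, zero_add]
    rcases le_total (lv q) (lv r) with hle | hle
    · linarith [hside q hq r hr hne hle]
    · have hsym : T q r = T r q := by
        simp only [T]
        rw [Set.inter_comm (arcs γ A B (lv q) q) (arcs γ A B (lv r) r)]
        ring
      linarith [hside r hr q hq hne.symm hle]
  refine (sum_le_sum fun q hq => sum_le_sum fun r hr => hTle q hq r hr).trans ?_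
  have hpow : Ψ ^ (2 * thT) ≤ Ψ ^ 2 * 1 := by
    have h1 : Ψ ^ (2 * thT) ≤ Ψ ^ ((2 : ℕ) : ℝ) * Ψ ^ (1 / 500 : ℝ) := by
      rw [← rpow_add (by linarith)]
      exact rpow_le_rpow_of_exponent_le hΨ (by norm_num [thT])
    rw [rpow_natCast] at h1
    refine le_trans ?_ (le_of_eq (mul_one _).symm)
    have h2 : 2 * thT ≤ ((2 : ℕ) : ℝ) := by norm_num [thT]
    exact (rpow_le_rpow_of_exponent_le hΨ h2).trans_eq (rpow_natCast _ _)
  rw [mul_one] at hpow
  have hsumH : ∑ q ∈ S, ∑ r ∈ S, H q r ≤ Ct * Ψ ^ 2 := by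
    simp only [H, sum_add_distrib]
    have e1 : ∑ q ∈ S, ∑ r ∈ S, mass (lv q) q * mass (lv r) r = Ψ ^ 2 := by
      rw [sq, hΨdef, sum_mul_sum]
    have e2 : ∀ f : ℤ → ℕ → ℕ → ℝ, ∑ q ∈ S, ∑ r ∈ S, ∑ i ∈ I, f i q r = ∑ i ∈ I, ∑ q ∈ S, ∑ r ∈ S, f i q r := by
      intro f
      rw [sum_comm (s := I)]
      exact sum_congr rfl fun q _ => sum_comm
    rw [e1, e2 fA, e2 fB, e2 fK, e2 fN]
    have a1 := (hdivs lv S hpos I).trans (mul_le_mul_of_nonneg_left hpow hCd)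
    have a2 := (hcoins γ A B h lv S hS I).trans (mul_le_mul_of_nonneg_left hpow hCc)
    have a3 := (hks γ A B h lv S hpos I).trans (mul_le_mul_of_nonneg_left hpow hCk)
    have a4 := hnear K (le_max_right _ _) γ A B h lv S (fun q hq => ⟨(hS q hq).1, (hS q hq).2.1⟩) hΨ I
    have a5 := (hline γ A B h lv S hS).trans (mul_le_mul_of_nonneg_left (le_self_pow₀ hΨ two_ne_zero) hCl)
    simp only [fA, fB, fK, fN, fL] at *
    rw [hCt]
    linarith
  simp only [sum_add_distrib, ← mul_sum]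
  rw [sum_comm (f := fun q r => H r q)]
  have h6 : ∑ q ∈ S, ∑ r ∈ S, (if q = r then 2 * mass (lv q) q else 0) = 2 * Ψ := by
    rw [hΨdef, mul_sum]
    exact sum_congr rfl fun q hq => by rw [sum_ite_eq, if_pos hq]
  rw [h6]
  have h7 := mul_le_mul_of_nonneg_left hsumH (show 0 ≤ 4 * Ca by linarith)
  have h8 : Ψ ≤ Ψ ^ 2 := le_self_pow₀ hΨ two_ne_zero
  linarith

end Vale.Agent.P028.Tame
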