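import Vale.Agent.P028.PairsScale
import Vale.Agent.P028.EventBound

/-! Pairs with a bounded gap and an event, over all levels at once. -/

namespace Vale.Agent.P028.Tame

open Finset Real
open scoped Classical

noncomputable def thT : ℝ := 501 / 1000

/-- Exponent of the unresolved primes. -/
noncomputable def eT : ℝ := 4988 / 10000

/-- Exponent of the primes resolved in advance. -/
noncomputable def fT : ℝ := 499 / 2000

/-- Cost of one prime resolved in advance. -/
noncomputable def cT : ℝ := 2 / (1 - (2 : ℝ) ^ (-fT))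

theorem cT_one_le : 1 ≤ cT := by
  have h1 : (2 : ℝ) ^ (-fT) < 1 := rpow_lt_one_of_one_lt_of_neg (by norm_num) (by norm_num [fT])
  have h2 : (0 : ℝ) < (2 : ℝ) ^ (-fT) := by positivity
  rw [cT, le_div_iff₀ (by linarith)]; linarith

/-- The members of `S` of one dyadic scale. -/
def scCls (lv : ℕ → ℕ) (S : Finset ℕ) (s : ℕ) : Finset ℕ := S.filter (fun q => scaleOf lv q = s)

/-- The weight of the pairs of an event with gap at most `D`. -/
noncomputable def evSum (lv : ℕ → ℕ) (SV SW : Finset ℕ) (D : ℝ) (E : ℕ → ℕ → Prop) : ℝ :=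
  ∑ v ∈ SV, ∑ w ∈ SW,
    if dgap (lv v) (lv w) v w ≤ D ∧ E v w then mass (lv v) v * mass (lv w) w else 0

/-- The leaf bound an event has to satisfy. -/
def LeafHyp (lv : ℕ → ℕ) (SV SW : Finset ℕ) (E : ℕ → ℕ → Prop) (P : Finset ℕ) (D G : ℝ) : Prop :=
  ∀ s t : ℕ, ∀ V W R : Finset ℕ, V ⊆ scCls lv SV s → W ⊆ scCls lv SW t → P ⊆ R →
    (∀ p ∈ R, p.Prime) → ExpConst R V → ExpConst R W → ∀ N : ℕ → ℕ, ∀ v₀ ∈ V, ∀ w₀ ∈ W,
      (∑ v ∈ V, ∑ w ∈ W, if Apart R N v w ∧ dgap (lv v) (lv w) v w ≤ D ∧ E v w then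
          mass (lv v) v * mass (lv w) w else 0) ≤
        G * (D ^ 2) ^ (1 - thT) * ((1 / 2 : ℝ) ^ ((1 - thT) / 2)) ^ Nat.dist s t *
          ((∑ v ∈ V, mass (lv v) v) * ∑ w ∈ W, mass (lv w) w) ^ thT *
          (shiftWt (powT eT) (powT eT) (R \ P) v₀ w₀ * shiftWt (powT fT) (powT fT) P v₀ w₀)

/-- From the leaf bound to all pairs. -/
theorem pairs_master : ∃ (p₀ : ℕ) (C : ℝ), 0 ≤ C ∧ ∀ (lv : ℕ → ℕ) (SV SW : Finset ℕ),
    (∀ v ∈ SV, 0 < v) → (∀ w ∈ SW, 0 < w) → ∀ (E : ℕ → ℕ → Prop) (P : Finset ℕ),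
      smallPrimes p₀ ⊆ P → (∀ p ∈ P, p.Prime) → ∀ (D G : ℝ), 0 ≤ D → 0 ≤ G →
      LeafHyp lv SV SW E P D G →
      evSum lv SV SW D E ≤ C * cT ^ P.card * G * (D ^ 2) ^ (1 - thT) *
        ((∑ v ∈ SV, mass (lv v) v) * ∑ w ∈ SW, mass (lv w) w) ^ thT := by
  have hθ : 1 / 2 < thT := by norm_num [thT]
  have hθ1 : thT < 1 := by norm_num [thT]
  have he : 0 < eT := by norm_num [eT]
  obtain ⟨η, hη, hη2, hηθ, pA, hpA⟩ := exists_params hθ hθ1 he
  obtain ⟨pB, hpB, hpB'⟩ := exists_absorb (e₁ := eT) (e₂ := eT) hθ hθ1 he le_rfl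
    (by norm_num [eT, thT]) (by norm_num [eT, thT]) (by norm_num [eT, thT])
  set ρ : ℝ := (1 / 2 : ℝ) ^ ((1 - thT) / 2) with hρ
  have hρ1 : ρ < 1 := rpow_lt_one (by norm_num) (by norm_num) (by norm_num [thT])
  have hρ0 : 0 ≤ ρ := rpow_nonneg (by norm_num) _
  refine ⟨max pA pB, 2 * (2 / (1 - ρ)), by
    have : (0 : ℝ) ≤ 2 / (1 - ρ) := div_nonneg zero_le_two (by linarith)
    positivity, fun lv SV SW hSV hSW E P hP₀ hP D G hD hG hleafHyp => ?_⟩
  set m : ℕ → ℝ := fun q => mass (lv q) q with hm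
  have hmV : ∀ q ∈ SV, 0 < m q := fun q hq => mass_pos_of_pos (hSV q hq) _
  have hmW : ∀ q ∈ SW, 0 < m q := fun q hq => mass_pos_of_pos (hSW q hq) _
  set f : ℕ → ℕ → ℝ := fun q r =>
    if dgap (lv q) (lv r) q r ≤ D ∧ E q r then m q * m r else 0 with hf
  have hf0 : ∀ q ∈ SV, ∀ r ∈ SW, 0 ≤ f q r := fun q hq r hr => by
    simp only [f]; split
    · exact (mul_pos (hmV q hq) (hmW r hr)).le
    · exact le_rfl
  set I := (SV ∪ SW).image (scaleOf lv) with hI
  have hsubV : ∀ s, scCls lv SV s ⊆ SV := fun s => filter_subset _ _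
  have hsubW : ∀ s, scCls lv SW s ⊆ SW := fun s => filter_subset _ _
  have hD2 : 0 ≤ (D ^ 2) ^ (1 - thT) := rpow_nonneg (sq_nonneg D) _
  have hb1 : 0 ≤ cT ^ P.card := pow_nonneg (zero_le_one.trans cT_one_le) _
  -- one pair of scales
  have hblock : ∀ s t : ℕ, ∑ v ∈ scCls lv SV s, ∑ w ∈ scCls lv SW t, f v w ≤
      2 * (G * (D ^ 2) ^ (1 - thT) * cT ^ P.card) *
        (((∑ v ∈ scCls lv SV s, m v) * ∑ w ∈ scCls lv SW t, m w) ^ thT * ρ ^ Nat.dist s t) := by
    intro s t
    have hmain : ∑ v ∈ scCls lv SV s, ∑ w ∈ scCls lv SW t, f v w ≤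
        2 * (G * (D ^ 2) ^ (1 - thT) * ρ ^ Nat.dist s t) * (∏ _p ∈ P, cT) *
          ((∑ v ∈ scCls lv SV s, m v) * ∑ w ∈ scCls lv SW t, m w) ^ thT := by
      refine sum_pairs_le_of_patterns P (scCls lv SV s) (scCls lv SW t) m m f (powT fT) (powT fT) hθ.le
        (fun v hv => (hmV v (hsubV s hv)).le) (fun v hv => (hmW v (hsubW t hv)).le) (by positivity)
        (fun p _ => powT_nonneg _ _) (fun p _ => powT_nonneg _ _) (fun _ => cT)
        (fun p hp J i => (sum_expKer_powT_le (by norm_num [fT]) le_rfl (hP p hp).two_le J i).1)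
        (fun p hp J i => (sum_expKer_powT_le (by norm_num [fT]) le_rfl (hP p hp).two_le J i).2) ?_
      intro V' hV' W' hW' cV cW v₀ hv₀ w₀ hw₀
      set T₀ := ((V' ∪ W').biUnion Nat.primeFactors) \ P with hT₀
      have hT₀p : ∀ p ∈ T₀, p.Prime ∧ max pA pB < p := by
        intro p hp
        obtain ⟨hp1, hp2⟩ := mem_sdiff.1 hp
        obtain ⟨x, hx, hpx⟩ := mem_biUnion.1 hp1
        have hpp := Nat.prime_of_mem_primeFactors hpx
        exact ⟨hpp, big_of_notMem_smallPrimes hpp fun h => hp2 (hP₀ h)⟩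
      have hok : ∀ p ∈ T₀, PrimeOK thT η eT eT p := fun p hp =>
        hpA p (lt_of_le_of_lt (le_max_left _ _) (hT₀p p hp).2) eT
      let Sy : GcdSys :=
        { θ := thT, η := η, t₁ := powT eT, t₂ := powT eT, R₀ := P, T₀ := T₀
          C₀ := G * (D ^ 2) ^ (1 - thT) * ρ ^ Nat.dist s t * shiftWt (powT fT) (powT fT) P v₀ w₀
          V₀ := V', W₀ := W', α := m, β := m
          k := fun v w => if v ∈ V' ∧ w ∈ W' then f v w else 0
          hθ := hθ, hθ1 := hθ1, hη := hη, hη2 := hη2, hηθ := hηθ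
          hC₀ := mul_nonneg (by positivity)
            (prod_nonneg fun p _ => expKer_nonneg (powT_nonneg _ _) (powT_nonneg _ _) _ _)
          hα := fun v hv => hmV v (hsubV s (hV' hv))
          hβ := fun w hw => hmW w (hsubW t (hW' hw))
          hk := fun v w => by
            split
            · next h => exact hf0 v (hsubV s (hV' h.1)) w (hsubW t (hW' h.2))
            · exact le_rfl
          ht₂ := fun p _ => powT_nonneg _ _
          ht₂₁ := fun p _ => le_rfl
          ht₁ := fun p hp => (hok p hp).t₁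
          hsmall₁ := fun p hp => (hok p hp).small₁
          hsmall₂ := fun p hp => (hok p hp).small₂
          cover := fun x hx p hp => by
            by_cases h : p ∈ P
            · exact mem_union_left _ h
            · exact mem_union_right _ (mem_sdiff.2 ⟨mem_biUnion.2 ⟨x, hx, hp⟩, h⟩) }
      have hconf : Sy.Conf V' W' P T₀ :=
        ⟨subset_rfl, subset_rfl, subset_rfl, subset_rfl, disjoint_sdiff, cV, cW, Sy.cover,
          subset_union_left⟩
      have habs : Sy.Absorbs := by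
        refine GcdSys.absorbs_of_sum ?_ ?_
        · exact fun p hp => hpB p (lt_of_le_of_lt (le_max_right _ _) (hT₀p p hp).2)
        · exact hpB' T₀ fun p hp => lt_of_le_of_lt (le_max_right _ _) (hT₀p p hp).2
      have hleaf : Sy.Leaf := by
        intro V'' W'' R hV'' hW'' hR hRsub cV'' cW'' N v hv w hw
        have hRp : ∀ p ∈ R, p.Prime := fun p hp => by
          rcases mem_union.1 (hRsub hp) with h | h
          · exact hP p h
          · exact (hT₀p p h).1
        have h := hleafHyp s t V'' W'' R (hV''.trans hV') (hW''.trans hW') hR hRp cV'' cW'' N v hv w hw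
        refine le_trans (sum_le_sum fun x hx => sum_le_sum fun y hy => ?_) (h.trans_eq ?_)
        · simp only [Sy, if_pos (And.intro (hV'' hx) (hW'' hy)), hf, hm]
          by_cases hap : Apart R N x y
          · simp only [hap, true_and, if_true, le_refl]
          · simp only [hap, false_and, if_false, le_refl]
        · have hcongr : shiftWt (powT fT) (powT fT) P v w = shiftWt (powT fT) (powT fT) P v₀ w₀ :=
            shiftWt_congr cV cW (hV'' hv) hv₀ (hW'' hw) hw₀
          simp only [GcdSys.mV, GcdSys.mW, GcdSys.shift, Sy, hm, hρ, hcongr]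
          ring
      have hfin := GcdSys.pairs_le_of hleaf habs V' W' P T₀ hconf v₀ hv₀ w₀ hw₀
      simp only [GcdSys.pairs, GcdSys.mV, GcdSys.mW, GcdSys.shift, Sy, sdiff_self, shiftWt] at hfin
      rw [Finset.bot_eq_empty, prod_empty, mul_one] at hfin
      refine le_trans (le_of_eq (sum_congr rfl fun x hx => sum_congr rfl fun y hy => ?_))
        (hfin.trans_eq ?_)
      · rw [if_pos (And.intro hx hy)]
      · simp only [shiftWt]; ring
    refine hmain.trans_eq ?_
    rw [prod_const]; ring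
  -- sum over the scales
  set MV := ∑ q ∈ SV, m q
  set MW := ∑ q ∈ SW, m q
  have hsplit : ∀ S : Finset ℕ, S ⊆ SV ∪ SW → ∀ g : ℕ → ℝ,
      ∑ q ∈ S, g q = ∑ s ∈ I, ∑ q ∈ scCls lv S s, g q := fun S hS g =>
    (sum_fiberwise_of_maps_to (fun q hq => mem_image_of_mem _ (hS hq)) g).symm
  have hker := sum_kernel_le I I (fun s => ∑ v ∈ scCls lv SV s, m v) (fun s => ∑ v ∈ scCls lv SW s, m v)
    (fun s t => ρ ^ Nat.dist s t) (X := MV) (Y := MW) (R := 2 / (1 - ρ)) hθ.le
    (fun s _ => sum_nonneg fun v hv => (hmV v (hsubV s hv)).le)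
    (fun s _ => sum_nonneg fun v hv => (hmW v (hsubW s hv)).le)
    (hsplit SV subset_union_left m).symm.le (hsplit SW subset_union_right m).symm.le
    (fun s _ t _ => pow_nonneg hρ0 _) (div_nonneg zero_le_two (by linarith))
    (fun s _ => sum_pow_dist_le_const hρ0 hρ1 I s)
    (fun t _ => (sum_congr rfl fun s _ => by rw [Nat.dist_comm]).trans_le
      (sum_pow_dist_le_const hρ0 hρ1 I t))
  have hdec : evSum lv SV SW D E =
      ∑ s ∈ I, ∑ t ∈ I, ∑ v ∈ scCls lv SV s, ∑ w ∈ scCls lv SW t, f v w := by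
    rw [evSum, hsplit SV subset_union_left]
    refine sum_congr rfl fun s _ => ?_
    rw [sum_comm (s := I)]
    exact sum_congr rfl fun v _ => hsplit SW subset_union_right _
  rw [hdec]
  refine (sum_le_sum fun s _ => sum_le_sum fun t _ => hblock s t).trans ?_
  simp only [← mul_sum]
  refine (mul_le_mul_of_nonneg_left hker (by positivity)).trans_eq ?_
  ring

end Vale.Agent.P028.Tame
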