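import Vale.Agent.P028.Tame.Stmts
import Vale.Agent.P028.Main

/-! From the second moment without loss to the split divergence theorem. -/

namespace Vale.Agent.P028.Tame

open MeasureTheory Finset Real
open scoped Classical

/-- The approximations that are small, but not negligible, in terms of `q`. -/
def GoodQ (ψ : ℕ → ℝ) (δ : ℝ) (q : ℕ) : Prop :=
  0 < q ∧ 0 < ψ q ∧ ψ q < 1 / 2 ∧ ψ q ≤ exp (-(log (log ((q : ℝ) + 16)) ^ (1 + δ))) ∧
    1 / (q : ℝ) ^ 2 ≤ ψ q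

theorem log_log_nonneg (q : ℕ) : 0 ≤ log (log ((q : ℝ) + 16)) := by
  refine log_nonneg ?_
  rw [le_log_iff_exp_le (by positivity)]
  linarith [exp_one_lt_d9, (Nat.cast_nonneg q : (0 : ℝ) ≤ _)]

/-- A good `q` is tame at its level. -/
theorem GoodQ.tameQ {ψ : ℕ → ℝ} {δ : ℝ} (hδ : 0 < δ) {lv : ℕ → ℕ} {q : ℕ} (h : GoodQ ψ δ q)
    (hlv : 1 ≤ lv q ∧ rad (lv q) ≤ ψ q ∧ ψ q < 4 * rad (lv q)) :
    TameQ (1 / (1 + δ)) 2 lv q := by
  obtain ⟨hq, hpos, -, hT, hlow⟩ := h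
  obtain ⟨hl, hlo, hhi⟩ := hlv
  have hqR : (0 : ℝ) < q := by exact_mod_cast hq
  have h4 : (0 : ℝ) < (4 : ℝ) ^ lv q := by positivity
  refine ⟨hq, hl, ?_, ?_⟩
  · set x := log (log ((q : ℝ) + 16)) with hx
    have hx0 : 0 ≤ x := log_log_nonneg q
    have hlR : (0 : ℝ) ≤ lv q := Nat.cast_nonneg _
    have h1 : log (rad (lv q)) ≤ log (ψ q) := log_le_log (by rw [rad]; positivity) hlo
    rw [rad, log_inv, log_pow] at h1
    have h2 : log (ψ q) ≤ -x ^ (1 + δ) :=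
      (log_le_log hpos hT).trans_eq (log_exp _)
    have h3 : log (4 : ℝ) ≤ 2 := by
      rw [show (4 : ℝ) = 2 ^ (2 : ℕ) by norm_num, log_pow]; push_cast; linarith [log_two_lt_d9]
    have h5 : x ^ (1 + δ) ≤ 2 * (lv q : ℝ) := by
      have := mul_le_mul_of_nonneg_left h3 hlR
      linarith
    calc x = (x ^ (1 + δ)) ^ (1 / (1 + δ)) := by
          rw [← rpow_mul hx0, mul_one_div, div_self (by linarith), rpow_one]
      _ ≤ (2 * (lv q : ℝ)) ^ (1 / (1 + δ)) := rpow_le_rpow (by positivity) h5 (by positivity)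
      _ = (2 : ℝ) ^ (1 / (1 + δ)) * (lv q : ℝ) ^ (1 / (1 + δ)) := mul_rpow zero_le_two hlR
      _ ≤ (2 : ℝ) ^ (1 : ℝ) * (lv q : ℝ) ^ (1 / (1 + δ)) := by
          refine mul_le_mul_of_nonneg_right (rpow_le_rpow_of_exponent_le one_le_two ?_) (by positivity)
          rw [div_le_one (by linarith)]; linarith
      _ = 2 * (lv q : ℝ) ^ (1 / (1 + δ)) := by rw [rpow_one]
  · have h1 : 1 / (q : ℝ) ^ 2 ≤ 4 * ((4 : ℝ) ^ lv q)⁻¹ := hlow.trans hhi.le
    rw [div_le_iff₀ (by positivity)] at h1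
    have h2 := mul_le_mul_of_nonneg_left h1 h4.le
    rw [mul_one] at h2
    refine h2.trans_eq ?_
    field_simp

/-- Good denominators carry a large mass beyond any bound. -/
theorem exists_good {ψ : ℕ → ℝ} {δ : ℝ} (hψ : ∀ q, 0 ≤ ψ q)
    (hdiv : ¬ Summable (fun q : ℕ => if ψ q ≤ exp (-(log (log ((q : ℝ) + 16)) ^ (1 + δ)))
      then (Nat.totient q : ℝ) * ψ q / (q : ℝ) else 0))
    (hsmall : {q : ℕ | 1 / 2 ≤ ψ q}.Finite) (lv : ℕ → ℕ)
    (hlv : ∀ q, 0 < ψ q → ψ q < 1 / 2 → 1 ≤ lv q ∧ rad (lv q) ≤ ψ q ∧ ψ q < 4 * rad (lv q))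
    (Q : ℕ) :
    ∃ S : Finset ℕ, (∀ q ∈ S, Q ≤ q ∧ GoodQ ψ δ q) ∧ 1 ≤ ∑ q ∈ S, mass (lv q) q := by
  by_contra hnot
  apply hdiv
  set g : ℕ → ℝ := fun q => if Q ≤ q ∧ GoodQ ψ δ q then mass (lv q) q else 0 with hg
  have hg0 : ∀ q, 0 ≤ g q := fun q => by
    simp only [hg]; split_ifs
    · exact mass_nonneg _ _
    · exact le_rfl
  have hpartial : ∀ u : Finset ℕ, ∑ q ∈ u, g q ≤ 1 := by
    intro u
    rw [hg, ← sum_filter]
    by_contra hbig
    exact hnot ⟨_, fun q hq => (mem_filter.1 hq).2, (not_le.1 hbig).le⟩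
  have hgs : Summable g := summable_of_sum_le hg0 hpartial
  have hsq : Summable (fun q : ℕ => 1 / (q : ℝ) ^ 2) :=
    Real.summable_one_div_nat_pow.2 (by norm_num)
  refine Summable.of_norm_bounded_eventually (g := fun q => 4 * g q + 1 / (q : ℝ) ^ 2)
    ((hgs.mul_left 4).add hsq) ?_
  rw [Filter.eventually_cofinite]
  refine ((Set.finite_Iio (max Q 1)).union hsmall).subset fun q hq => ?_
  by_contra hq'
  simp only [Set.mem_union, Set.mem_Iio, Set.mem_ofPred_eq, not_or, not_lt, not_le] at hq'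
  obtain ⟨hq1, hq2⟩ := hq'
  apply hq
  simp only [max_le_iff] at hq1
  have hqR : (0 : ℝ) < q := by exact_mod_cast hq1.2
  have hφ : (Nat.totient q : ℝ) ≤ q := by exact_mod_cast Nat.totient_le q
  have hsq0 : (0 : ℝ) ≤ 1 / (q : ℝ) ^ 2 := by positivity
  by_cases hT : ψ q ≤ exp (-(log (log ((q : ℝ) + 16)) ^ (1 + δ)))
  · rw [if_pos hT, Real.norm_of_nonneg (div_nonneg (mul_nonneg (Nat.cast_nonneg _) (hψ q)) hqR.le)]
    by_cases hlow : 1 / (q : ℝ) ^ 2 ≤ ψ q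
    · have h0 : 0 < ψ q := lt_of_lt_of_le (by positivity) hlow
      have hgq : g q = mass (lv q) q := if_pos ⟨hq1.1, hq1.2, h0, hq2, hT, hlow⟩
      obtain ⟨-, -, hhi⟩ := hlv q h0 hq2
      have h1 : (Nat.totient q : ℝ) * ψ q / q ≤ 4 * mass (lv q) q := by
        refine (div_le_div_of_nonneg_right (mul_le_mul_of_nonneg_left hhi.le (Nat.cast_nonneg _))
          hqR.le).trans_eq ?_
        rw [mass, phiR]; ring
      rw [hgq]; linarith
    · have h1 : (Nat.totient q : ℝ) * ψ q / q ≤ ψ q := by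
        rw [div_le_iff₀ hqR, mul_comm (ψ q)]
        exact mul_le_mul_of_nonneg_right hφ (hψ q)
      linarith [hg0 q, not_le.1 hlow]
  · rw [if_neg hT, norm_zero]
    linarith [hg0 q]

/-- The tame second moment gives full measure on small approximations. -/
theorem ae_infinite_small (hmain : MainTameStmt) (γ : ℝ) (ψ : ℕ → ℝ) {δ : ℝ} (hδ : 0 < δ)
    (hψ : ∀ q, 0 ≤ ψ q)
    (hdiv : ¬ Summable (fun q : ℕ => if ψ q ≤ exp (-(log (log ((q : ℝ) + 16)) ^ (1 + δ)))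
      then (Nat.totient q : ℝ) * ψ q / (q : ℝ) else 0)) :
    ∀ᵐ x : ℝ, {q : ℕ | 0 < q ∧ ∃ a : ℤ, |(q : ℝ) * x - a - γ| < ψ q}.Infinite := by
  by_cases hbig : {q : ℕ | 1 / 2 ≤ ψ q}.Infinite
  · exact ae_infinite_of_big γ ψ hbig
  rw [Set.not_infinite] at hbig
  obtain ⟨A, B, hcls⟩ := exists_isCls γ
  set lv : ℕ → ℕ := fun q =>
    if h : 0 < ψ q ∧ ψ q < 1 / 2 then (exists_level h.1 h.2).choose else 1 with hlvdef
  have hlv : ∀ q, 0 < ψ q → ψ q < 1 / 2 →
      1 ≤ lv q ∧ rad (lv q) ≤ ψ q ∧ ψ q < 4 * rad (lv q) := by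
    intro q h1 h2
    simp only [hlvdef]; rw [dif_pos ⟨h1, h2⟩]
    exact (exists_level h1 h2).choose_spec
  obtain ⟨C, hC⟩ := hmain (1 / (1 + δ)) 2 (by positivity)
    (by rw [div_lt_one (by linarith)]; linarith) zero_le_two
  choose S hS hM1 using fun Q => exists_good hψ hdiv hbig lv hlv Q
  set E : ℕ → Set ℝ := fun q =>
    if 0 < q ∧ 0 < ψ q ∧ ψ q < 1 / 2 then arcs γ A B (lv q) q else ∅ with hE
  set wt : ℕ → ℕ → ℝ := fun Q q => cwt γ A B (lv q) q / ∑ r ∈ S Q, mass (lv r) r with hwt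
  have hES : ∀ Q, ∀ q ∈ S Q, E q = arcs γ A B (lv q) q := fun Q q hq =>
    if_pos ⟨(hS Q q hq).2.1, (hS Q q hq).2.2.1, (hS Q q hq).2.2.2.1⟩
  have hΨ : ∀ Q, 0 < ∑ r ∈ S Q, mass (lv r) r := fun Q => by linarith [hM1 Q]
  have hEm : ∀ q, MeasurableSet (E q) := fun q => by
    simp only [hE]; split_ifs with h
    · exact measurableSet_arcs h.1
    · exact MeasurableSet.empty
  have hEp : ∀ q x, x + 1 ∈ E q ↔ x ∈ E q := fun q x => by
    simp only [hE]; split_ifs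
    · exact arcs_periodic _ _ _
    · simp
  have hae := weakLimit E hEm hEp S wt (fun Q q hq => (hS Q q hq).1)
    (fun Q q => div_nonneg (cwt_nonneg _ _) (hΨ Q).le) C 2 two_pos ?_ ?_
  · filter_upwards [hae] with x hx
    refine Set.infinite_of_forall_exists_gt fun Q => ?_
    obtain ⟨q, hq, hxq⟩ := hx (Q + 1)
    refine ⟨q, ?_, by omega⟩
    simp only [hE] at hxq
    by_cases hcond : 0 < q ∧ 0 < ψ q ∧ ψ q < 1 / 2
    · rw [if_pos hcond] at hxq
      obtain ⟨a, -, ha⟩ := hxq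
      exact ⟨hcond.1, a, lt_of_lt_of_le ha (hlv q hcond.2.1 hcond.2.2).2.1⟩
    · rw [if_neg hcond] at hxq
      exact absurd hxq (Set.notMem_empty x)
  · intro Q
    have h := hC γ A B hcls lv (S Q)
      (fun q hq => (hS Q q hq).2.tameQ hδ (hlv q (hS Q q hq).2.2.1 (hS Q q hq).2.2.2.1)) (hM1 Q)
    set Ψ := ∑ r ∈ S Q, mass (lv r) r with hΨdef
    calc ∑ q ∈ S Q, ∑ r ∈ S Q, wt Q q * wt Q r * volume.real (E q ∩ E r ∩ Set.Ioc 0 1)
        = (∑ q ∈ S Q, ∑ r ∈ S Q, cwt γ A B (lv q) q * cwt γ A B (lv r) r *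
            volume.real (arcs γ A B (lv q) q ∩ arcs γ A B (lv r) r ∩ Set.Ioc 0 1)) / Ψ ^ 2 := by
          simp only [sum_div]
          refine sum_congr rfl fun q hq => sum_congr rfl fun r hr => ?_
          rw [hES Q q hq, hES Q r hr]
          simp only [hwt, ← hΨdef]
          ring
      _ ≤ C := by rw [div_le_iff₀ (pow_pos (hΨ Q) 2)]; exact h
  · intro u v hu huv hv η hη
    obtain ⟨Q₀, hQ₀⟩ := phiStmt.2 (η / 2) (by linarith)
    refine ⟨Q₀, fun Q hQ => ?_⟩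
    set Ψ := ∑ r ∈ S Q, mass (lv r) r with hΨdef
    calc 2 * (v - u) - η = ∑ q ∈ S Q, mass (lv q) q * (2 * (v - u) - η) / Ψ := by
          rw [← sum_div, ← sum_mul, ← hΨdef]
          rw [mul_div_cancel_left₀ _ (hΨ Q).ne']
      _ ≤ ∑ q ∈ S Q, wt Q q * volume.real (E q ∩ Set.Ioc u v) := by
          refine sum_le_sum fun q hq => ?_
          obtain ⟨hqQ, hq0, h1, h2, -⟩ := hS Q q hq
          obtain ⟨hl, -, -⟩ := hlv q h1 h2
          have hs := (single γ A B hcls (lv q) q hl hq0).2.2.2 u v hu huv.le hv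
          have hφ := hQ₀ q (by omega)
          have hqR : (0 : ℝ) < q := by exact_mod_cast hq0
          have herr : 2 * rad (lv q) * ((2 : ℝ) ^ q.primeFactors.card + 2) / q ≤
              η * mass (lv q) q := by
            calc 2 * rad (lv q) * ((2 : ℝ) ^ q.primeFactors.card + 2) / q
                ≤ 2 * rad (lv q) * (η / 2 * Nat.totient q) / q :=
                  div_le_div_of_nonneg_right
                    (mul_le_mul_of_nonneg_left hφ (by linarith [rad_pos (lv q)])) hqR.le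
              _ = η * mass (lv q) q := by rw [mass, phiR]; ring
          rw [hES Q q hq]
          simp only [hwt, ← hΨdef]
          rw [div_mul_eq_mul_div]
          refine div_le_div_of_nonneg_right ?_ (hΨ Q).le
          linarith

/-- The second moment without loss gives the split theorem. -/
theorem splitIDS_of_mainTame : MainTameStmt → SplitIDSStmt := by
  intro hmain γ ψ ε δ hψ hε hδ hdiv
  set ψ' : ℕ → ℝ :=
    fun q => if ψ q ≤ exp (-(log (log ((q : ℝ) + 16)) ^ (1 + δ))) then 0 else ψ q with hψ'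
  have hψ'0 : ∀ q, 0 ≤ ψ' q := fun q => by
    simp only [hψ']; split_ifs
    · exact le_rfl
    · exact hψ q
  by_cases h1 : Summable (fun q : ℕ => (Nat.totient q : ℝ) * ψ' q /
      ((q : ℝ) * (log (3 + 1 / ψ' q)) ^ ε))
  · refine ae_infinite_small hmain γ ψ hδ hψ fun h2 => hdiv ((h1.add h2).congr fun q => ?_)
    simp only [hψ']
    by_cases hT : ψ q ≤ exp (-(log (log ((q : ℝ) + 16)) ^ (1 + δ))) <;> simp [hT]
  · filter_upwards [weakIDS γ ψ' ε hψ'0 hε h1] with x hx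
    refine hx.mono ?_
    rintro q ⟨hq, a, ha⟩
    refine ⟨hq, a, ha.trans_le ?_⟩
    simp only [hψ']; split_ifs
    · exact hψ q
    · exact le_rfl

end Vale.Agent.P028.Tame
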