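import Vale.Agent.P028.Tame.Master
import Vale.Agent.P028.Anatomy
import Vale.Agent.P028.NearII

/-! Interfaces for the theorem without loss for functions below a small power of `log q`. -/

namespace Vale.Agent.P028.Tame

open MeasureTheory Finset Real
open scoped Classical

/-- The level of `q` is not tiny compared with `log log q`, and `ψ q ≥ q ^ (-2)`. -/
def TameQ (σ C₀ : ℝ) (lv : ℕ → ℕ) (q : ℕ) : Prop :=
  0 < q ∧ 1 ≤ lv q ∧ log (log ((q : ℝ) + 16)) ≤ C₀ * (lv q : ℝ) ^ σ ∧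
    (4 : ℝ) ^ lv q ≤ 4 * (q : ℝ) ^ 2

/-- The logarithmic size of a gap. -/
noncomputable def lX (X : ℝ) : ℝ := 1 + log (2 + X + 1 / X)

/-- Beyond this bound primes are treated as single events. -/
noncomputable def yBig (X : ℝ) : ℕ := ⌈(4 + X + 1 / X) ^ (100 : ℕ)⌉₊

/-- Primes that can coincide at a pair with upper level `L` without being negligible. -/
def uBig (L : ℕ) : ℕ := (L + 8) ^ 3

/-- Excess of the cubed product over the large prime divisors. -/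
noncomputable def exc (Y m : ℕ) : ℝ :=
  ∏ p ∈ m.primeFactors.filter (fun p => Y < p), ((p : ℝ) / (p - 1)) ^ 3 - 1

/-- The coinciding primes of medium size at one numerator. -/
noncomputable def coinSet (γ : ℝ) (A : ℕ → ℤ) (B : ℕ → ℕ) (Y l L q r : ℕ) (n : ℤ) : Finset ℕ :=
  (bothSet γ A B l L q r).filter
    (fun p : ℕ => Y < p ∧ p ≤ uBig L ∧ (p : ℤ) ∣ coinForm A B l L q r n)

/-- Excess of the cubed products of coinciding primes, over the numerators of a pair. -/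
noncomputable def excCoin (γ : ℝ) (A : ℕ → ℤ) (B : ℕ → ℕ) (Y l L q r : ℕ) : ℝ :=
  ∑ n ∈ (nRange γ l L q r).filter (fun n => coinForm A B l L q r n ≠ 0),
    (∏ p ∈ coinSet γ A B Y l L q r n, ((p : ℝ) / (p - 1)) ^ 3 - 1)

/-- A numerator whose coincidence form is a nonzero multiple of `d`, off the line if `d = 1`. -/
def CoinAt (γ : ℝ) (A : ℕ → ℤ) (B : ℕ → ℕ) (d l L q r : ℕ) : Prop :=
  Nat.Coprime d (B l * B L) ∧ ∃ n ∈ nRange γ l L q r,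
    coinForm A B l L q r n ≠ 0 ∧ (d : ℤ) ∣ coinForm A B l L q r n ∧
      (d = 1 → (B L : ℤ) * n + A L * ((red r q : ℤ) - red q r) ≠ 0)

/-- Bound of one pair by events. -/
noncomputable def pairEv (γ : ℝ) (A : ℕ → ℤ) (B : ℕ → ℕ) (N K : ℕ) (X : ℝ) (l L q r : ℕ) : ℝ :=
  lX X ^ N * (1 + 1 / X) * ((if Ev X (red q r) then 1 else 0) + (if Ev X (red r q) then 1 else 0) +
      exc (yBig X) (red q r) + exc (yBig X) (red r q)) +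
  (if 1 / ((L : ℝ) + 8) ^ K ≤ X then lX X ^ N / X * (excCoin γ A B (yBig X) l L q r +
      if X ≤ 1 / 8 ∧ CoinAt γ A B 1 l L q r then 1 else 0) else 0) +
  (if KEv A B l L (red q r) then (lX X + l) ^ N / X else 0) +
  (if X ≤ 1 / 8 ∧ ¬ SameCls A B l L then ((L : ℝ) + 8) ^ N * gLine (B L) L (red q r) (red r q) else 0) +
  (if X ≤ 1 / 8 ∧ X < 1 / ((L : ℝ) + 8) ^ K ∧ ((2 : ℝ) ^ L)⁻¹ ≤ 3 * X then
      ((L : ℝ) + 8) ^ N / X * gNear γ A B X l L (red q r) (red r q) else 0)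

/-- Pointwise bound of one pair. -/
def AnatTameStmt : Prop :=
  ∀ C₀ : ℝ, 0 ≤ C₀ → ∃ N : ℕ, ∀ K : ℕ, 1 ≤ K → ∃ C : ℝ, 0 ≤ C ∧
    ∀ (γ : ℝ) (A : ℕ → ℤ) (B : ℕ → ℕ), IsCls γ A B → ∀ l L q r : ℕ, 1 ≤ l → l ≤ L → 0 < q → 0 < r →
      q ≠ r → log (log ((q : ℝ) + 16)) ≤ C₀ * l → (4 : ℝ) ^ L ≤ 4 * (r : ℝ) ^ 2 →
      ∀ X : ℝ, dgap l L q r ≤ X → X < 2 * dgap l L q r →
        rhoSum γ A B l L q r / dgap l L q r ≤ C * (1 + pairEv γ A B N K X l L q r)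

/-- Pairs whose first reduced entry is divisible by `d`. -/
def DivPairsStmt : Prop :=
  ∃ C c : ℝ, 0 ≤ C ∧ 1 ≤ c ∧ ∀ (lv : ℕ → ℕ) (SV SW : Finset ℕ), (∀ v ∈ SV, 0 < v) → (∀ w ∈ SW, 0 < w) →
    ∀ (D : ℝ) (d : ℕ), 0 ≤ D → 0 < d →
      evSum lv SV SW D (fun v w => d ∣ red v w) ≤
        C * c ^ d.primeFactors.card * (d : ℝ) ^ (-(1 / 5 : ℝ)) * (D ^ 2) ^ (1 - thT) *
          ((∑ v ∈ SV, mass (lv v) v) * ∑ w ∈ SW, mass (lv w) w) ^ thT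

/-- Pairs with a numerator on a progression of modulus `d`, with probability gain. -/
def CoinPairsStmt : Prop :=
  ∀ σ C₀ : ℝ, 0 ≤ σ → σ < 1 → 0 ≤ C₀ → ∀ K : ℕ, ∃ C : ℝ, 0 ≤ C ∧
    ∀ (γ : ℝ) (A : ℕ → ℤ) (B : ℕ → ℕ), IsCls γ A B → ∀ (lv : ℕ → ℕ) (S : Finset ℕ),
      (∀ q ∈ S, TameQ σ C₀ lv q) → ∀ (X : ℝ) (d : ℕ), 0 < X → 0 < d → (X ≤ 1 / 8 ∨ 1 < d) →
        (1 < d → (4 + X + 1 / X) ^ (100 : ℕ) ≤ d) →
        evSum lv S S X (fun v w => lv v ≤ lv w ∧ X < 2 * dgap (lv v) (lv w) v w ∧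
            1 / ((lv w : ℝ) + 8) ^ K ≤ X ∧ (d : ℝ) ≤ ((lv w : ℝ) + 8) ^ K ∧
            CoinAt γ A B d (lv v) (lv w) v w) ≤
          C * (min 1 X / d) ^ (1 / 100 : ℝ) * (X ^ 2) ^ (1 - thT) *
            (∑ q ∈ S, mass (lv q) q) ^ (2 * thT)

/-- Pairs of two levels with a very small gap off the line. -/
def NearSmallStmt : Prop :=
  ∀ N : ℕ, ∃ (K : ℕ) (C : ℝ), 1 ≤ K ∧ 0 ≤ C ∧ ∀ (γ : ℝ) (A : ℕ → ℤ) (B : ℕ → ℕ), IsCls γ A B →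
    ∀ (V W : Finset ℕ), (∀ v ∈ V, 0 < v) → (∀ w ∈ W, 0 < w) → ∀ (M : ℝ), 1 ≤ M → ∀ (l L : ℕ) (D : ℝ),
      1 ≤ L → l ≤ L → 0 < D → D ≤ 1 → ((2 : ℝ) ^ L)⁻¹ ≤ 3 * D → D ≤ 2 / (L : ℝ) ^ K →
      ∑ v ∈ V, mass l v ≤ M → ∑ w ∈ W, mass L w ≤ M →
        ((L : ℝ) + 8) ^ N / D * pairW l L V W (gNear γ A B D l L) ≤ C * ((L : ℝ) ^ 4)⁻¹ * M ^ 2

/-- The pairs on the exact line of a new approximation. -/
def LinePairsStmt : Prop :=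
  ∀ σ C₀ : ℝ, 0 ≤ σ → σ < 1 → 0 ≤ C₀ → ∀ N : ℕ, ∃ C : ℝ, 0 ≤ C ∧
    ∀ (γ : ℝ) (A : ℕ → ℤ) (B : ℕ → ℕ), IsCls γ A B → ∀ (lv : ℕ → ℕ) (S : Finset ℕ),
      (∀ q ∈ S, TameQ σ C₀ lv q) →
        (∑ v ∈ S, ∑ w ∈ S, if lv v ≤ lv w ∧ ¬ SameCls A B (lv v) (lv w) then
          mass (lv v) v * mass (lv w) w *
            (((lv w : ℝ) + 8) ^ N * gLine (B (lv w)) (lv w) (red v w) (red w v)) else 0) ≤
          C * ∑ v ∈ S, mass (lv v) v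

/-- Second moment without loss. -/
def MainTameStmt : Prop :=
  ∀ σ C₀ : ℝ, 0 ≤ σ → σ < 1 → 0 ≤ C₀ → ∃ C : ℝ, ∀ (γ : ℝ) (A : ℕ → ℤ) (B : ℕ → ℕ), IsCls γ A B →
    ∀ (lv : ℕ → ℕ) (S : Finset ℕ), (∀ q ∈ S, TameQ σ C₀ lv q) → 1 ≤ ∑ q ∈ S, mass (lv q) q →
      ∑ q ∈ S, ∑ r ∈ S, cwt γ A B (lv q) q * cwt γ A B (lv r) r *
          volume.real (arcs γ A B (lv q) q ∩ arcs γ A B (lv r) r ∩ Set.Ioc 0 1) ≤
        C * (∑ q ∈ S, mass (lv q) q) ^ 2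

/-- The conclusion: no loss below a small power of `log q`, an `ε`-loss above. -/
def SplitIDSStmt : Prop :=
  ∀ (γ : ℝ) (ψ : ℕ → ℝ) (ε δ : ℝ), (∀ q, 0 ≤ ψ q) → 0 < ε → 0 < δ →
    ¬ Summable (fun q : ℕ => (Nat.totient q : ℝ) * ψ q / ((q : ℝ) *
      (if ψ q ≤ exp (-(log (log ((q : ℝ) + 16)) ^ (1 + δ))) then 1
        else (log (3 + 1 / ψ q)) ^ ε))) →
    ∀ᵐ x : ℝ, {q : ℕ | 0 < q ∧ ∃ a : ℤ, |(q : ℝ) * x - a - γ| < ψ q}.Infinite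

end Vale.Agent.P028.Tame
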